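import Vale.Agent.P116B.CT

/-!
# P116B AB1

The bathtub estimate of Ahlfors and Beurling. Let `f w = re (e / (w - ζ))`, `l = 1 / (2 * R)`. For `m > 0` the set `{m < f}` is
`ball (ζ + e / (2 * m)) (1 / (2 * m))`. Layer cake (`lintegral_eq_lintegral_meas_lt`) or polar coordinates give
`∫ max (f - l) 0 = π / (4 * l) = π * R / 2`. Then `v * f ≤ l * v + max (f - l) 0 - (1 - v) * max (f - l) 0` and on the small ball
`max (f - l) 0 ≥ 1 / (2 * t) - l`.
-/

namespace Vale.P116B

open Set Filter Topology MeasureTheory Metric Complex Vale.P116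
open scoped ContDiff ComplexConjugate Real ENNReal Gradient

variable {ι : Type} [Fintype ι] {Q U E : ι → Set ℂ} {W : ι → ℂ → ℤ} {c : ι → ℂ} {r ρ s : ι → ℝ}
  {f g h k F G Φ Θ θ φ χ η ξ a b V : ℂ → ℂ} {K A O S Z : Set ℂ} {z p q w : ℂ} {j : ι}
  {R M t L ε : ℝ}

theorem ab_level {e ζ : ℂ} (he : ‖e‖ = 1) (ht : 0 < t) :
    {w : ℂ | 1 / (2 * t) < (e / (w - ζ)).re} = ball (ζ + e * t) t := by
  ext w
  have h1 : e.re * e.re + e.im * e.im = 1 := by
    rw [← normSq_apply, normSq_eq_norm_sq, he, one_pow]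
  rw [mem_ofPred_eq, mem_ball, dist_eq_norm, ← sub_sub, ← sq_lt_sq₀ (norm_nonneg _) ht.le,
    ← normSq_eq_norm_sq]
  generalize w - ζ = u
  have h2 : normSq (u - e * t) = normSq u - 2 * t * (e.re * u.re + e.im * u.im) + t ^ 2 := by
    simp only [normSq_apply, sub_re, sub_im, mul_re, mul_im, ofReal_re, ofReal_im]
    linear_combination t ^ 2 * h1
  rw [h2]
  rcases eq_or_ne u 0 with rfl | hu
  · have : 0 < 1 / (2 * t) := by positivity
    simp only [div_zero, zero_re, map_zero, zero_im, mul_zero, add_zero, sub_zero, zero_add,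
      lt_self_iff_false, iff_false, not_lt]
    exact this.le
  · rw [div_re, ← add_div, div_lt_div_iff₀ (by positivity) (normSq_pos.2 hu)]
    constructor <;> intro h <;> linarith

theorem ab_int {e ζ : ℂ} (he : ‖e‖ = 1) (hR : 0 < R) :
    Integrable (fun w : ℂ => max ((e / (w - ζ)).re - 1 / (2 * R)) 0) ∧
      ∫ w : ℂ, max ((e / (w - ζ)).re - 1 / (2 * R)) 0 = π * R / 2 := by
  obtain ⟨l, hl⟩ : ∃ l, l = 1 / (2 * R) := ⟨_, rfl⟩
  have l0 : 0 < l := by rw [hl]; positivity
  rw [← hl]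
  have hm : Measurable fun w : ℂ => max ((e / (w - ζ)).re - l) 0 := by fun_prop
  have hn : 0 ≤ᵐ[volume] fun w : ℂ => max ((e / (w - ζ)).re - l) 0 :=
    Eventually.of_forall fun w => le_max_right _ _
  have hd : ∀ x ∈ Ici (0 : ℝ), HasDerivAt (fun x => -(π / 4) * (x + l)⁻¹)
      (π / 4 * ((x + l) ^ 2)⁻¹) x := fun x hx => by
    have h1 : x + l ≠ 0 := (add_pos_of_nonneg_of_pos hx l0).ne'
    refine ((((hasDerivAt_id x).add_const l).inv h1).const_mul (-(π / 4))).congr_deriv ?_
    simp only [id]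
    ring
  have hp : ∀ x ∈ Ioi (0 : ℝ), 0 ≤ π / 4 * ((x + l) ^ 2)⁻¹ := fun x _ => by positivity
  have hT : Tendsto (fun x : ℝ => -(π / 4) * (x + l)⁻¹) atTop (𝓝 0) := by
    simpa using (tendsto_inv_atTop_zero.comp
      (tendsto_atTop_add_const_right atTop l tendsto_id)).const_mul (-(π / 4))
  have key : ∫⁻ w : ℂ, ENNReal.ofReal (max ((e / (w - ζ)).re - l) 0) =
      ENNReal.ofReal (π * R / 2) := by
    have h1 : ∫ x in Ioi (0 : ℝ), π / 4 * ((x + l) ^ 2)⁻¹ = π * R / 2 := by
      rw [integral_Ioi_of_hasDerivAt_of_nonneg' hd hp hT, hl]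
      field_simp
      ring
    rw [lintegral_eq_lintegral_meas_lt volume hn hm.aemeasurable, ← h1,
      ofReal_integral_eq_lintegral_ofReal (integrableOn_Ioi_deriv_of_nonneg' hd hp hT)
        ((ae_restrict_mem measurableSet_Ioi).mono hp)]
    refine setLIntegral_congr_fun measurableSet_Ioi fun x hx => ?_
    have x0 : 0 < x := hx
    have h2 : 0 < 1 / (2 * (x + l)) := by positivity
    have h3 : {w : ℂ | x < max ((e / (w - ζ)).re - l) 0} =
        {w : ℂ | 1 / (2 * (1 / (2 * (x + l)))) < (e / (w - ζ)).re} := by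
      ext w
      have h4 : 1 / (2 * (1 / (2 * (x + l)))) = x + l := by field_simp
      rw [mem_ofPred_eq, mem_ofPred_eq, h4, lt_max_iff, or_iff_left x0.not_gt, lt_sub_iff_add_lt]
    rw [h3, ab_level he h2, Complex.volume_ball, ← ENNReal.ofReal_pow h2.le,
      ← ENNReal.ofReal_coe_nnreal, ← ENNReal.ofReal_mul (by positivity), NNReal.coe_real_pi]
    congr 1
    field_simp
    ring
  refine ⟨(lintegral_ofReal_ne_top_iff_integrable hm.aestronglyMeasurable hn).1
    (key ▸ ENNReal.ofReal_ne_top), ?_⟩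
  rw [integral_eq_lintegral_of_nonneg_ae hn hm.aestronglyMeasurable, key,
    ENNReal.toReal_ofReal (by positivity)]

theorem ab1 {v : ℂ → ℝ} {e ζ : ℂ} (hv : Continuous v) (hc : HasCompactSupport v)
    (h01 : ∀ w, 0 ≤ v w ∧ v w ≤ 1) (he : ‖e‖ = 1) (ht : 0 < t) (htR : t ≤ R) :
    (e * ∫ w, (v w : ℂ) / (w - ζ)).re +
        (1 / (2 * t) - 1 / (2 * R)) * ∫ w in ball (ζ + e * t) t, (1 - v w) ≤
      (∫ w, v w) / (2 * R) + π * R / 2 := by
  have hR : 0 < R := ht.trans_le htR
  obtain ⟨a1, a2⟩ := ab_int (ζ := ζ) he hR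
  have i1 := (int_div (V := fun w => (v w : ℂ)) (continuous_ofReal.comp hv)
    (hc.comp_left (g := fun x : ℝ => (x : ℂ)) ofReal_zero) ζ).const_mul e
  have i2 : Integrable v := hv.integrable_of_hasCompactSupport hc
  have i3 : IntegrableOn (fun w => 1 - v w) (ball (ζ + e * t) t) :=
    (integrableOn_const measure_ball_lt_top.ne).sub i2.integrableOn
  have i4 := ((integrable_indicator_iff measurableSet_ball).2 i3).const_mul
    (1 / (2 * t) - 1 / (2 * R))
  have i5 : Integrable fun w => (e * ((v w : ℂ) / (w - ζ))).re := i1.re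
  have e1 := integral_re i1
  simp only [RCLike.re_to_complex] at e1
  rw [← integral_const_mul, ← e1, ← integral_indicator measurableSet_ball, ← integral_const_mul,
    ← a2, ← integral_div, ← integral_add (i2.div_const _) a1, ← integral_add i5 i4]
  refine integral_mono (i5.add i4) ((i2.div_const _).add a1) fun w => ?_
  have e2 : (e * ((v w : ℂ) / (w - ζ))).re = v w * (e / (w - ζ)).re := by
    rw [← re_ofReal_mul]
    congr 1
    ring
  have h1 := le_max_left ((e / (w - ζ)).re - 1 / (2 * R)) 0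
  have h2 := le_max_right ((e / (w - ζ)).re - 1 / (2 * R)) 0
  obtain ⟨h3, h4⟩ := h01 w
  have h5 := mul_le_mul_of_nonneg_left h1 h3
  simp only [e2, div_eq_mul_one_div (v w)]
  by_cases hw : w ∈ ball (ζ + e * t) t
  · rw [indicator_of_mem hw]
    rw [← ab_level he ht, mem_ofPred_eq] at hw
    nlinarith [mul_le_mul_of_nonneg_left (h1.trans' (sub_le_sub_right hw.le _)) (sub_nonneg.2 h4)]
  · rw [indicator_of_notMem hw]
    nlinarith [mul_nonneg h2 (sub_nonneg.2 h4)]

end Vale.P116B
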