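import Vale.Agent.P116B.Basic

/-!
# P116B Cutoff

Cutoff functions and the test class. `exists_cut_real`: shrink to a compact neighbourhood
(`exists_compact_between`) and use `exists_contMDiffMap_zero_one_nhds_of_isClosed` (model `𝓘(ℝ, ℂ)`,
`ContMDiff.contDiff`). `exists_eta`: scale one `ContDiffBump`. `exists_thick`: finitely many pairs,
`Disjoint.exists_cthickenings`. Integrability: `db k` vanishes outside a closed ball; `MemLp.integrable` on a
finite measure, `MemLp.integrable_mul`.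
-/

namespace Vale.P116B

open Set Filter Topology MeasureTheory Metric Complex Vale.P116
open scoped ContDiff ComplexConjugate Real ENNReal Gradient

variable {ι : Type} [Fintype ι] {Q U E : ι → Set ℂ} {W : ι → ℂ → ℤ} {c : ι → ℂ} {r ρ s : ι → ℝ}
  {f g h k F G Φ Θ θ φ χ η ξ a b V : ℂ → ℂ} {K A O S Z : Set ℂ} {z p q w : ℂ} {j : ι}
  {R M t L ε : ℝ}

theorem exists_cut_real (hA : IsCompact A) (hO : IsOpen O) (h : A ⊆ O) :
    ∃ ψ : ℂ → ℝ, ContDiff ℝ ∞ ψ ∧ HasCompactSupport ψ ∧ tsupport ψ ⊆ O ∧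
      (∀ z, 0 ≤ ψ z ∧ ψ z ≤ 1) ∧ ∀ᶠ z in 𝓝ˢ A, ψ z = 1 := by
  obtain ⟨L, hL, h1, h2⟩ := exists_compact_between hA hO h
  obtain ⟨f, f1, f2, f3⟩ := exists_contMDiffMap_one_nhds_of_subset_interior
    (modelWithCornersSelf ℝ ℂ) (n := ⊤) hA.isClosed h1
  have h3 : tsupport f ⊆ L :=
    closure_minimal (fun x hx => by_contra fun hx' => hx (f2 x hx')) hL.isClosed
  exact ⟨f, f.contMDiff.contDiff, hL.of_isClosed_subset (isClosed_tsupport _) h3, h3.trans h2,
    fun z => f3 z, f1⟩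

theorem exists_cut (hA : IsCompact A) (hO : IsOpen O) (h : A ⊆ O) :
    ∃ χ : ℂ → ℂ, Cc χ ∧ Unit01 χ ∧ tsupport χ ⊆ O ∧ ∀ᶠ z in 𝓝ˢ A, χ z = 1 := by
  obtain ⟨ψ, h1, h2, h3, h4, h5⟩ := exists_cut_real hA hO h
  refine ⟨fun z => ψ z, cc_ofReal h1 h2, fun z => ⟨ψ z, (h4 z).1, (h4 z).2, rfl⟩, ?_, ?_⟩
  · rwa [tsupport_ofReal]
  · filter_upwards [h5] with z hz
    simp [hz]

theorem exists_eta : ∃ C : ℝ, 0 < C ∧ ∀ R : ℝ, 0 < R → ∃ η : ℂ → ℂ, Cc η ∧ Unit01 η ∧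
    (∀ z, ‖z‖ ≤ R → η z = 1) ∧ (∀ z, 2 * R ≤ ‖z‖ → η z = 0) ∧
    (∀ z, ‖z‖ < R ∨ 2 * R < ‖z‖ → fderiv ℝ η z = 0) ∧ ∀ z, ‖fderiv ℝ η z‖ ≤ C / R := by
  obtain ⟨χ, h1, h2, h3, h4⟩ := exists_cut (isCompact_closedBall (0 : ℂ) 1) isOpen_ball
    (closedBall_subset_ball one_lt_two)
  obtain ⟨C, hC⟩ := (h1.2.fderiv ℝ).exists_bound_of_continuous
    (h1.1.continuous_fderiv (by simp))
  refine ⟨C + 1, by linarith [(norm_nonneg _).trans (hC 0)], fun R hR => ?_⟩
  have n : ∀ z : ℂ, ‖R⁻¹ • z‖ = ‖z‖ / R := fun z => by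
    rw [norm_smul, norm_inv, Real.norm_of_nonneg hR.le, div_eq_inv_mul]
  have e1 : ∀ z : ℂ, ‖z‖ ≤ R → χ (R⁻¹ • z) = 1 := fun z hz =>
    h4.self_of_nhdsSet _ (by rw [mem_closedBall_zero_iff, n, div_le_one hR]; exact hz)
  have e0 : ∀ z : ℂ, 2 * R ≤ ‖z‖ → χ (R⁻¹ • z) = 0 := fun z hz =>
    image_eq_zero_of_notMem_tsupport fun h5 => by
      have h6 := h3 h5
      rw [mem_ball_zero_iff, n, div_lt_iff₀ hR] at h6
      linarith
  refine ⟨fun z => χ (R⁻¹ • z), ⟨h1.1.comp (contDiff_id.const_smul _), ?_⟩, fun z => h2 _, e1, e0,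
    fun z hz => ?_, fun z => ?_⟩
  · refine HasCompactSupport.intro (isCompact_closedBall (0 : ℂ) (2 * R)) fun z hz => e0 z ?_
    rw [mem_closedBall_zero_iff, not_le] at hz
    exact hz.le
  · rcases hz with hz | hz
    · have h5 : (fun z : ℂ => χ (R⁻¹ • z)) =ᶠ[𝓝 z] fun _ => 1 := by
        filter_upwards [(isOpen_lt continuous_norm continuous_const).mem_nhds hz] with y hy
        exact e1 y (le_of_lt hy)
      rw [h5.fderiv_eq, fderiv_fun_const, Pi.zero_apply]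
    · have h5 : (fun z : ℂ => χ (R⁻¹ • z)) =ᶠ[𝓝 z] fun _ => 0 := by
        filter_upwards [(isOpen_lt continuous_const continuous_norm).mem_nhds hz] with y hy
        exact e0 y (le_of_lt hy)
      rw [h5.fderiv_eq, fderiv_fun_const, Pi.zero_apply]
  · have h5 : HasFDerivAt (fun z : ℂ => χ (R⁻¹ • z)) _ z :=
      (h1.diffAt _).hasFDerivAt.comp z ((hasFDerivAt_id z).const_smul R⁻¹)
    rw [h5.fderiv]
    refine (ContinuousLinearMap.opNorm_comp_le _ _).trans ?_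
    rw [norm_smul, norm_inv, Real.norm_of_nonneg hR.le, ContinuousLinearMap.norm_id, mul_one,
      div_eq_mul_inv]
    exact mul_le_mul_of_nonneg_right ((hC _).trans (by linarith)) (by positivity)

theorem Unit01.norm_le (h : Unit01 χ) (z : ℂ) : ‖χ z‖ ≤ 1 := by
  obtain ⟨t, h0, h1, h2⟩ := h z
  rwa [h2, norm_real, Real.norm_of_nonneg h0]

theorem Fam.isCompact (hQ : Fam Q) : IsCompact (⋃ j, Q j) := isCompact_iUnion hQ.cpt

theorem Fam.isOpen (hQ : Fam Q) : IsOpen (Om Q) := hQ.isCompact.isClosed.isOpen_compl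

theorem Fam.exists_ball (hQ : Fam Q) : ∃ R : ℝ, 0 < R ∧ ∀ j, Q j ⊆ ball 0 R := by
  obtain ⟨R, h0, h1⟩ := hQ.isCompact.isBounded.subset_ball_lt 0 0
  exact ⟨R, h0, fun j => (subset_iUnion Q j).trans h1⟩

theorem Fam.exists_thick (hQ : Fam Q) :
    ∃ δ : ℝ, 0 < δ ∧ Pairwise (Function.onFun Disjoint fun j => cthickening δ (Q j)) := by
  have h : ∀ i j, ∀ᶠ δ in 𝓝[>] (0 : ℝ), i ≠ j →
      Disjoint (cthickening δ (Q i)) (cthickening δ (Q j)) := by
    intro i j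
    by_cases hij : i = j
    · exact Eventually.of_forall fun _ h => (h hij).elim
    · obtain ⟨δ, h0, h1⟩ := Disjoint.exists_cthickenings (hQ.disj hij) (hQ.cpt i) (hQ.cpt j).isClosed
      filter_upwards [Ioo_mem_nhdsGT h0] with e he _
      exact h1.mono (cthickening_mono he.2.le _) (cthickening_mono he.2.le _)
  obtain ⟨δ, h0, h1⟩ := ((eventually_all.2 fun i => eventually_all.2 (h i)).and
    self_mem_nhdsWithin).exists
  exact ⟨δ, h1, fun i j hij => h0 i j hij⟩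

theorem Fam.exists_Cut (hQ : Fam Q) (j : ι) (hO : IsOpen O) (h : Q j ⊆ O) :
    ∃ χ : ℂ → ℂ, Cut Q j χ ∧ Unit01 χ ∧ tsupport χ ⊆ O := by
  have hc : IsClosed (⋃ i : {i // i ≠ j}, Q i) :=
    isClosed_iUnion_of_finite fun i => (hQ.cpt i).isClosed
  obtain ⟨χ, h1, h2, h3, h4⟩ := exists_cut (hQ.cpt j) (hO.inter hc.isOpen_compl) fun z hz =>
    ⟨h hz, fun h5 => by
      obtain ⟨i, hi⟩ := mem_iUnion.1 h5
      exact disjoint_left.1 (hQ.disj i.2) hi hz⟩
  refine ⟨χ, ⟨h1, h4, fun i hi => eventually_nhdsSet_iff_forall.2 fun z hz => ?_⟩, h2,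
    h3.trans inter_subset_left⟩
  exact notMem_tsupport_iff_eventuallyEq.1 fun h5 => (h3 h5).2 (mem_iUnion.2 ⟨⟨i, hi⟩, hz⟩)

omit [Fintype ι] in
theorem mem_Om : z ∈ Om Q ↔ ∀ j, z ∉ Q j := by simp [Om]

omit [Fintype ι] in
theorem Cut.locC (h : Cut Q j χ) : LocC Q χ := by
  refine ⟨h.1, fun i => ?_⟩
  by_cases hi : i = j
  · exact ⟨1, hi ▸ h.2.1⟩
  · exact ⟨0, h.2.2 i hi⟩

omit [Fintype ι] in
theorem LocC.supp (h : LocC Q χ) : tsupport (fderiv ℝ χ) ⊆ Om Q := by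
  intro z hz
  refine mem_Om.2 fun j hj => notMem_tsupport_iff_eventuallyEq.2 ?_ hz
  obtain ⟨a, ha⟩ := h.2 j
  have h1 : χ =ᶠ[𝓝 z] fun _ => a := eventually_nhdsSet_iff_forall.1 ha z hj
  have h2 := h1.fderiv (𝕜 := ℝ)
  rwa [fderiv_fun_const] at h2

omit [Fintype ι] in
theorem LocC.db_zero (h : LocC Q χ) (hz : z ∉ Om Q) : db χ z = 0 :=
  db_of_fderiv (image_eq_zero_of_notMem_tsupport fun h1 => hz (h.supp h1))

theorem LocC.int_eq (hQ : Fam Q) (h : LocC Q χ) (G : ℂ → ℂ) :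
    ∫ z in Om Q, G z * db χ z = ∫ z, G z * db χ z :=
  setIntegral_eq_integral_of_forall_compl_eq_zero fun z hz => by rw [h.db_zero hz, mul_zero]

/-- A smooth compactly supported function that vanishes near the family is supported off it. -/
theorem supp_of_zero (h : ∀ j, ∀ᶠ z in 𝓝ˢ (Q j), φ z = 0) : tsupport φ ⊆ Om Q :=
  fun z hz => mem_Om.2 fun j hj => notMem_tsupport_iff_eventuallyEq.2
    (eventually_nhdsSet_iff_forall.1 (h j) z hj) hz

omit [Fintype ι] in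
theorem Cc.test (h : Cc φ) : Test Q φ :=
  ⟨h.1.contDiffOn, h.far, (h.db.1.continuous.memLp_of_hasCompactSupport h.db.2).restrict _⟩

theorem Test.add (hQ : Fam Q) (h1 : Test Q k) (h2 : Test Q h) : Test Q fun z => k z + h z := by
  obtain ⟨a1, ⟨R, a2⟩, a3⟩ := h1
  obtain ⟨b1, ⟨R', b2⟩, b3⟩ := h2
  refine ⟨a1.add b1, ⟨max R R', fun z hz => ?_⟩, MemLp.ae_eq ?_ (a3.add b3)⟩
  · simp only [a2 z ((le_max_left _ _).trans hz), b2 z ((le_max_right _ _).trans hz), add_zero]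
  · refine ae_restrict_of_forall_mem hQ.isOpen.measurableSet fun z hz => ?_
    exact (db_add (diffAt_of_on hQ.isOpen a1 hz) (diffAt_of_on hQ.isOpen b1 hz)).symm

theorem Test.const_mul (hQ : Fam Q) (u : ℂ) (h1 : Test Q k) : Test Q fun z => u * k z := by
  obtain ⟨a1, ⟨R, a2⟩, a3⟩ := h1
  refine ⟨contDiffOn_const.mul a1, ⟨R, fun z hz => ?_⟩, MemLp.ae_eq ?_ (a3.const_mul u)⟩
  · simp only [a2 z hz, mul_zero]
  · refine ae_restrict_of_forall_mem hQ.isOpen.measurableSet fun z hz => ?_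
    exact (db_const_mul u (diffAt_of_on hQ.isOpen a1 hz)).symm

theorem Test.diffAt (hQ : Fam Q) (hk : Test Q k) (hz : z ∈ Om Q) : DifferentiableAt ℝ k z :=
  diffAt_of_on hQ.isOpen hk.1 hz

theorem cutoff_far (h : ∀ z, R ≤ ‖z‖ → k z = 0) (hz : z ∉ closedBall (0 : ℂ) R) : db k z = 0 := by
  rw [mem_closedBall_zero_iff, not_le] at hz
  have h1 : k =ᶠ[𝓝 z] fun _ => 0 := by
    filter_upwards [(isOpen_lt continuous_const continuous_norm).mem_nhds hz] with y hy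
    exact h y (le_of_lt hy)
  rw [db_congr h1, db_const]

theorem cutoff_ext {e : ℝ≥0∞} (hS : MeasurableSet S) (h0 : ∀ z, z ∉ S → f z = 0)
    (h : MemLp f e (volume.restrict (O ∩ S))) : MemLp f e (volume.restrict O) := by
  have h1 : S.indicator f = f := indicator_eq_self.2 fun z hz => by_contra fun h2 => hz (h0 z h2)
  rw [← h1, memLp_indicator_iff_restrict hS, Measure.restrict_restrict hS, inter_comm]
  exact h

theorem cutoff_fin (hb : Bornology.IsBounded S) : IsFiniteMeasure (volume.restrict (O ∩ S)) :=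
  isFiniteMeasure_restrict.2 (hb.subset inter_subset_right).measure_lt_top.ne

theorem Test.int_db (hQ : Fam Q) (hk : Test Q k) : IntegrableOn (db k) (Om Q) := by
  obtain ⟨-, ⟨R, h2⟩, h3⟩ := hk
  have := cutoff_fin (O := Om Q) (isBounded_closedBall (x := (0 : ℂ)) (r := R))
  refine memLp_one_iff_integrable.1 (cutoff_ext measurableSet_closedBall
    (fun z hz => cutoff_far h2 hz) ?_)
  exact (h3.mono_measure (Measure.restrict_mono_set _ inter_subset_left)).mono_exponent one_le_two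

theorem Test.int_mul (hQ : Fam Q) (hk : Test Q k)
    (hΦ : MemLp (fun z => Φ z - 1) 2 (volume.restrict (Om Q))) :
    IntegrableOn (fun z => Φ z * db k z) (Om Q) := by
  have h1 := (hΦ.integrable_mul hk.2.2).add (hk.int_db hQ)
  refine h1.congr (Eventually.of_forall fun z => ?_)
  simp only [Pi.add_apply, Pi.mul_apply]
  ring

theorem Pre.hol_at (hQ : Fam Q) (hF : Pre Q F) (hz : z ∈ Om Q) : DifferentiableAt ℂ F z :=
  hF.hol.differentiableAt (hQ.isOpen.mem_nhds hz)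

theorem Pre.memLp (hQ : Fam Q) (hF : Pre Q F) (hS : MeasurableSet S) (hb : Bornology.IsBounded S) :
    MemLp (deriv F) 2 (volume.restrict (Om Q ∩ S)) := by
  have := cutoff_fin (O := Om Q) hb
  have h1 := (hF.l2.mono_measure (Measure.restrict_mono_set _ (inter_subset_left (t := S)))).add
    (memLp_const (1 : ℂ))
  refine h1.ae_eq (Eventually.of_forall fun z => ?_)
  simp

theorem Pre.int_sq (hQ : Fam Q) (hF : Pre Q F) (hS : MeasurableSet S)
    (hb : Bornology.IsBounded S) : IntegrableOn (fun z => ‖deriv F z‖ ^ 2) (Om Q ∩ S) :=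
  (memLp_two_iff_integrable_sq_norm (hF.memLp hQ hS hb).1).1 (hF.memLp hQ hS hb)

/-- Far out a normalised map moves points by at most one. -/
theorem far_one (h : Tendsto (fun z => F z - z) (cocompact ℂ) (𝓝 0)) :
    ∃ R : ℝ, 0 < R ∧ ∀ z, R ≤ ‖z‖ → ‖F z - z‖ ≤ 1 := by
  have h1 : ∀ᶠ z in cocompact ℂ, ‖F z - z‖ ≤ 1 := by
    filter_upwards [h (closedBall_mem_nhds 0 one_pos)] with z hz
    exact mem_closedBall_zero_iff.1 hz
  obtain ⟨R, hR⟩ := closedBall_compl_subset_of_mem_cocompact h1 0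
  refine ⟨max R 0 + 1, by positivity, fun z hz => hR ?_⟩
  rw [mem_compl_iff, mem_closedBall_zero_iff, not_le]
  linarith [le_max_left R 0]

theorem test_comp (hQ : Fam Q) (hF : Pre Q F) (hχ : LocC Q χ) (hΘ : ContDiff ℝ ∞ Θ)
    (hb : ∃ M : ℝ, ∀ w, ‖db Θ w‖ ≤ M) : Test Q fun z => χ z * Θ (F z) := by
  obtain ⟨M, hM⟩ := hb
  obtain ⟨R, hR⟩ := hχ.1.far
  obtain ⟨M', hM'⟩ := hχ.1.bdd
  have h1 : ContDiffOn ℝ ∞ (fun z => Θ (F z)) (Om Q) :=
    hΘ.comp_contDiffOn (contDiffOn_hol hQ.isOpen hF.hol)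
  have h2 : ∀ z, R ≤ ‖z‖ → χ z * Θ (F z) = 0 := fun z hz => by rw [hR z hz, zero_mul]
  have h3 : Cc fun z => db χ z * Θ (F z) := hχ.1.db.mul_on hQ.isOpen
    (Subset.trans (closure_mono fun z hz h0 => hz (db_of_fderiv h0)) hχ.supp) h1
  refine ⟨hχ.1.1.contDiffOn.mul h1, ⟨R, h2⟩, cutoff_ext measurableSet_closedBall
    (fun z hz => cutoff_far h2 hz) ?_⟩
  have h4 := ((h3.1.continuous.memLp_of_hasCompactSupport (p := 2) (μ := volume)
    h3.2).restrict (Om Q ∩ closedBall 0 R)).norm.add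
    ((hF.memLp hQ measurableSet_closedBall (isBounded_closedBall (x := 0) (r := R))).norm.const_mul
      (M' * M))
  refine h4.mono' (measurable_db _).aestronglyMeasurable (ae_restrict_of_forall_mem
    (hQ.isOpen.measurableSet.inter measurableSet_closedBall) fun z hz => ?_)
  rw [db_mul (hχ.1.diffAt z) (diffAt_of_on hQ.isOpen h1 hz.1),
    db_comp_hol (hΘ.differentiable (by simp) _) (hF.hol_at hQ hz.1)]
  refine (norm_add_le _ _).trans (add_le_add le_rfl ?_)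
  simp only [norm_mul, norm_conj, mul_assoc]
  exact mul_le_mul (hM' z) (mul_le_mul_of_nonneg_right (hM _) (norm_nonneg _)) (by positivity)
    ((norm_nonneg _).trans (hM' z))

end Vale.P116B
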