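import Vale.Agent.P116B.AB1
import Vale.Agent.P116B.Cutoff

/-!
# P116B AB2

The isoperimetric step. Let `S = {1 ≤ u}` (finite measure). `ab_approx`: inner and outer regularity of the finite measure with density
`|u| + indicator S` is not enough for the volume outside `S`; use the locally finite measure `volume.withDensity (1 + |u|)`, a compact
`C ⊆ S` and an open `O ⊇ S` with small `O \ C`, and `exists_cut_real`. For `0 < R`: `ab1` with `t = R` bounds the Cauchy integral of `v` by
`∫ v / (2 R) + π R / 2`, so `∫_S u ≤ |S| / 2 + π R ^ 2 / 2`, and `|S| ≤ ∫_S u`, `∫ u ≤ ∫_S u`. In the case of equality `|S| = π R ^ 2 = ∫_S u`, `u` is the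
indicator of `S` a.e., and for every `t < R`, `δ > 0` there is a ball of radius `t` with `|ball \ S| ≤ δ` (`ab_near`); `ab_disc` then finds the disc
(centres stay bounded because `S` has finite measure; pass to a subsequence with `t → R`). For `R = 0` test with all `v`, or argue with `u` and `-u`.
-/

namespace Vale.P116B

open Set Filter Topology MeasureTheory Metric Complex Vale.P116
open scoped ContDiff ComplexConjugate Real ENNReal Gradient

variable {ι : Type} [Fintype ι] {Q U E : ι → Set ℂ} {W : ι → ℂ → ℤ} {c : ι → ℂ} {r ρ s : ι → ℝ}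
  {f g h k F G Φ Θ θ φ χ η ξ a b V : ℂ → ℂ} {K A O S Z : Set ℂ} {z p q w : ℂ} {j : ι}
  {R M t L ε : ℝ}

theorem ab2_ind (hS : MeasurableSet S) (hf : volume S ≠ ⊤) :
    Integrable (S.indicator (1 : ℂ → ℝ)) :=
  (integrable_indicator_iff hS).2 (integrableOn_const hf)

theorem ab2_vol (x : ℂ) (ht : 0 ≤ t) : volume (ball x t) = ENNReal.ofReal (π * t ^ 2) := by
  rw [Complex.volume_ball, mul_comm π, ENNReal.ofReal_mul (sq_nonneg t), ENNReal.ofReal_pow ht,
    ← NNReal.coe_real_pi, ENNReal.ofReal_coe_nnreal]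

theorem ab_approx {u : ℂ → ℝ} (hi : Integrable u) (hS : MeasurableSet S) (hf : volume S ≠ ⊤)
    (hε : 0 < ε) : ∃ v : ℂ → ℝ, ContDiff ℝ ∞ v ∧ HasCompactSupport v ∧
      (∀ w, 0 ≤ v w ∧ v w ≤ 1) ∧ (∫ w, |v w - S.indicator 1 w|) ≤ ε ∧
      (∫ w, |u w| * |v w - S.indicator 1 w|) ≤ ε := by
  have hε' : ENNReal.ofReal ε ≠ 0 := (ENNReal.ofReal_pos.2 hε).ne'
  obtain ⟨δ, hδ, hac⟩ := exists_pos_setLIntegral_lt_of_measure_lt hi.2.ne hε'
  have hη : min δ (ENNReal.ofReal ε) / 2 ≠ 0 :=
    (ENNReal.half_pos (lt_min hδ (ENNReal.ofReal_pos.2 hε)).ne').ne'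
  obtain ⟨O, hSO, hO, -, h1⟩ := hS.exists_isOpen_sdiff_lt hf hη
  obtain ⟨C, hCS, hC, h2⟩ := hS.exists_isCompact_sdiff_lt hf hη
  obtain ⟨v, v1, v2, v3, v4, v5⟩ := exists_cut_real hC hO (hCS.trans hSO)
  have hD : volume (O \ C) < min δ (ENNReal.ofReal ε) := by
    refine (measure_mono (t := O \ S ∪ S \ C) fun w hw => ?_).trans_lt
      ((measure_union_le _ _).trans_lt ((ENNReal.add_lt_add h1 h2).trans_eq
        (ENNReal.add_halves _)))
    by_cases h : w ∈ S
    · exact Or.inr ⟨h, hw.2⟩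
    · exact Or.inl ⟨hw.1, h⟩
  have mD : MeasurableSet (O \ C) := hO.measurableSet.diff hC.measurableSet
  have fD : volume (O \ C) ≠ ⊤ := ne_top_of_lt hD
  have key : ∀ w, |v w - S.indicator 1 w| ≤ (O \ C).indicator 1 w := fun w => by
    by_cases hw : w ∈ O \ C
    · rw [indicator_of_mem hw, Pi.one_apply, abs_le]
      have := v4 w
      by_cases h : w ∈ S
      · rw [indicator_of_mem h, Pi.one_apply]
        constructor <;> linarith
      · rw [indicator_of_notMem h]
        constructor <;> linarith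
    · rw [indicator_of_notMem hw]
      by_cases h : w ∈ C
      · rw [indicator_of_mem (hCS h), v5.self_of_nhdsSet w h]
        simp
      · have h3 : w ∉ O := fun h3 => hw ⟨h3, h⟩
        rw [indicator_of_notMem fun h4 => h3 (hSO h4),
          image_eq_zero_of_notMem_tsupport fun h4 => h3 (v3 h4)]
        simp
  refine ⟨v, v1, v2, v4, ?_, ?_⟩
  · refine (integral_mono_of_nonneg (Eventually.of_forall fun w => abs_nonneg _)
      (ab2_ind mD fD) (Eventually.of_forall key)).trans ?_
    rw [integral_indicator_one mD]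
    exact ENNReal.toReal_le_of_le_ofReal hε.le (hD.le.trans (min_le_right _ _))
  · refine (integral_mono_of_nonneg (g := (O \ C).indicator fun w => ‖u w‖)
      (Eventually.of_forall fun w => by positivity) (hi.norm.indicator mD)
      (Eventually.of_forall fun w => ?_)).trans ?_
    · refine (mul_le_mul_of_nonneg_left (key w) (abs_nonneg _)).trans (le_of_eq ?_)
      by_cases hw : w ∈ O \ C <;> simp [hw]
    · rw [integral_indicator mD, integral_norm_eq_lintegral_enorm hi.1.restrict]
      exact ENNReal.toReal_le_of_le_ofReal hε.le (hac _ (hD.trans_le (min_le_left _ _))).le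

theorem ab_disc (hS : MeasurableSet S) (hR : 0 < R) (hv : volume S = ENNReal.ofReal (π * R ^ 2))
    (h : ∀ t, 0 < t → t < R → ∀ δ > 0, ∃ x : ℂ, volume (ball x t \ S) ≤ ENNReal.ofReal δ) :
    ∃ x : ℂ, S =ᵐ[volume] ball x R := by
  have hf : volume S ≠ ⊤ := hv ▸ ENNReal.ofReal_ne_top
  obtain ⟨a, ha, ea⟩ : ∃ a : ℝ, 0 < a ∧ a + a = π * (R / 2) ^ 2 :=
    ⟨π * (R / 2) ^ 2 / 2, by positivity, add_halves _⟩
  obtain ⟨C, -, hC, h2⟩ := hS.exists_isCompact_sdiff_lt hf (ENNReal.ofReal_pos.2 ha).ne'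
  obtain ⟨t, -, t1, t2⟩ := exists_seq_strictMono_tendsto' (half_lt_self hR)
  obtain ⟨δ, -, d1, d2⟩ := exists_seq_strictAnti_tendsto' ha
  choose x hx using fun n => h (t n) ((half_pos hR).trans (t1 n).1) (t1 n).2 (δ n) (d1 n).1
  have hb : ∀ n, x n ∈ cthickening R C := fun n => by
    by_contra hn
    have h3 : ball (x n) (R / 2) ⊆ ball (x n) (t n) \ S ∪ S \ C := fun w hw => by
      have h4 := ball_subset_ball (t1 n).1.le hw
      by_cases h : w ∈ S
      · exact Or.inr ⟨h, fun h5 => hn (mem_cthickening_of_dist_le _ w _ _ h5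
          ((mem_ball'.1 h4).le.trans (t1 n).2.le))⟩
      · exact Or.inl ⟨h4, h⟩
    have h4 := (measure_mono (μ := volume) h3).trans_lt ((measure_union_le _ _).trans_lt
      (ENNReal.add_lt_add_of_le_of_lt (ne_top_of_le_ne_top ENNReal.ofReal_ne_top (hx n))
        ((hx n).trans (ENNReal.ofReal_le_ofReal (d1 n).2.le)) h2))
    rw [ab2_vol _ (half_pos hR).le, ← ENNReal.ofReal_add ha.le ha.le, ea] at h4
    exact h4.false
  obtain ⟨y, -, φ, hφ, hy⟩ := hC.cthickening.tendsto_subseq hb
  have h0 : ∀ n, volume (ball y (t n) \ S) = 0 := fun n => by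
    have l1 : Tendsto (fun m => ENNReal.ofReal (δ (φ m))) atTop (𝓝 0) := by
      simpa using ENNReal.tendsto_ofReal (d2.comp hφ.tendsto_atTop)
    refine le_antisymm (ge_of_tendsto l1 ?_) zero_le
    have l2 := ((tendsto_const_nhds (x := y)).dist hy).const_add (t n)
    rw [dist_self, add_zero] at l2
    filter_upwards [l2.eventually_lt (t2.comp hφ.tendsto_atTop) (t1 n).2] with m hm
    exact (measure_mono (sdiff_subset_sdiff_left (ball_subset_ball' hm.le))).trans (hx _)
  have h1 : volume (ball y R \ S) = 0 := by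
    refine measure_mono_null (fun w hw => ?_) (measure_iUnion_null h0)
    obtain ⟨n, hn⟩ := (t2.eventually_const_lt (mem_ball.1 hw.1)).exists
    exact mem_iUnion.2 ⟨n, hn, hw.2⟩
  exact ⟨y, (ae_eq_of_ae_subset_of_measure_ge (ae_le_set.2 h1) (by rw [hv, ab2_vol _ hR.le])
    measurableSet_ball.nullMeasurableSet hf).symm⟩

theorem ab2_key {u : ℂ → ℝ} (hi : Integrable u) (hS : MeasurableSet S) (hf : volume S ≠ ⊤)
    (hR : 0 < R) (ht : 0 < t) (htR : t ≤ R) {δ : ℝ} (hδ : ∀ x, δ ≤ volume.real (ball x t \ S))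
    (h : ∀ (v : ℂ → ℝ) (M : ℝ), ContDiff ℝ ∞ v → HasCompactSupport v →
      (∀ ζ : ℂ, ‖∫ w, (v w : ℂ) / (w - ζ)‖ ≤ M) → ∫ w, u w * v w ≤ R * M) :
    (∫ w, S.indicator u w) + R * (1 / (2 * t) - 1 / (2 * R)) * δ ≤
      volume.real S / 2 + π * R ^ 2 / 2 := by
  obtain ⟨κ, hκ⟩ : ∃ κ, κ = 1 / (2 * t) - 1 / (2 * R) := ⟨_, rfl⟩
  have k0 : 0 ≤ κ := hκ ▸ sub_nonneg.2 (one_div_le_one_div_of_le (by positivity) (by linarith))
  rw [← hκ]
  refine le_of_forall_pos_le_add fun ε' hε' => ?_
  obtain ⟨ε, hε, eε⟩ : ∃ ε : ℝ, 0 < ε ∧ ε * (2 + R * κ) = ε' :=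
    ⟨ε' / (2 + R * κ), by positivity, div_mul_cancel₀ _ (by positivity)⟩
  obtain ⟨v, v1, v2, v3, v4, v5⟩ := ab_approx hi hS hf hε
  have iv : Integrable v := v1.continuous.integrable_of_hasCompactSupport v2
  have i1 := ab2_ind hS hf
  have id : Integrable fun w => |v w - S.indicator 1 w| := (iv.sub i1).abs
  have b1 : ∀ w, ‖v w‖ ≤ 1 := fun w => by
    rw [Real.norm_of_nonneg (v3 w).1]
    exact (v3 w).2
  have iuv : Integrable fun w => u w * v w := hi.mul_bdd iv.1 (Eventually.of_forall b1)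
  have iud : Integrable fun w => |u w| * |v w - S.indicator 1 w| :=
    hi.abs.mul_bdd (c := 2) id.1 (Eventually.of_forall fun w => by
      have := v3 w
      rw [Real.norm_eq_abs, abs_abs, abs_le]
      by_cases hw : w ∈ S
      · rw [indicator_of_mem hw, Pi.one_apply]
        constructor <;> linarith
      · rw [indicator_of_notMem hw]
        constructor <;> linarith)
  have a1 : ∫ w, v w ≤ volume.real S + ε := by
    have := integral_mono iv (i1.add id) fun w => by
      have := le_abs_self (v w - S.indicator 1 w)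
      rw [Pi.add_apply]
      linarith
    rw [integral_add' i1 id, integral_indicator_one hS] at this
    linarith
  have a2 : ∫ w, S.indicator u w ≤ (∫ w, u w * v w) + ε := by
    have := integral_mono (hi.indicator hS) (iuv.add iud) fun w => by
      have h1 := neg_abs_le (u w * (v w - S.indicator 1 w))
      have h2 : S.indicator u w = u w * S.indicator 1 w := by
        by_cases hw : w ∈ S <;> simp [hw]
      rw [Pi.add_apply, ← abs_mul, h2]
      linarith
    rw [integral_add' iuv iud] at this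
    linarith
  have a3 : ∀ x, δ - ε ≤ ∫ w in ball x t, (1 - v w) := fun x => by
    have mB : MeasurableSet (ball x t \ S) := measurableSet_ball.diff hS
    have i2 := ab2_ind mB (ne_top_of_le_ne_top measure_ball_lt_top.ne (measure_mono sdiff_subset))
    have i3 : Integrable ((ball x t).indicator fun w => 1 - v w) :=
      (integrable_indicator_iff measurableSet_ball).2
        ((integrableOn_const measure_ball_lt_top.ne).sub iv.integrableOn)
    have := integral_mono i2 (i3.add id) fun w => by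
      have h1 := v3 w
      have h2 := abs_nonneg (v w - S.indicator 1 w)
      rw [Pi.add_apply]
      by_cases hw : w ∈ ball x t
      · rw [indicator_of_mem hw]
        by_cases hw' : w ∈ S
        · rw [indicator_of_notMem fun h3 => h3.2 hw']
          linarith
        · rw [indicator_of_mem (show w ∈ ball x t \ S from ⟨hw, hw'⟩), indicator_of_notMem hw',
            sub_zero, abs_of_nonneg h1.1, Pi.one_apply]
          linarith
      · rw [indicator_of_notMem hw, indicator_of_notMem fun h3 => hw h3.1]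
        linarith
    rw [integral_add' i3 id, integral_indicator_one mB, integral_indicator measurableSet_ball]
      at this
    linarith [hδ x]
  have a4 := h v ((volume.real S + ε) / (2 * R) + π * R / 2 - κ * (δ - ε)) v1 v2 fun ζ => by
    obtain ⟨e, he, h1⟩ := Complex.exists_norm_eq_mul_self (∫ w, (v w : ℂ) / (w - ζ))
    have h2 := ab1 (ζ := ζ) v1.continuous v2 v3 he ht htR
    rw [← h1, ofReal_re, ← hκ] at h2
    have h3 := mul_le_mul_of_nonneg_left (a3 (ζ + e * t)) k0
    have h4 := div_le_div_of_nonneg_right a1 (by positivity : 0 ≤ 2 * R)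
    linarith
  have e1 : R * ((volume.real S + ε) / (2 * R)) = (volume.real S + ε) / 2 := by field_simp
  rw [mul_sub, mul_add, e1] at a4
  linarith

theorem ab {u : ℂ → ℤ} (hm : Measurable u) (hi : Integrable fun w => (u w : ℝ)) (hR : 0 ≤ R)
    (h : ∀ (v : ℂ → ℝ) (M : ℝ), ContDiff ℝ ∞ v → HasCompactSupport v →
      (∀ ζ : ℂ, ‖∫ w, (v w : ℂ) / (w - ζ)‖ ≤ M) → ∫ w, (u w : ℝ) * v w ≤ R * M) :
    ∫ w, (u w : ℝ) ≤ π * R ^ 2 ∧ (π * R ^ 2 ≤ ∫ w, (u w : ℝ) →
      ∃ x : ℂ, ∀ᵐ w, u w = (ball x R).indicator 1 w) := by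
  obtain ⟨S, hSd⟩ : ∃ S : Set ℂ, ∀ w, w ∈ S ↔ 1 ≤ u w := ⟨{w | 1 ≤ u w}, fun _ => Iff.rfl⟩
  have eS : S = {w | (1 : ℝ) ≤ u w} := by
    ext w
    rw [hSd]
    exact ⟨fun h => show (1 : ℝ) ≤ u w by exact_mod_cast h,
      fun h => by exact_mod_cast show (1 : ℝ) ≤ u w from h⟩
  have hS : MeasurableSet S := by
    rw [show S = u ⁻¹' Ici 1 from Set.ext hSd]
    exact hm measurableSet_Ici
  have hf : volume S ≠ ⊤ := eS ▸ (hi.measure_ge_lt_top one_pos).ne
  have i1 := ab2_ind hS hf
  have i2 := hi.indicator hS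
  have p1 : ∀ w, S.indicator 1 w ≤ S.indicator (fun w => (u w : ℝ)) w := fun w =>
    indicator_le_indicator' fun hw => show (1 : ℝ) ≤ u w by exact_mod_cast (hSd w).1 hw
  have p2 : ∀ w, (u w : ℝ) ≤ S.indicator (fun w => (u w : ℝ)) w := fun w => by
    by_cases hw : w ∈ S
    · rw [indicator_of_mem hw]
    · rw [indicator_of_notMem hw]
      have := mt (hSd w).2 hw
      exact Int.cast_nonpos.2 (by omega)
  have a1 := integral_mono i1 i2 p1
  have a2 := integral_mono hi i2 p2
  rw [integral_indicator_one hS] at a1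
  have a3 : ∫ w, S.indicator (fun w => (u w : ℝ)) w ≤ volume.real S / 2 + π * R ^ 2 / 2 := by
    have l1 : Tendsto (fun T : ℝ => volume.real S / 2 + π * T ^ 2 / 2) (𝓝[>] R)
        (𝓝 (volume.real S / 2 + π * R ^ 2 / 2)) :=
      (Continuous.tendsto (by fun_prop) R).mono_left nhdsWithin_le_nhds
    refine ge_of_tendsto l1 (eventually_mem_nhdsWithin.mono fun T hT => ?_)
    have hT0 : 0 < T := hR.trans_lt hT
    have := ab2_key hi hS hf hT0 hT0 le_rfl (δ := 0) (fun _ => measureReal_nonneg)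
      fun v M h1 h2 h3 => (h v M h1 h2 h3).trans
        (mul_le_mul_of_nonneg_right (le_of_lt hT) ((norm_nonneg _).trans (h3 0)))
    rwa [mul_zero, add_zero] at this
  refine ⟨by linarith, fun he => ?_⟩
  have e1 := (integral_eq_iff_of_ae_le i1 i2 (Eventually.of_forall p1)).1
    (by rw [integral_indicator_one hS]; linarith)
  have e2 := (integral_eq_iff_of_ae_le hi i2 (Eventually.of_forall p2)).1 (by linarith)
  have hv : volume S = ENNReal.ofReal (π * R ^ 2) := by
    rw [← ofReal_measureReal hf]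
    congr 1
    linarith
  obtain ⟨x, hx⟩ : ∃ x : ℂ, S =ᵐ[volume] ball x R := by
    rcases hR.eq_or_lt with rfl | hR
    · exact ⟨0, by rw [ball_zero, ae_eq_empty, hv]; simp⟩
    refine ab_disc hS hR hv fun t ht htR δ hδ => ?_
    by_contra hn
    have h1 := ab2_key hi hS hf hR ht htR.le (δ := δ) (fun x => ?_) h
    · have h2 : 0 < 1 / (2 * t) - 1 / (2 * R) :=
        sub_pos.2 (one_div_lt_one_div_of_lt (by positivity) (by linarith))
      have h3 := mul_pos (mul_pos hR h2) hδ
      linarith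
    · refine le_of_not_ge fun h2 => hn ⟨x, ?_⟩
      rw [← ofReal_measureReal (ne_top_of_le_ne_top measure_ball_lt_top.ne
        (measure_mono sdiff_subset))]
      exact ENNReal.ofReal_le_ofReal h2
  refine ⟨x, ?_⟩
  filter_upwards [e1, e2, hx.mem_iff] with w h1 h2 h3
  have h4 := h2.trans h1.symm
  by_cases hw : w ∈ S
  · rw [indicator_of_mem hw] at h4
    rw [indicator_of_mem (h3.1 hw)]
    exact Int.cast_eq_one.1 h4
  · rw [indicator_of_notMem hw] at h4
    rw [indicator_of_notMem (mt h3.2 hw)]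
    exact Int.cast_eq_zero.1 h4

end Vale.P116B
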