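import Vale.Agent.P116B.Basic

/-!
# P116B AF

The area formula with multiplicity. The image of the set where the Jacobian vanishes is null
(`addHaar_image_eq_zero_of_det_fderivWithin_eq_zero`). `inj_pieces`: `exists_partition_approximatesLinearOn_of_hasFDerivWithinAt`
with a radius below the inverse norm, `ApproximatesLinearOn.injOn`. Put `N w = ∑' n, indicator (g '' piece n) 1 w` in `ℝ≥0∞`
(`measurable_image_of_fderivWithin`), its integral is finite by `lintegral_abs_det_fderiv_eq_addHaar_image`, so it is finite a.e.;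
on each piece use `integral_image_eq_integral_abs_det_fderiv_smul`; sum with `integral_iUnion`, `integral_tsum`.
-/

namespace Vale.P116B

open Set Filter Topology MeasureTheory Metric Complex Vale.P116
open scoped ContDiff ComplexConjugate Real ENNReal Gradient

variable {ι : Type} [Fintype ι] {Q U E : ι → Set ℂ} {W : ι → ℂ → ℤ} {c : ι → ℂ} {r ρ s : ι → ℝ}
  {f g h k F G Φ Θ θ φ χ η ξ a b V : ℂ → ℂ} {K A O S Z : Set ℂ} {z p q w : ℂ} {j : ι}
  {R M t L ε : ℝ}

theorem inj_pieces (hA : MeasurableSet A) (hg : ∀ z ∈ A, DifferentiableAt ℝ g z)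
    (h0 : ∀ z ∈ A, jac g z ≠ 0) :
    ∃ P : ℕ → Set ℂ, (∀ n, MeasurableSet (P n)) ∧ Pairwise (Function.onFun Disjoint P) ∧
      (⋃ n, P n) = A ∧ ∀ n, InjOn g (P n) := by
  have h1 : ∀ B : ℂ →L[ℝ] ℂ, ∃ r : NNReal, r ≠ 0 ∧
      (B.det ≠ 0 → ∀ s, ApproximatesLinearOn g B s r → InjOn g s) := by
    intro B
    by_cases hB : B.det = 0
    · exact ⟨1, one_ne_zero, fun h => absurd hB h⟩
    have h2 := inv_pos.2 (B.toContinuousLinearEquivOfDetNeZero hB).nnnorm_symm_pos
    refine ⟨_, (half_pos h2).ne', fun _ s hs => ?_⟩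
    refine ApproximatesLinearOn.injOn (f' := B.toContinuousLinearEquivOfDetNeZero hB) ?_
      (Or.inr (NNReal.half_lt_self h2.ne'))
    rwa [B.coe_toContinuousLinearEquivOfDetNeZero hB]
  choose r hr0 hr using h1
  obtain ⟨t, B, h1, h2, h3, h4, h5⟩ := exists_partition_approximatesLinearOn_of_hasFDerivWithinAt
    g A (fderiv ℝ g) (fun z hz => (hg z hz).hasFDerivAt.hasFDerivWithinAt) r hr0
  refine ⟨fun n => A ∩ t n, fun n => hA.inter (h2 n),
    fun i j hij => (h1 hij).mono inter_subset_right inter_subset_right, ?_, fun n => ?_⟩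
  · rw [← inter_iUnion, inter_eq_left.2 h3]
  rcases A.eq_empty_or_nonempty with rfl | hne
  · simp
  obtain ⟨y, hy, he⟩ := h5 hne n
  exact hr _ (by rw [he, ← jac_eq_det]; exact h0 y hy) _ (h4 n)

theorem af_count {P : ℕ → Set ℂ} (hd : Pairwise (Function.onFun Disjoint P))
    (hi : ∀ n, InjOn g (P n)) (w : ℂ) :
    ((⋃ n, P n) ∩ g ⁻¹' {w}).encard = {n | w ∈ g '' P n}.encard := by
  choose! i hi' using fun z (hz : z ∈ ⋃ n, P n) => mem_iUnion.1 hz
  have h1 : InjOn i ((⋃ n, P n) ∩ g ⁻¹' {w}) := fun x hx y hy hxy =>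
    hi (i x) (hi' x hx.1) (hxy ▸ hi' y hy.1) (hx.2.trans hy.2.symm)
  rw [← h1.encard_image]
  congr 1
  ext n
  constructor
  · rintro ⟨x, hx, rfl⟩
    exact ⟨x, hi' x hx.1, hx.2⟩
  · rintro ⟨x, hx, hw⟩
    have h2 : x ∈ ⋃ n, P n := mem_iUnion.2 ⟨n, hx⟩
    refine ⟨x, ⟨h2, hw⟩, ?_⟩
    by_contra h3
    exact disjoint_left.1 (hd h3) (hi' x h2) hx

theorem af_tsum (I : ℕ → Set ℂ) (w : ℂ) :
    ∑' n, (I n).indicator (1 : ℂ → ℝ≥0∞) w = {n | w ∈ I n}.encard := by
  rw [← ENNReal.tsum_set_one, tsum_subtype {n | w ∈ I n} fun _ => (1 : ℝ≥0∞)]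
  refine tsum_congr fun n => ?_
  by_cases h : w ∈ I n
  · rw [indicator_of_mem h, indicator_of_mem (show n ∈ {n | w ∈ I n} from h), Pi.one_apply]
  · rw [indicator_of_notMem h, indicator_of_notMem (show n ∉ {n | w ∈ I n} from h)]

theorem af_real (s : Set ℕ) : ((s.encard : ℝ≥0∞)).toReal = (s.ncard : ℝ) := by
  rcases s.finite_or_infinite with h | h
  · rw [← h.cast_ncard_eq]
    simp
  · rw [h.encard_eq, h.ncard]
    simp

theorem area_formula (hA : MeasurableSet A) (hg : ∀ z ∈ A, DifferentiableAt ℝ g z)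
    (hi : IntegrableOn (jac g) A) :
    ∃ n : ℂ → ℕ, Measurable n ∧ Integrable (fun w => (n w : ℝ)) ∧
      (∀ᵐ w, (A ∩ g ⁻¹' {w}).encard = n w) ∧
      ∀ θ : ℂ → ℂ, Measurable θ → (∃ M : ℝ, ∀ w, ‖θ w‖ ≤ M) →
        ∫ z in A, θ (g z) * ((|jac g z| : ℝ) : ℂ) = ∫ w, θ w * (n w : ℂ) := by
  have hA' : MeasurableSet (A ∩ {z | jac g z ≠ 0}) :=
    hA.inter (measurable_jac g (measurableSet_singleton 0)).compl
  obtain ⟨P, hP, hd, hU, hI⟩ := inj_pieces hA' (fun z hz => hg z hz.1) fun z hz => hz.2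
  have hsub : ∀ n, P n ⊆ A := fun n z hz => (hU ▸ mem_iUnion.2 ⟨n, hz⟩ : z ∈ A ∩ _).1
  have hD : ∀ n, ∀ z ∈ P n, HasFDerivWithinAt g (fderiv ℝ g z) (P n) z := fun n z hz =>
    (hg z (hsub n hz)).hasFDerivAt.hasFDerivWithinAt
  have hm : ∀ n, MeasurableSet (g '' P n) := fun n =>
    measurable_image_of_fderivWithin (hP n) (hD n) (hI n)
  have hm1 : ∀ n, Measurable ((g '' P n).indicator (1 : ℂ → ℝ≥0∞)) := fun n =>
    measurable_one.indicator (hm n)
  have hN : Measurable fun w => ∑' n, (g '' P n).indicator (1 : ℂ → ℝ≥0∞) w :=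
    Measurable.tsum hm1
  have hf : ∫⁻ w, ∑' n, (g '' P n).indicator (1 : ℂ → ℝ≥0∞) w ≠ ⊤ := by
    rw [lintegral_tsum fun n => (hm1 n).aemeasurable]
    simp only [lintegral_indicator_one (hm _),
      ← lintegral_abs_det_fderiv_eq_addHaar_image volume (hP _) (hD _) (hI _)]
    rw [← lintegral_iUnion hP hd, hU]
    refine ((lintegral_mono_set inter_subset_left).trans_lt (lt_of_eq_of_lt ?_ hi.2)).ne
    simp only [← jac_eq_det, Real.enorm_eq_ofReal_abs]
  have hr : ∀ w, (({n | w ∈ g '' P n}.ncard : ℕ) : ℝ) =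
      (∑' n, (g '' P n).indicator (1 : ℂ → ℝ≥0∞) w).toReal := fun w => by
    rw [af_tsum, af_real]
  have hlt := ae_lt_top hN hf
  refine ⟨fun w => {n | w ∈ g '' P n}.ncard, ?_, ?_, ?_, fun θ hθ hM => ?_⟩
  · have h1 := Nat.measurable_floor.comp hN.ennreal_toReal
    simpa only [Function.comp_def, ← hr, Nat.floor_natCast] using h1
  · simp only [hr]
    exact integrable_toReal_of_lintegral_ne_top hN.aemeasurable hf
  · have h1 : volume (g '' (A ∩ {z | jac g z = 0})) = 0 :=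
      addHaar_image_eq_zero_of_det_fderivWithin_eq_zero volume (f' := fderiv ℝ g)
        (fun z hz => (hg z hz.1).hasFDerivAt.hasFDerivWithinAt)
        fun z hz => (jac_eq_det g z).symm.trans hz.2
    filter_upwards [hlt, measure_eq_zero_iff_ae_notMem.1 h1] with w h2 h3
    have h4 : A ∩ g ⁻¹' {w} = (⋃ n, P n) ∩ g ⁻¹' {w} := by
      rw [hU]
      exact subset_antisymm (fun z hz => ⟨⟨hz.1, fun h5 => h3 ⟨z, ⟨hz.1, h5⟩, hz.2⟩⟩, hz.2⟩)
        fun z hz => ⟨hz.1.1, hz.2⟩
    rw [af_tsum, ENat.toENNReal_lt_top, encard_lt_top_iff] at h2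
    rw [h4, af_count hd hI, h2.cast_ncard_eq]
  obtain ⟨M, hM⟩ := hM
  have h1 : IntegrableOn (fun z => θ (g z) * ((|jac g z| : ℝ) : ℂ)) A :=
    Integrable.bdd_mul hi.abs.ofReal (hθ.comp_aemeasurable (ContinuousOn.aemeasurable
      (fun z hz => (hg z hz).continuousAt.continuousWithinAt) hA)).aestronglyMeasurable
      (Eventually.of_forall fun z => hM _)
  have h2 : (volume : Measure ℂ).withDensity
      (fun w => ∑' n, (g '' P n).indicator (1 : ℂ → ℝ≥0∞) w) =
      Measure.sum fun n => volume.restrict (g '' P n) := by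
    have h3 := withDensity_tsum (μ := (volume : Measure ℂ)) hm1
    simp only [withDensity_indicator_one (hm _)] at h3
    rw [← h3]
    congr 1
    funext w
    exact (tsum_apply (Pi.summable.2 fun _ => ENNReal.summable)).symm
  have h3 := isFiniteMeasure_withDensity hf
  have h4 := integral_withDensity_eq_integral_toReal_smul hN hlt θ
  rw [h2] at h3 h4
  rw [integral_sum_measure (Integrable.of_bound hθ.aestronglyMeasurable M
    (Eventually.of_forall hM))] at h4
  rw [setIntegral_eq_of_subset_of_forall_sdiff_eq_zero hA (inter_subset_left (t := {z | jac g z ≠ 0}))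
    (fun z hz => by simp [not_not.1 fun h5 => hz.2 ⟨hz.1, h5⟩]), ← hU,
    integral_iUnion hP hd (h1.mono_set (iUnion_subset hsub))]
  simp only [integral_image_eq_integral_abs_det_fderiv_smul volume (hP _) (hD _) (hI _),
    ← jac_eq_det, ← hr, real_smul, ofReal_natCast] at h4
  simpa only [mul_comm] using h4

end Vale.P116B
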