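import Vale.Agent.P116B.Mean

/-!
# P116B Decay

Uniform decay at infinity. For `‖z‖ = 2 R`, `mean_sq` on `ball z R` gives `‖h' z‖ ≤ M / R`. The function `H ζ = h ζ⁻¹`, `H 0 = 0` is holomorphic on
`ball 0 R⁻¹` (`differentiableOn_update_limUnder_of_bddAbove` or `differentiableOn_compl_singleton_and_continuousAt_iff`), `‖H'‖ ≤ 4 R M` on the circle of radius
`(2 R)⁻¹`, hence inside (`norm_le_of_forall_mem_frontier_norm_le`), and the mean value inequality on the closed ball finishes.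
-/

namespace Vale.P116B

open Set Filter Topology MeasureTheory Metric Complex Vale.P116
open scoped ContDiff ComplexConjugate Real ENNReal Gradient

variable {ι : Type} [Fintype ι] {Q U E : ι → Set ℂ} {W : ι → ℂ → ℤ} {c : ι → ℂ} {r ρ s : ι → ℝ}
  {f g h k F G Φ Θ θ φ χ η ξ a b V : ℂ → ℂ} {K A O S Z : Set ℂ} {z p q w : ℂ} {j : ι}
  {R M t L ε : ℝ}

theorem decay (hR : 0 < R) (hM : 0 ≤ M) (hd : DifferentiableOn ℂ h (closedBall 0 R)ᶜ)
    (h0 : Tendsto h (cocompact ℂ) (𝓝 0))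
    (hi : IntegrableOn (fun z => ‖deriv h z‖ ^ 2) (closedBall 0 R)ᶜ)
    (hb : ∫ z in (closedBall 0 R)ᶜ, ‖deriv h z‖ ^ 2 ≤ M ^ 2) (hz : 2 * R ≤ ‖z‖) :
    ‖h z‖ ≤ 4 * R * M / ‖z‖ := by
  have hR2 : 0 < (2 * R)⁻¹ := by positivity
  have h1 : ∀ w : ℂ, ‖w‖ = 2 * R → R * ‖deriv h w‖ ≤ M := fun w hw => by
    have a1 : ball w R ⊆ (closedBall 0 R)ᶜ := fun u hu hu' => by
      rw [mem_closedBall_zero_iff] at hu'
      rw [mem_ball, dist_comm, dist_eq_norm] at hu
      linarith [norm_sub_norm_le w u]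
    have a2 := (mean_sq hR ((hd.deriv isClosed_closedBall.isOpen_compl).mono a1)
      (hi.mono_set a1)).trans ((setIntegral_mono_set hi
        (Eventually.of_forall fun _ => sq_nonneg _) a1.eventuallyLE).trans hb)
    refine (pow_le_pow_iff_left₀ (by positivity) hM two_ne_zero).1 (le_trans ?_ a2)
    rw [mul_pow, mul_assoc]
    exact le_mul_of_one_le_left (by positivity) (by linarith [Real.pi_gt_three])
  set H : ℂ → ℂ := Function.update (fun ζ => h ζ⁻¹) 0 0 with hH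
  have h2 : ∀ ζ : ℂ, ζ ≠ 0 → ‖ζ‖ < R⁻¹ → HasDerivAt H (deriv h ζ⁻¹ * -(ζ ^ 2)⁻¹) ζ := by
    intro ζ a1 a2
    have a3 : ζ⁻¹ ∈ (closedBall (0 : ℂ) R)ᶜ := by
      rw [mem_compl_iff, mem_closedBall_zero_iff, not_le, norm_inv]
      exact (lt_inv_comm₀ hR (norm_pos_iff.2 a1)).2 a2
    refine (((hd.differentiableAt (isClosed_closedBall.isOpen_compl.mem_nhds a3)).hasDerivAt).comp ζ
      (hasDerivAt_inv a1)).congr_of_eventuallyEq ?_
    filter_upwards [isOpen_ne.mem_nhds a1] with u hu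
    exact Function.update_of_ne hu _ _
  have h3 : DifferentiableOn ℂ H (ball 0 R⁻¹) := by
    rw [← differentiableOn_compl_singleton_and_continuousAt_iff
      (ball_mem_nhds (0 : ℂ) (inv_pos.2 hR))]
    refine ⟨fun ζ hζ => (h2 ζ hζ.2 (mem_ball_zero_iff.1 hζ.1)).differentiableAt.differentiableWithinAt,
      continuousAt_update_same.2 (h0.comp ?_)⟩
    rw [← cobounded_eq_cocompact]
    exact tendsto_inv₀_nhdsNE_zero
  have h4 : (2 * R)⁻¹ < R⁻¹ := inv_strictAnti₀ hR (by linarith)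
  have h5 : closedBall (0 : ℂ) (2 * R)⁻¹ ⊆ ball 0 R⁻¹ := closedBall_subset_ball h4
  have h6 : ∀ ζ ∈ closedBall (0 : ℂ) (2 * R)⁻¹, ‖deriv H ζ‖ ≤ 4 * R * M := fun ζ hζ => by
    rw [← closure_ball _ hR2.ne'] at hζ h5
    refine norm_le_of_forall_mem_frontier_norm_le isBounded_ball
      ((h3.deriv isOpen_ball).mono h5).diffContOnCl (fun u hu => ?_) hζ
    rw [frontier_ball _ hR2.ne', mem_sphere_zero_iff_norm] at hu
    have a1 := h1 u⁻¹ (by rw [norm_inv, hu, inv_inv])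
    rw [(h2 u (norm_pos_iff.1 (hu ▸ hR2)) (hu ▸ h4)).deriv, norm_mul, norm_neg, norm_inv, norm_pow,
      hu, inv_pow, inv_inv]
    nlinarith
  have h7 : 0 < ‖z‖ := lt_of_lt_of_le (by positivity) hz
  have h8 := (convex_closedBall (0 : ℂ) (2 * R)⁻¹).norm_image_sub_le_of_norm_deriv_le
    (fun ζ hζ => h3.differentiableAt (isOpen_ball.mem_nhds (h5 hζ))) h6
    (mem_closedBall_self hR2.le) (y := z⁻¹) (by
      rw [mem_closedBall_zero_iff, norm_inv]
      exact inv_anti₀ (by positivity) hz)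
  rwa [hH, Function.update_self, Function.update_of_ne (inv_ne_zero (norm_pos_iff.1 h7)), inv_inv,
    sub_zero, sub_zero, norm_inv, ← div_eq_mul_inv] at h8

end Vale.P116B
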