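import Vale.Agent.P116B.Back

/-!
# P116B Hull

The maximum principle for the filled image. The set `S = F '' (ball p t ∩ Om Q) ∪ ⋃ (discs with Q j ⊆ ball p t)` is open (`normMap_open`, `Ends.back`,
`img`, disjointness) and bounded (`Ends.bdd`). A frontier point `w` is in the closure of the first part and not in `S`. If `w = F z` then `z` is on the
sphere (continuity of the inverse, `normMap_open`); otherwise `exists_pre` and `mem_of_cluster` give `j` with `w` in the disc and `Q j` meeting the closed ball but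
not inside the open ball, so the connected set `Q j` meets the sphere. Apply `frontier_hull`.
-/

namespace Vale.P116B

open Set Filter Topology MeasureTheory Metric Complex Vale.P116
open scoped ContDiff ComplexConjugate Real ENNReal Gradient

variable {ι : Type} [Fintype ι] {Q U E : ι → Set ℂ} {W : ι → ℂ → ℤ} {c : ι → ℂ} {r ρ s : ι → ℝ}
  {f g h k F G Φ Θ θ φ χ η ξ a b V : ℂ → ℂ} {K A O S Z : Set ℂ} {z p q w : ℂ} {j : ι}
  {R M t L ε : ℝ}

theorem hull_other (hE : Ends Q F E) (hw : w ∈ E j) : ∀ᶠ v in 𝓝 w, ∀ i, v ∈ E i → i = j := by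
  refine eventually_all.2 fun i => ?_
  by_cases hi : i = j
  · exact Eventually.of_forall fun _ _ => hi
  · have : w ∈ (E i)ᶜ := fun h => Set.disjoint_left.1 (hE.disj hi) h hw
    filter_upwards [(hE.cpt i).isClosed.isOpen_compl.mem_nhds this] with v hv h using absurd h hv

theorem hull {x : ℂ} (hQ : Fam Q) (hC : Circ Q F c r) (hΓ : Gam Q F c r p t ⊆ closedBall x R) :
    F '' (ball p t ∩ Om Q) ⊆ closedBall x R ∧
      ∀ j, Q j ⊆ ball p t → closedBall (c j) (r j) ⊆ closedBall x R := by
  have hK : IsCompact (⋃ j, Q j) := isCompact_iUnion hQ.cpt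
  have hOm : IsOpen (Om Q) := hK.isClosed.isOpen_compl
  have hE := hC.ends
  have himg : ∀ v j, v ∈ closedBall (c j) (r j) → v ∉ F '' Om Q := fun v j hv h => by
    rw [hE.img] at h
    exact h (mem_iUnion.2 ⟨j, hv⟩)
  set S := F '' (ball p t ∩ Om Q) ∪ ⋃ j ∈ {j | Q j ⊆ ball p t}, closedBall (c j) (r j) with hS
  have key : S ⊆ closedBall x R := by
    refine frontier_hull ((hE.bdd hQ hC.nm isBounded_ball).union
      ((Bornology.isBounded_biUnion (toFinite _)).2 fun _ _ => isBounded_closedBall)) ?_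
    rintro w ⟨h1, h2⟩
    refine hΓ ?_
    by_contra hw
    by_cases hi : w ∈ F '' Om Q
    · obtain ⟨z, hz, rfl⟩ := hi
      rcases lt_trichotomy (dist z p) t with h | h | h
      · exact h2 (interior_maximal subset_union_left
          (normMap_open hK hC.nm (isOpen_ball.inter hOm) inter_subset_right) ⟨z, ⟨h, hz⟩, rfl⟩)
      · exact hw (Or.inl ⟨z, ⟨h, hz⟩, rfl⟩)
      · obtain ⟨v, ⟨y, hy, rfl⟩, hv⟩ := mem_closure_iff.1 h1 _ (normMap_open hK hC.nm
          (isClosed_closedBall.isOpen_compl.inter hOm) inter_subset_right)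
          ⟨z, ⟨not_le.2 h, hz⟩, rfl⟩
        rcases hv with ⟨y', hy', e⟩ | hv
        · exact hy.1 (ball_subset_closedBall (hC.nm.2.1 hy'.2 hy.2 e ▸ hy'.1))
        · obtain ⟨i, -, hi⟩ := mem_iUnion₂.1 hv
          exact himg _ i hi ⟨y, hy.2, rfl⟩
    · obtain ⟨j, hj⟩ : ∃ j, w ∈ closedBall (c j) (r j) := by
        rw [hE.img] at hi
        exact mem_iUnion.1 (not_not.1 hi)
      have hn : 𝓝 w ≤ 𝓝ˢ (closedBall (c j) (r j)) := nhds_le_nhdsSet hj
      have ho := hull_other hE hj
      have hs : Q j ⊆ ball p t ∪ (closedBall p t)ᶜ := fun z hz => by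
        rcases lt_trichotomy (dist z p) t with h | h | h
        · exact Or.inl h
        · exact absurd (Or.inr (mem_iUnion₂.2 ⟨j, ⟨z, hz, h⟩, hj⟩)) hw
        · exact Or.inr (not_le.2 h)
      rcases (hQ.cvx j).isPreconnected.subset_or_subset isOpen_ball
        isClosed_closedBall.isOpen_compl
        (disjoint_compl_right_iff_subset.2 ball_subset_closedBall) hs with h | h
      · refine h2 (mem_interior_iff_mem_nhds.2 ?_)
        filter_upwards [hn (hE.back hQ hC.nm j (isOpen_ball.mem_nhdsSet.2 h)), ho] with v h3 h4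
        by_cases hv : v ∈ F '' Om Q
        · obtain ⟨y, hy, rfl⟩ := hv
          exact Or.inl ⟨y, ⟨h3 y hy rfl, hy⟩, rfl⟩
        · rw [hE.img] at hv
          obtain ⟨i, hi⟩ := mem_iUnion.1 (not_not.1 hv)
          exact Or.inr (mem_iUnion₂.2 ⟨j, h, h4 i hi ▸ hi⟩)
      · obtain ⟨v, hv, h3, h4⟩ := ((mem_closure_iff_frequently.1 h1).and_eventually
          (((hE.back hQ hC.nm j
            (isClosed_closedBall.isOpen_compl.mem_nhdsSet.2 h)).filter_mono hn).and ho)).exists
        rcases hv with ⟨y, hy, e⟩ | hv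
        · exact h3 y hy.2 e (ball_subset_closedBall hy.1)
        · obtain ⟨i, hi, hi'⟩ := mem_iUnion₂.1 hv
          obtain rfl := h4 i hi'
          obtain ⟨y, hy⟩ := hQ.ne i
          exact h hy (ball_subset_closedBall (hi hy))
  exact ⟨subset_union_left.trans key, fun j hj v hv => key (Or.inr (mem_iUnion₂.2 ⟨j, hj, hv⟩))⟩

end Vale.P116B
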