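import Vale.Agent.P116B.Defs

/-!
# P116B Sq

Squares. `sq x t` is `Icc ×ℂ Icc` (`volume_preserving_equiv_real_prod`). `fat`: the set of radii has diameter at most `min (R / 2) (2 √2 s)`; if the square
meets `closedBall p R` at `y` it contains a square of side `min (2 s) R` through `y`, which lies in `ball p (3 R)`; so the square of the length is at most
`2 * volume (sq ∩ ball p (3 R))`; sum over the disjoint squares.
-/

namespace Vale.P116B

open Set Filter Topology MeasureTheory Metric Complex Vale.P116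
open scoped ContDiff ComplexConjugate Real ENNReal Gradient

variable {ι : Type} [Fintype ι] {Q U E : ι → Set ℂ} {W : ι → ℂ → ℤ} {c : ι → ℂ} {r ρ s : ι → ℝ}
  {f g h k F G Φ Θ θ φ χ η ξ a b V : ℂ → ℂ} {K A O S Z : Set ℂ} {z p q w : ℂ} {j : ι}
  {R M t L ε : ℝ}

theorem sq_norm {x y : ℂ} (h : y ∈ sq x t) : ‖y - x‖ ≤ 2 * t := by
  have h1 := norm_le_abs_re_add_abs_im (y - x)
  rw [sub_re, sub_im] at h1
  linarith [h.1, h.2]

theorem sq_of_norm {x y : ℂ} (h : ‖y - x‖ ≤ t) : y ∈ sq x t :=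
  ⟨(abs_re_le_norm (y - x)).trans h, (abs_im_le_norm (y - x)).trans h⟩

theorem sq_sum (hm : ∀ j, MeasurableSet (Q j)) (hd : Pairwise (Function.onFun Disjoint Q))
    (h : ∀ j, Q j ⊆ A) : ∑ j, volume (Q j) ≤ volume A := by
  rw [← tsum_fintype (L := .unconditional _), ← measure_iUnion hd hm]
  exact measure_mono (iUnion_subset h)

theorem sq_clamp {y x m : ℝ} (h : |y - x| ≤ t) (h0 : 0 ≤ m) (hm : m ≤ t) :
    ∃ u, |y - u| ≤ m ∧ |u - x| ≤ t - m := by
  obtain ⟨h1, h2⟩ := abs_le.1 h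
  rcases le_total y (x - (t - m)) with h3 | h3
  · exact ⟨x - (t - m), abs_le.2 ⟨by linarith, by linarith⟩, abs_le.2 ⟨by linarith, by linarith⟩⟩
  rcases le_total (x + (t - m)) y with h4 | h4
  · exact ⟨x + (t - m), abs_le.2 ⟨by linarith, by linarith⟩, abs_le.2 ⟨by linarith, by linarith⟩⟩
  · exact ⟨y, by simpa using h0, abs_le.2 ⟨by linarith, by linarith⟩⟩

theorem isCompact_sq (x : ℂ) (t : ℝ) : IsCompact (sq x t) :=
  (isCompact_closedBall x.re t).reProdIm (isCompact_closedBall x.im t)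

theorem convex_sq (x : ℂ) (t : ℝ) : Convex ℝ (sq x t) :=
  ((convex_closedBall x.re t).linear_preimage reLm).inter
    ((convex_closedBall x.im t).linear_preimage imLm)

theorem volume_sq (x : ℂ) (ht : 0 ≤ t) : volume (sq x t) = ENNReal.ofReal (4 * t ^ 2) := by
  rw [show sq x t = measurableEquivRealProd ⁻¹' (closedBall x.re t ×ˢ closedBall x.im t) from rfl,
    volume_preserving_equiv_real_prod.measure_preimage_equiv, Measure.volume_eq_prod,
    Measure.prod_prod, Real.volume_closedBall, Real.volume_closedBall,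
    ← ENNReal.ofReal_mul (by linarith)]
  congr 1
  ring

theorem sq_zero (x : ℂ) : sq x 0 = {x} := by
  ext z
  simp [P116.sq, sub_eq_zero, Complex.ext_iff]

theorem sq_subset_ball (x : ℂ) (ht : 0 < t) : sq x t ⊆ ball x (2 * t) := fun y hy => by
  rw [mem_ball, dist_eq_norm]
  refine lt_of_pow_lt_pow_left₀ 2 (by linarith) ?_
  rw [Complex.sq_norm, normSq_apply, sub_re, sub_im]
  nlinarith [abs_le.1 hy.1, abs_le.1 hy.2]

theorem sq_hit {x : ℂ} (hp : p ∈ sq x R) (ht : 0 ≤ t) (htR : t ≤ R) :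
    (sq x R ∩ sphere p t).Nonempty := by
  obtain ⟨h1, h2⟩ := abs_le.1 hp.1
  rcases le_total p.re x.re with h | h
  · refine ⟨p + t, ⟨abs_le.2 ⟨?_, ?_⟩, by simpa using hp.2⟩, by simp [abs_of_nonneg ht]⟩ <;>
      simp <;> linarith
  · refine ⟨p - t, ⟨abs_le.2 ⟨?_, ?_⟩, by simpa using hp.2⟩, by simp [abs_of_nonneg ht]⟩ <;>
      simp <;> linarith

theorem sum_sq_le (hs : ∀ j, 0 < s j) (hd : Pairwise (Function.onFun Disjoint fun j => sq (c j) (s j)))
    (hR : ∀ j, sq (c j) (s j) ⊆ ball 0 R) : ∑ j, s j ^ 2 ≤ R ^ 2 := by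
  have h := sq_sum (A := sq 0 |R|) (fun j => (isCompact_sq (c j) (s j)).measurableSet) hd
    fun j y hy => sq_of_norm ((mem_ball_iff_norm.1 (hR j hy)).le.trans (le_abs_self R))
  simp only [fun j => volume_sq (c j) (hs j).le, volume_sq 0 (abs_nonneg R)] at h
  rw [← ENNReal.ofReal_sum_of_nonneg fun _ _ => by positivity,
    ENNReal.ofReal_le_ofReal_iff (by positivity), ← Finset.mul_sum, sq_abs] at h
  linarith

theorem hit_closed (hS : IsCompact S) (p : ℂ) : IsClosed {t : ℝ | (S ∩ sphere p t).Nonempty} := by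
  rw [show {t : ℝ | (S ∩ sphere p t).Nonempty} = (fun z => dist z p) '' S from rfl]
  exact (hS.image (continuous_id.dist continuous_const)).isClosed

theorem sq_one {x : ℂ} (ht : 0 < t) (hR : 0 < R) (p : ℂ) :
    volume (Icc (R / 2) R ∩ {u : ℝ | (sq x t ∩ sphere p u).Nonempty}) ^ 2 ≤
      4 * volume (sq x t ∩ sq p (3 / 2 * R)) := by
  rcases (Icc (R / 2) R ∩ {u : ℝ | (sq x t ∩ sphere p u).Nonempty}).eq_empty_or_nonempty with
    h | ⟨u, hu, y, hy, hy'⟩
  · simp [h]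
  obtain ⟨m, h0, h1, h2, h3⟩ : ∃ m, 0 ≤ m ∧ m ≤ t ∧ m ≤ R / 8 ∧ (m = t ∨ m = R / 8) :=
    ⟨min t (R / 8), by positivity, min_le_left _ _, min_le_right _ _, min_choice _ _⟩
  have h4 : volume (Icc (R / 2) R ∩ {u : ℝ | (sq x t ∩ sphere p u).Nonempty}) ≤
      ENNReal.ofReal (4 * m) := by
    rcases h3 with h3 | h3
    · refine (measure_mono (t := closedBall (dist x p) (2 * t)) ?_).trans_eq ?_
      · rintro _ ⟨-, w, hw, rfl⟩
        exact (abs_dist_sub_le w x p).trans ((dist_eq_norm w x).trans_le (sq_norm hw))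
      · rw [Real.volume_closedBall, h3]
        congr 1
        ring
    · refine (measure_mono inter_subset_left).trans_eq ?_
      rw [Real.volume_Icc, h3]
      congr 1
      ring
  obtain ⟨a, a1, a2⟩ := sq_clamp hy.1 h0 h1
  obtain ⟨b, b1, b2⟩ := sq_clamp hy.2 h0 h1
  obtain ⟨c1, c2⟩ := sq_of_norm ((mem_sphere_iff_norm.1 hy').le.trans hu.2)
  have h5 : sq ⟨a, b⟩ m ⊆ sq x t ∩ sq p (3 / 2 * R) := fun w hw => by
    obtain ⟨d1, d2⟩ : |w.re - a| ≤ m ∧ |w.im - b| ≤ m := hw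
    simp only [P116.sq, mem_inter_iff, mem_ofPred_eq, abs_le] at *
    refine ⟨⟨⟨?_, ?_⟩, ?_, ?_⟩, ⟨?_, ?_⟩, ?_, ?_⟩ <;>
      linarith [a1.1, a1.2, a2.1, a2.2, b1.1, b1.2, b2.1, b2.2, c1.1, c1.2, c2.1, c2.2, d1.1, d1.2,
        d2.1, d2.2]
  refine (pow_le_pow_left' h4 2).trans (le_trans (le_of_eq ?_)
    (mul_le_mul_right (measure_mono h5) 4))
  rw [volume_sq _ h0, ← ENNReal.ofReal_pow (by linarith), ← ENNReal.ofReal_ofNat 4,
    ← ENNReal.ofReal_mul (by norm_num)]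
  congr 1
  ring

theorem fat (hs : ∀ j, 0 < s j) (hd : Pairwise (Function.onFun Disjoint fun j => sq (c j) (s j)))
    (hR : 0 < R) (p : ℂ) :
    ∑ j, volume (Icc (R / 2) R ∩ {t : ℝ | (sq (c j) (s j) ∩ sphere p t).Nonempty}) ^ 2 ≤
      ENNReal.ofReal (18 * π * R ^ 2) := by
  refine (Finset.sum_le_sum fun j _ => sq_one (hs j) hR p).trans ?_
  rw [← Finset.mul_sum]
  refine (mul_le_mul_right (sq_sum (A := sq p (3 / 2 * R))
    (fun j => (isCompact_sq _ _).measurableSet.inter (isCompact_sq _ _).measurableSet)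
    (fun i j hij => (hd hij).mono inter_subset_left inter_subset_left)
    fun j => inter_subset_right) 4).trans ?_
  rw [volume_sq _ (by linarith), ← ENNReal.ofReal_ofNat 4, ← ENNReal.ofReal_mul (by norm_num)]
  exact ENNReal.ofReal_le_ofReal (by nlinarith [Real.two_le_pi, sq_nonneg R])

theorem cmp_sq (hs : SquareComps K) (hS : S ∈ Cmp K) : ∃ (x : ℂ) (t : ℝ), 0 < t ∧ S = sq x t := by
  obtain ⟨h1, w, hw, h2⟩ := hS
  obtain ⟨x, t, h3, h4⟩ := hs w hw
  refine ⟨x, t, h3.lt_of_ne fun h => ?_, h2.trans h4⟩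
  rw [h2, h4, ← h, sq_zero] at h1
  exact not_nontrivial_singleton h1

theorem cmp_subset (hS : S ∈ Cmp K) : S ⊆ K :=
  let ⟨_, w, _, h⟩ := hS
  h ▸ connectedComponentIn_subset K w

theorem cmp_eq (hS : S ∈ Cmp K) (hp : p ∈ S) : S = connectedComponentIn K p :=
  let ⟨_, _, _, h⟩ := hS
  h.trans (connectedComponentIn_eq (h ▸ hp))

theorem cmp_or (hp : p ∈ K) :
    connectedComponentIn K p ∈ Cmp K ∨ connectedComponentIn K p = {p} :=
  (connectedComponentIn K p).subsingleton_or_nontrivial.symm.imp (fun h => ⟨h, p, hp, rfl⟩)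
    fun h => h.eq_singleton_of_mem (mem_connectedComponentIn hp)

theorem fam_fam {𝓕 : Finset (Set ℂ)} (hs : SquareComps K) (h : (𝓕 : Set (Set ℂ)) ⊆ Cmp K) :
    Fam (fam 𝓕) := by
  refine ⟨fun j => ?_, fun j => ?_, fun j => (h j.2).1.nonempty, fun i j hij =>
    disjoint_left.2 fun p h1 h2 => hij (Subtype.ext
      ((cmp_eq (h i.2) h1).trans (cmp_eq (h j.2) h2).symm))⟩
  · obtain ⟨x, t, -, e⟩ := cmp_sq hs (h j.2)
    rw [fam, e]
    exact isCompact_sq x t
  · obtain ⟨x, t, -, e⟩ := cmp_sq hs (h j.2)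
    rw [fam, e]
    exact convex_sq x t

theorem compl_subset_om {𝓕 : Finset (Set ℂ)} (h : (𝓕 : Set (Set ℂ)) ⊆ Cmp K) :
    Kᶜ ⊆ Om (fam 𝓕) :=
  compl_subset_compl.2 (iUnion_subset fun j => cmp_subset (h j.2))

end Vale.P116B
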