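import Vale.Agent.P116B.FK
import Vale.Agent.P116B.Decay
import Vale.Agent.P116B.Hull
import Vale.Agent.P116B.Sq

/-!
# P116B Approx

Uniform bounds. Let `K ⊆ ball 0 R`. `fk` with `ρ j = 2 s j` and `sum_sq_le` give `Bnd` with `16 R ^ 2`. `decay` for `F - z` with `M = 4 R` gives
`‖F z - z‖ ≤ 16 R ^ 2 / ‖z‖` for `2 R ≤ ‖z‖`. The sphere of radius `2 R` misses the squares, so `Gam ⊆ closedBall 0 (10 R)` and `hull` bounds `F` and the discs.
Take `M = 16 R ^ 2 + 12 R`.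
-/

namespace Vale.P116B

open Set Filter Topology MeasureTheory Metric Complex Vale.P116
open scoped ContDiff ComplexConjugate Real ENNReal Gradient

variable {ι : Type} [Fintype ι] {Q U E : ι → Set ℂ} {W : ι → ℂ → ℤ} {c : ι → ℂ} {r ρ s : ι → ℝ}
  {f g h k F G Φ Θ θ φ χ η ξ a b V : ℂ → ℂ} {K A O S Z : Set ℂ} {z p q w : ℂ} {j : ι}
  {R M t L ε : ℝ}

theorem approx_dec (hR : 0 < R) (hQ : Fam Q) (hQR : ∀ j, Q j ⊆ ball 0 R)
    (hF : NormMap (⋃ j, Q j) F) (hB : Bnd Q F r (16 * R ^ 2)) (hz : 2 * R ≤ ‖z‖) :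
    ‖F z - z‖ ≤ 16 * R ^ 2 / ‖z‖ := by
  have h1 : (closedBall (0 : ℂ) R)ᶜ ⊆ Om Q :=
    compl_subset_compl.2 (iUnion_subset fun j => (hQR j).trans ball_subset_closedBall)
  have hm : MeasurableSet (closedBall (0 : ℂ) R)ᶜ := measurableSet_closedBall.compl
  have h2 : EqOn (fun z => ‖deriv F z - 1‖ ^ 2) (fun z => ‖deriv (fun z => F z - z) z‖ ^ 2)
      (closedBall (0 : ℂ) R)ᶜ := fun w hw => by
    have h := ((hF.1.differentiableAt (hQ.isOpen.mem_nhds (h1 hw))).hasDerivAt.fun_sub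
      (hasDerivAt_id' w)).deriv
    simp only [h]
  have h3 : IntegrableOn (fun z => ‖deriv F z - 1‖ ^ 2) (Om Q) :=
    (memLp_two_iff_integrable_sq_norm hB.1.1).1 hB.1
  have h4 := decay (h := fun z => F z - z) (M := 4 * R) hR (by positivity)
    ((hF.1.mono h1).sub differentiableOn_id) hF.2.2 ((h3.mono_set h1).congr_fun h2 hm) (by
      rw [← setIntegral_congr_fun hm h2]
      refine ((setIntegral_mono_set h3 (Eventually.of_forall fun w => by positivity)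
        h1.eventuallyLE).trans hB.2.1).trans_eq (by ring)) hz
  exact h4.trans_eq (by ring)

theorem approx_bnd {B B' : ℝ} (hB : Bnd Q F r B) (h : B ≤ B') : Bnd Q F r B' :=
  ⟨hB.1, hB.2.1.trans h, hB.2.2.trans h⟩

theorem approx (hK : IsCompact K) (hs : SquareComps K) : ∃ M : ℝ, 0 < M ∧
    ∀ 𝓕 : Finset (Set ℂ), (𝓕 : Set (Set ℂ)) ⊆ Cmp K →
      ∃ (F : ℂ → ℂ) (c : 𝓕 → ℂ) (r : 𝓕 → ℝ), Unif 𝓕 F c r M := by
  obtain ⟨R, hR, hKR⟩ := hK.isBounded.subset_ball_lt 0 0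
  have hR2 := sq_nonneg R
  refine ⟨16 * R ^ 2 + 12 * R, by positivity, fun 𝓕 h𝓕 => ?_⟩
  have hQ := fam_fam hs h𝓕
  choose x t ht hxt using fun j : 𝓕 => cmp_sq hs (h𝓕 j.2)
  have hQR : ∀ j, fam 𝓕 j ⊆ ball 0 R := fun j => (cmp_subset (h𝓕 j.2)).trans hKR
  have he : fam 𝓕 = fun j => sq (x j) (t j) := funext hxt
  have hsum := sum_sq_le ht (he ▸ hQ.disj) fun j => (hxt j).ge.trans (hQR j)
  obtain ⟨F, c, r, hC, hB0⟩ := fk hQ
  have hB : Bnd (fam 𝓕) F r (16 * R ^ 2) := by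
    refine approx_bnd (hB0 x (fun j => 2 * t j) fun j => ?_) ?_
    · rw [he]
      exact sq_subset_ball _ (ht j)
    · simp only [mul_pow, ← Finset.mul_sum]
      linarith
  have h1 : ∀ z : ℂ, 2 * R ≤ ‖z‖ → ‖F z - z‖ ≤ 16 * R ^ 2 / ‖z‖ := fun z hz =>
    approx_dec hR hQ hQR hC.nm hB hz
  have h2 : ∀ z : ℂ, 2 * R ≤ ‖z‖ → ‖F z - z‖ ≤ 8 * R := fun z hz =>
    (h1 z hz).trans (div_le_of_le_mul₀ (norm_nonneg _) (by positivity) (by nlinarith))
  have hΓ : Gam (fam 𝓕) F c r 0 (2 * R) ⊆ closedBall 0 (10 * R) := by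
    refine union_subset ?_ (iUnion₂_subset fun j hj => ?_)
    · rintro _ ⟨z, ⟨hz, -⟩, rfl⟩
      rw [mem_sphere_zero_iff_norm] at hz
      have h3 := norm_le_norm_add_norm_sub' (F z) z
      rw [mem_closedBall_zero_iff]
      linarith [h2 z hz.ge]
    · obtain ⟨z, hz1, hz2⟩ := hj
      have h3 := mem_ball_zero_iff.1 (hQR j hz1)
      rw [mem_sphere_zero_iff_norm] at hz2
      linarith
  obtain ⟨h3, h4⟩ := hull hQ hC hΓ
  refine ⟨F, c, r, hC, approx_bnd hB (by linarith), fun z hz => ?_, fun z hz => ?_, fun j => ?_⟩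
  · rcases lt_or_ge ‖z‖ (2 * R) with h | h
    · have h5 := mem_closedBall_zero_iff.1 (h3 ⟨z, ⟨mem_ball_zero_iff.2 h, hz⟩, rfl⟩)
      linarith [norm_sub_le (F z) z]
    · linarith [h2 z h]
  · exact (h1 z (by linarith)).trans
      (div_le_div_of_nonneg_right (by linarith) (norm_nonneg _))
  · have h5 := mem_closedBall_zero_iff.1 (h4 j ((hQR j).trans (ball_subset_ball (by linarith)))
      (mem_closedBall_self (hC.r0 j)))
    have h6 := (Finset.single_le_sum (f := fun j => r j ^ 2) (fun j _ => sq_nonneg _)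
      (Finset.mem_univ j)).trans hB.2.2
    have h7 : r j ≤ 4 * R := le_of_sq_le_sq (by linarith) (by positivity)
    exact ⟨by linarith, by linarith⟩

end Vale.P116B
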