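import Vale.Agent.P116B.Cutoff

/-!
# P116B Star

Consequences of the variational inequality. The left side of `EL` is nonnegative. `el_nonneg`: `k = 0`, `ρ = R + Pi.single j t`, `t → ∞`.
`el_star`: test with `(t * u) * k` for a unit `u` with `u * X = -‖X‖`, `ρ j = R + t * s j`, and let `t → ∞`.
`el_bound`: `k = 0`; `‖conj z - conj (e j)‖ ≤ ρ j` on the open ball.
-/

namespace Vale.P116B

open Set Filter Topology MeasureTheory Metric Complex Vale.P116
open scoped ContDiff ComplexConjugate Real ENNReal Gradient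

variable {ι : Type} [Fintype ι] {Q U E : ι → Set ℂ} {W : ι → ℂ → ℤ} {c : ι → ℂ} {r ρ s : ι → ℝ}
  {f g h k F G Φ Θ θ φ χ η ξ a b V : ℂ → ℂ} {K A O S Z : Set ℂ} {z p q w : ℂ} {j : ι}
  {R M t L ε : ℝ}

theorem star_test0 : Test Q fun _ => (0 : ℂ) :=
  Cc.test ⟨contDiff_const, HasCompactSupport.zero⟩

theorem star_lhs (Q : ι → Set ℂ) (Φ : ℂ → ℂ) (r : ι → ℝ) :
    0 ≤ (∫ z in Om Q, ‖Φ z - 1‖ ^ 2) ∧ 0 ≤ π * ∑ j, r j ^ 2 ∧ 0 ≤ area Q :=
  ⟨integral_nonneg fun _ => by positivity,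
    mul_nonneg Real.pi_pos.le (Finset.sum_nonneg fun _ _ => sq_nonneg _), measureReal_nonneg⟩

theorem star_slope {x y : ℝ} (h : ∀ t : ℝ, 0 ≤ t → 0 ≤ x + t * y) : 0 ≤ y := by
  by_contra hy
  have hy' : 0 < -y := by linarith [not_le.1 hy]
  have hx : 0 ≤ x := by simpa using h 0 le_rfl
  have h1 := h ((x + 1) / (-y)) (by positivity)
  have h2 : (x + 1) / (-y) * y = -(x + 1) := by
    have : y ≠ 0 := by intro h0; simp [h0] at hy'
    field_simp
  linarith

theorem star_key (hQ : Fam Q) (hel : EL Q Φ r) (hk : Test Q k) (hs : Near Q k s) {u : ℂ}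
    (hu : ‖u‖ ≤ 1) : 0 ≤ (u * ∫ z in Om Q, Φ z * db k z).re + π * ∑ j, r j * s j := by
  obtain ⟨R, hR, hQR⟩ := hQ.exists_ball
  refine star_slope (x := π * ∑ j, r j * R) fun t ht => ?_
  have hn : Near Q (fun z => conj z + ((t : ℂ) * u) * k z) (fun j => R + t * s j) := by
    intro j
    obtain ⟨h0, c, hc⟩ := hs j
    refine ⟨by positivity, (t : ℂ) * u * c, ?_⟩
    have hb : ∀ᶠ z in 𝓝ˢ (Q j), z ∈ ball (0 : ℂ) R := isOpen_ball.mem_nhdsSet.2 (hQR j)
    filter_upwards [hc, hb] with z hz hz' hO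
    have e : conj z + (t : ℂ) * u * k z - (t : ℂ) * u * c =
        conj z + (t : ℂ) * (u * (k z - c)) := by ring
    rw [e]
    refine le_trans (norm_add_le _ _) (add_le_add ?_ ?_)
    · rw [Complex.norm_conj]
      exact le_of_lt (mem_ball_zero_iff.1 hz')
    · rw [norm_mul, norm_mul, Complex.norm_real, Real.norm_of_nonneg ht]
      refine mul_le_mul_of_nonneg_left ?_ ht
      calc ‖u‖ * ‖k z - c‖ ≤ 1 * s j := mul_le_mul hu (hz hO) (norm_nonneg _) zero_le_one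
        _ = s j := one_mul _
  have h1 := hel _ _ (hk.const_mul hQ ((t : ℂ) * u)) hn
  have h2 : ∫ z in Om Q, Φ z * db (fun z => (t : ℂ) * u * k z) z =
      (t : ℂ) * (u * ∫ z in Om Q, Φ z * db k z) := by
    rw [← mul_assoc, ← integral_const_mul]
    refine setIntegral_congr_fun hQ.isOpen.measurableSet fun z hz => ?_
    rw [db_const_mul _ (hk.diffAt hQ hz)]
    ring
  have h3 : ∑ j, r j * (R + t * s j) = ∑ j, r j * R + t * ∑ j, r j * s j := by
    rw [Finset.mul_sum, ← Finset.sum_add_distrib]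
    exact Finset.sum_congr rfl fun j _ => by ring
  rw [h2, h3, Complex.re_ofReal_mul] at h1
  obtain ⟨a1, a2, a3⟩ := star_lhs Q Φ r
  linarith

theorem el_nonneg (hQ : Fam Q) (hel : EL Q Φ r) (j : ι) : 0 ≤ r j := by
  classical
  have hn : Near Q (fun _ => (0 : ℂ)) (Pi.single j 1) := by
    intro i
    have h0 : (0 : ℝ) ≤ (Pi.single j 1 : ι → ℝ) i := by
      by_cases hi : i = j
      · simp [hi]
      · simp [hi]
    exact ⟨h0, 0, Eventually.of_forall fun z _ => by simpa using h0⟩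
  have h1 := star_key hQ hel star_test0 hn (u := 0) (by simp)
  have h2 : ∑ i, r i * (Pi.single j 1 : ι → ℝ) i = r j := by
    rw [Finset.sum_eq_single j]
    · simp
    · intro i _ hi
      simp [hi]
    · simp
  rw [h2, zero_mul, Complex.zero_re, zero_add] at h1
  exact le_of_mul_le_mul_left (by rwa [mul_zero]) Real.pi_pos

theorem el_star (hQ : Fam Q) (hΦ : MemLp (fun z => Φ z - 1) 2 (volume.restrict (Om Q)))
    (hel : EL Q Φ r) : Star Q Φ r := by
  intro k s hk hs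
  obtain ⟨u, hu, huX⟩ := Complex.exists_norm_eq_mul_self (∫ z in Om Q, Φ z * db k z)
  have h1 := star_key hQ hel hk hs (u := -u) (by rw [norm_neg, hu])
  rw [neg_mul, ← huX, Complex.neg_re, Complex.ofReal_re] at h1
  linarith

theorem el_bound {e : ι → ℂ} (hQ : Fam Q) (hel : EL Q Φ r) (h : ∀ j, Q j ⊆ ball (e j) (ρ j)) :
    (∫ z in Om Q, ‖Φ z - 1‖ ^ 2) ≤ 4 * ∑ j, ρ j ^ 2 ∧ ∑ j, r j ^ 2 ≤ 4 * ∑ j, ρ j ^ 2 := by
  have hn : Near Q (fun z => conj z + (fun _ => (0 : ℂ)) z) ρ := by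
    intro j
    obtain ⟨x, hx⟩ := hQ.ne j
    refine ⟨le_of_lt (pos_of_mem_ball (h j hx)), conj (e j), ?_⟩
    have hb : ∀ᶠ z in 𝓝ˢ (Q j), z ∈ ball (e j) (ρ j) := isOpen_ball.mem_nhdsSet.2 (h j)
    filter_upwards [hb] with z hz _
    rw [add_zero, ← map_sub, Complex.norm_conj]
    exact le_of_lt (mem_ball_iff_norm.1 hz)
  have h1 := hel _ _ star_test0 hn
  simp only [db_const, mul_zero, integral_zero, Complex.zero_re, zero_add] at h1
  obtain ⟨a1, a2, a3⟩ := star_lhs Q Φ r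
  have b0 : 0 ≤ ∑ j, ρ j ^ 2 := Finset.sum_nonneg fun _ _ => sq_nonneg _
  have b1 : 2 * ∑ j, r j * ρ j ≤ ∑ j, r j ^ 2 + ∑ j, ρ j ^ 2 := by
    rw [Finset.mul_sum, ← Finset.sum_add_distrib]
    exact Finset.sum_le_sum fun j _ => by nlinarith [sq_nonneg (r j - ρ j)]
  have b2 : 4 * ∑ j, r j * ρ j ≤ ∑ j, r j ^ 2 + 4 * ∑ j, ρ j ^ 2 := by
    rw [Finset.mul_sum, Finset.mul_sum, ← Finset.sum_add_distrib]
    exact Finset.sum_le_sum fun j _ => by nlinarith [sq_nonneg (r j - 2 * ρ j)]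
  have c1 := mul_le_mul_of_nonneg_left b1 Real.pi_pos.le
  have c2 := mul_le_mul_of_nonneg_left b2 Real.pi_pos.le
  have c3 := mul_le_mul_of_nonneg_right Real.pi_le_four b0
  refine ⟨by linarith, le_of_mul_le_mul_left ?_ Real.pi_pos⟩
  linarith

theorem el_congr (hQ : Fam Q) (hel : EL Q Φ r) (h : ∀ᵐ z, z ∈ Om Q → Φ z = G z) : EL Q G r := by
  intro k ρ hk hn
  have h1 := hel k ρ hk hn
  have e1 : ∫ z in Om Q, ‖Φ z - 1‖ ^ 2 = ∫ z in Om Q, ‖G z - 1‖ ^ 2 := by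
    refine setIntegral_congr_ae hQ.isOpen.measurableSet ?_
    filter_upwards [h] with z hz hO
    rw [hz hO]
  have e2 : ∫ z in Om Q, Φ z * db k z = ∫ z in Om Q, G z * db k z := by
    refine setIntegral_congr_ae hQ.isOpen.measurableSet ?_
    filter_upwards [h] with z hz hO
    rw [hz hO]
  rwa [e1, e2] at h1

end Vale.P116B
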