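import Vale.Agent.P116B.NL
import Vale.Agent.P116B.Star

/-!
# P116B Asum

The total area. Let `h₀ = F - z`, `ξ = F' - 1`, `χ j` cutoffs, `η` from `exists_eta` with `R` large. Test `EL` with
`k = η * conj h₀ - ∑ j, χ j * conj F` and `ρ = 0` (`test_comp` with `Θ = conj` gives the tests `η * conj F`, `χ j * conj F`; `η * conj z` is `Cc`).
`W1` with `Θ = conj` gives `∫ W j = -∫ F' * db (χ j * conj F)`. With `u = dz (η * h₀) = conj (db (η * conj h₀))` the Jacobian in `W3` is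
`‖1 + u‖ ^ 2 - ‖h₀ * db η‖ ^ 2`. Hence `∑ ∫ W j ≥ π ∑ r ^ 2 + ∫ ‖ξ - u‖ ^ 2 - ∫ ‖h₀ * db η‖ ^ 2`, and the last integral is at most
`sup_{R ≤ ‖z‖} ‖h₀‖ ^ 2 * (C / R) ^ 2 * 4 π R ^ 2 → 0`.
-/

namespace Vale.P116B

open Set Filter Topology MeasureTheory Metric Complex Vale.P116
open scoped ContDiff ComplexConjugate Real ENNReal Gradient

variable {ι : Type} [Fintype ι] {Q U E : ι → Set ℂ} {W : ι → ℂ → ℤ} {c : ι → ℂ} {r ρ s : ι → ℝ}
  {f g h k F G Φ Θ θ φ χ η ξ a b V : ℂ → ℂ} {K A O S Z : Set ℂ} {z p q w : ℂ} {j : ι}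
  {R M t L ε : ℝ}

theorem Asum_sum (hQ : Fam Q) {u : ι → ℂ → ℂ} (hu : ∀ j, Test Q (u j)) :
    Test Q fun z => ∑ j, u j z := by
  classical
  suffices h : ∀ T : Finset ι, Test Q fun z => ∑ j ∈ T, u j z from h _
  intro T
  induction T using Finset.induction_on with
  | empty => exact Cc.test ⟨contDiff_const, HasCompactSupport.zero⟩
  | insert a T ha ih =>
    simp only [Finset.sum_insert ha]
    exact (hu a).add hQ ih

theorem Asum_sub (hQ : Fam Q) (h1 : Test Q k) (h2 : Test Q h) : Test Q fun z => k z - h z := by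
  simpa only [neg_one_mul, ← sub_eq_add_neg] using h1.add hQ (h2.const_mul hQ (-1))

theorem Asum_pt (x v : ℂ) :
    2 * (x * v).re ≤ ‖x - 1‖ ^ 2 + (2 * v.re + ‖v‖ ^ 2) := by
  simp only [Complex.sq_norm, normSq_apply, mul_re, sub_re, sub_im, one_re, one_im]
  nlinarith [sq_nonneg (x.re - 1 - v.re), sq_nonneg (x.im + v.im)]

theorem asum_eta (hQ : Fam Q) (hS : Sol Q F r) (hW : Wind Q F W) :
    ∃ R₀ : ℝ, ∀ η : ℂ → ℂ, Cc η → Unit01 η → (∀ z, ‖z‖ ≤ R₀ → η z = 1) →
      π * ∑ j, r j ^ 2 ≤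
        ∑ j, (∫ w, (W j w : ℝ)) + ∫ z in Om Q, ‖(F z - z) * db η z‖ ^ 2 := by
  obtain ⟨R₀, h3⟩ := hW.w3
  obtain ⟨R, -, hR⟩ := hQ.exists_ball
  refine ⟨max R₀ R, fun η hη h01 h1 => ?_⟩
  choose χ hχ using fun j => hQ.exists_Cut j isOpen_univ (subset_univ _)
  have hm := hQ.isOpen.measurableSet
  have hn : ∀ j, ∀ᶠ z in 𝓝ˢ (Q j), η z = 1 := fun j =>
    mem_of_superset (isOpen_ball.mem_nhdsSet.2 (hR j)) fun z hz =>
      h1 z ((mem_ball_zero_iff.1 hz).le.trans (le_max_right _ _))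
  have hL : LocC Q η := ⟨hη, fun j => ⟨1, hn j⟩⟩
  have hcj : ContDiff ℝ ∞ fun w : ℂ => conj w := conjCLE.contDiff
  have hb : ∃ M : ℝ, ∀ w, ‖db (fun w : ℂ => conj w) w‖ ≤ M :=
    ⟨1, fun w => by rw [db_conj_id, norm_one]⟩
  have t1 : Test Q fun z => η z * conj (F z) - η z * conj z :=
    Asum_sub hQ (test_comp hQ hS.pre hL hcj hb) (hη.mul hcj).test
  have t2 : ∀ j, Test Q fun z => χ j z * conj (F z) := fun j =>
    test_comp hQ hS.pre (hχ j).1.locC hcj hb
  have t3 : Test Q fun z => η z * F z - η z * z :=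
    Asum_sub hQ (test_comp (Θ := fun w => w) hQ hS.pre hL contDiff_id
      ⟨0, fun w => by rw [db_id, norm_zero]⟩) (hη.mul contDiff_id).test
  have el := hS.el _ (fun _ => 0) (Asum_sub hQ t1 (Asum_sum hQ t2)) fun j => ⟨le_rfl, 0, by
    have h4 : ∀ᶠ z in 𝓝ˢ (Q j), ∀ i, i ≠ j → χ i z = 0 :=
      eventually_all.2 fun i => eventually_imp_distrib_left.2 fun hi => (hχ i).1.2.2 j hi.symm
    filter_upwards [hn j, (hχ j).1.2.1, h4] with z h5 h6 h7 _
    rw [Finset.sum_eq_single j (fun i _ hi => by rw [h7 i hi, zero_mul]) (by simp), h5, h6]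
    simp⟩
  obtain ⟨v, hv⟩ : ∃ v, v = db fun z => η z * conj (F z) - η z * conj z := ⟨_, rfl⟩
  have i1 : IntegrableOn (fun z => deriv F z * v z) (Om Q) := hv ▸ t1.int_mul hQ hS.pre.l2
  have i2 : IntegrableOn v (Om Q) := hv ▸ t1.int_db hQ
  have i3 : IntegrableOn (fun z => ‖v z‖ ^ 2) (Om Q) :=
    hv ▸ (memLp_two_iff_integrable_sq_norm t1.2.2.1).1 t1.2.2
  have i4 := (memLp_two_iff_integrable_sq_norm hS.pre.l2.1).1 hS.pre.l2
  have hd : ∀ z ∈ Om Q, DifferentiableAt ℂ (fun z => F z - z) z := fun z hz =>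
    (hS.pre.hol_at hQ hz).fun_sub differentiableAt_fun_id
  have e1 : ∀ z ∈ Om Q, db (fun z => η z * (F z - z)) z = (F z - z) * db η z := fun z hz => by
    rw [db_mul (hη.diffAt z) ((hd z hz).restrictScalars ℝ), db_hol (hd z hz), mul_zero, add_zero,
      mul_comm]
  have i5 : IntegrableOn (fun z => ‖(F z - z) * db η z‖ ^ 2) (Om Q) :=
    IntegrableOn.congr_fun ((memLp_two_iff_integrable_sq_norm t3.2.2.1).1 t3.2.2)
      (fun z hz => by simp only [← e1 z hz, mul_sub]) hm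
  have e2 : ∀ z ∈ Om Q, jac (fun z => z + η z * (F z - z)) z - 1 =
      2 * (v z).re + ‖v z‖ ^ 2 - ‖(F z - z) * db η z‖ ^ 2 := fun z hz => by
    have h4 := (hη.diffAt z).fun_mul ((hd z hz).restrictScalars ℝ)
    have h5 : (fun z => η z * conj (F z) - η z * conj z) = fun z => conj (η z * (F z - z)) := by
      funext z
      obtain ⟨t, -, -, ht⟩ := h01 z
      rw [map_mul, map_sub, ht, conj_ofReal, mul_sub]
    rw [jac, dz_add differentiableAt_fun_id h4, db_add differentiableAt_fun_id h4, dz_id, db_id,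
      zero_add, e1 z hz, hv, h5, db_conj, conj_re, norm_conj]
    simp only [Complex.sq_norm]
    rw [normSq_add, normSq_one, one_mul, conj_re]
    ring
  have e3 : ∫ z in Om Q, deriv F z * db (fun z => η z * conj (F z) - η z * conj z -
      ∑ j, χ j z * conj (F z)) z = (∫ z in Om Q, deriv F z * v z) +
        ((∑ j, ∫ w, (W j w : ℝ) : ℝ) : ℂ) := by
    rw [setIntegral_congr_fun hm (g := fun z => deriv F z * v z -
      ∑ j, deriv F z * db (fun z => χ j z * conj (F z)) z) fun z hz => by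
        simp only
        rw [db_sub (t1.diffAt hQ hz) ((Asum_sum hQ t2).diffAt hQ hz),
          db_sum fun j => (t2 j).diffAt hQ hz, hv, mul_sub, Finset.mul_sum],
      integral_sub i1 (integrable_finset_sum _ fun j _ => (t2 j).int_mul hQ hS.pre.l2),
      integral_finset_sum _ fun j _ => (t2 j).int_mul hQ hS.pre.l2, sub_eq_add_neg,
      ← Finset.sum_neg_distrib, ofReal_sum]
    refine congrArg _ (Finset.sum_congr rfl fun j _ => ?_)
    rw [hW.w1 j _ _ (hχ j).1 hcj hb, ← integral_complex_ofReal]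
    simp only [db_conj_id, mul_one, ofReal_intCast]
  have i6 : IntegrableOn (fun z => 2 * (v z).re + ‖v z‖ ^ 2) (Om Q) := (i2.re.const_mul 2).add i3
  have e4 := h3 η hη fun z hz => h1 z (hz.trans (le_max_left _ _))
  rw [setIntegral_congr_fun hm e2, integral_sub i6 i5] at e4
  have e5 := integral_mono (i1.re.const_mul 2) (i4.add i6) fun z => Asum_pt (deriv F z) (v z)
  have e6 := integral_add i4 i6
  have e7 := integral_re i1
  simp only [integral_const_mul, Pi.add_apply, RCLike.re_to_complex] at e5 e6 e7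
  simp only [e3, add_re, ofReal_re, mul_zero, Finset.sum_const_zero] at el
  linarith

theorem asum (hQ : Fam Q) (hS : Sol Q F r) (hW : Wind Q F W) :
    π * ∑ j, r j ^ 2 ≤ ∑ j, ∫ w, (W j w : ℝ) := by
  obtain ⟨R₀, h⟩ := asum_eta hQ hS hW
  obtain ⟨C, hC, hη⟩ := exists_eta
  refine le_of_forall_pos_le_add fun ε hε => ?_
  obtain ⟨δ, hδ, hδε⟩ : ∃ δ : ℝ, 0 < δ ∧ 4 * π * C ^ 2 * δ ^ 2 ≤ ε :=
    ⟨√(ε / (4 * π * C ^ 2)), by positivity, by
      rw [Real.sq_sqrt (by positivity), mul_div_cancel₀ _ (by positivity)]⟩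
  obtain ⟨K, hK, h1⟩ := mem_cocompact.1 (Metric.tendsto_nhds.1 hS.pre.inf δ hδ)
  obtain ⟨R, hR, h2⟩ := hK.isBounded.subset_ball_lt (max R₀ 0) 0
  have hR0 : 0 < R := (le_max_right _ _).trans_lt hR
  obtain ⟨η, h3, h4, h5, -, h6, h7⟩ := hη R hR0
  refine (h η h3 h4 fun z hz => h5 z (hz.trans ((le_max_left _ _).trans hR.le))).trans
    (add_le_add le_rfl (le_trans ?_ hδε))
  have hi : Integrable ((closedBall (0 : ℂ) (2 * R)).indicator fun _ => (δ * (C / R)) ^ 2) :=
    (integrable_indicator_iff measurableSet_closedBall).2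
      (integrableOn_const measure_closedBall_lt_top.ne)
  have h0 : ∀ z, 0 ≤ (closedBall (0 : ℂ) (2 * R)).indicator (fun _ => (δ * (C / R)) ^ 2) z :=
    fun z => indicator_nonneg (fun _ _ => sq_nonneg _) z
  refine (integral_mono_of_nonneg (Eventually.of_forall fun z => sq_nonneg _) hi.integrableOn
    (Eventually.of_forall fun z => ?_)).trans
    ((setIntegral_le_integral hi (Eventually.of_forall h0)).trans_eq ?_)
  · by_cases hz : ‖z‖ < R ∨ 2 * R < ‖z‖
    · simp only [db_of_fderiv (h6 z hz), mul_zero, norm_zero, zero_pow two_ne_zero]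
      exact h0 z
    · rw [not_or, not_lt, not_lt] at hz
      have h8 := h1 fun hx => absurd (mem_ball_zero_iff.1 (h2 hx)) (not_lt.2 hz.1)
      rw [mem_setOf_eq, dist_zero_right] at h8
      simp only [indicator_of_mem (mem_closedBall_zero_iff.2 hz.2), norm_mul]
      exact pow_le_pow_left₀ (by positivity)
        (mul_le_mul h8.le ((norm_db_le η z).trans (h7 z)) (norm_nonneg _) hδ.le) 2
  · rw [integral_indicator_const _ measurableSet_closedBall, Measure.real, volume_closedBall,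
      ENNReal.toReal_mul, ENNReal.toReal_pow, ENNReal.toReal_ofReal (by positivity),
      ENNReal.coe_toReal, NNReal.coe_real_pi, smul_eq_mul]
    field_simp
    ring

end Vale.P116B
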