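import Vale.Agent.P116B.Ends2
import Vale.Agent.P116B.Cutoff

/-!
# P116B Back

Small topological facts. `exists_pre`: a point `w` of the closure of `f '' S` off the image is a limit of `f` along an ultrafilter on `S` that
converges (properness) to a point of `K`. `frontier_hull`: the point of the closure farthest from `p` is not an interior point.
-/

namespace Vale.P116B

open Set Filter Topology MeasureTheory Metric Complex Vale.P116
open scoped ContDiff ComplexConjugate Real ENNReal Gradient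

variable {ι : Type} [Fintype ι] {Q U E : ι → Set ℂ} {W : ι → ℂ → ℤ} {c : ι → ℂ} {r ρ s : ι → ℝ}
  {f g h k F G Φ Θ θ φ χ η ξ a b V : ℂ → ℂ} {K A O S Z : Set ℂ} {z p q w : ℂ} {j : ι}
  {R M t L ε : ℝ}

theorem frontier_hull (hb : Bornology.IsBounded S) (h : frontier S ⊆ closedBall p R) :
    S ⊆ closedBall p R := fun _ hz => mem_closedBall_iff_norm.2
  (norm_le_of_forall_mem_frontier_norm_le (f := fun z => z - p) hb
    (differentiable_id.sub_const p).diffContOnCl (fun _ hx => mem_closedBall_iff_norm.1 (h hx))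
    (subset_closure hz))

theorem exists_pre (hK : IsCompact K) (hf : NormMap K f) (hS : S ⊆ Kᶜ)
    (hw : w ∈ closure (f '' S)) (hw' : w ∉ f '' Kᶜ) :
    ∃ x ∈ K, x ∈ closure S ∧ ClusterPt w (map f (𝓝 x ⊓ 𝓟 S)) := by
  have h0 : (comap f (𝓝 w) ⊓ 𝓟 S).NeBot := by
    have h1 := mem_closure_iff_clusterPt.1 hw
    rwa [ClusterPt, ← map_principal, ← Filter.push_pull', map_neBot_iff] at h1
  obtain ⟨u, hu⟩ := exists_ultrafilter_le (comap f (𝓝 w) ⊓ 𝓟 S)
  have h1 : map f u ≤ 𝓝 w := map_le_iff_le_comap.2 (hu.trans inf_le_left)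
  have h2 : (u : Filter ℂ) ≤ 𝓟 S := hu.trans inf_le_right
  have h3 : ¬(u : Filter ℂ) ≤ cocompact ℂ := fun h =>
    (disjoint_nhds_cocompact w).le_bot.not_gt (bot_lt_iff_ne_bot.2 (NeBot.mono inferInstance
      (le_inf h1 ((map_mono h).trans (normMap_tendsto hf)))).ne)
  rw [hasBasis_cocompact.ge_iff] at h3
  push Not at h3
  obtain ⟨C, hC, h4⟩ := h3
  obtain ⟨x, -, hx⟩ := hC.ultrafilter_le_nhds u
    (le_principal_iff.2 (Ultrafilter.compl_notMem_iff.1 h4))
  refine ⟨x, by_contra fun h5 => hw' ⟨x, h5, ?_⟩,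
    mem_closure_iff_clusterPt.2 (NeBot.mono inferInstance (le_inf hx h2)),
    NeBot.mono inferInstance (le_inf h1 (map_mono (le_inf hx h2)))⟩
  exact tendsto_nhds_unique
    ((hf.1.differentiableAt (hK.isClosed.isOpen_compl.mem_nhds h5)).continuousAt.mono_left hx) h1

theorem mem_of_cluster {l : Filter ℂ} (hA : IsCompact A) (hl : l ≤ 𝓝ˢ A) (hw : ClusterPt w l) :
    w ∈ A := by
  by_contra h
  have h1 : Disjoint (𝓝 w) (𝓝ˢ A) := disjoint_nhds_nhdsSet.2 (by rwa [hA.isClosed.closure_eq])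
  exact (hw.mono hl).ne (disjoint_iff.1 h1)

theorem Ends.back (hQ : Fam Q) (hF : NormMap (⋃ j, Q j) F) (hE : Ends Q F E) (j : ι)
    (hO : O ∈ 𝓝ˢ (Q j)) : ∀ᶠ w in 𝓝ˢ (E j), ∀ z ∈ Om Q, F z = w → z ∈ O := by
  have h1 : E j ⊆ (closure (F '' (Om Q \ O)))ᶜ := fun w hw h => by
    have h2 : w ∉ F '' (⋃ j, Q j)ᶜ := fun h2 => (hE.img.subset h2) (mem_iUnion.2 ⟨j, hw⟩)
    obtain ⟨x, h3, h4, h5⟩ := exists_pre hQ.isCompact hF sdiff_subset h h2
    obtain ⟨i, hi⟩ := mem_iUnion.1 h3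
    have h6 : w ∈ E i := mem_of_cluster (hE.cpt i) ((hE.lim i).mono_left
      (inf_le_inf (nhds_le_nhdsSet hi) (principal_mono.2 sdiff_subset))) h5
    obtain rfl : i = j := by_contra fun h7 => disjoint_left.1 (hE.disj h7) h6 hw
    obtain ⟨y, h7, h8⟩ := mem_closure_iff_nhds.1 h4 O (nhds_le_nhdsSet hi hO)
    exact h8.2 h7
  filter_upwards [isClosed_closure.isOpen_compl.mem_nhdsSet.2 h1] with w hw z hz h
  exact by_contra fun h2 => hw (subset_closure ⟨z, ⟨hz, h2⟩, h⟩)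

theorem back_loc (hQ : Fam Q) (hF : NormMap (⋃ j, Q j) F) (hE : Ends Q F E) (x : ℂ) :
    ∃ T ∈ 𝓝 x, Bornology.IsBounded (F '' (T ∩ Om Q)) := by
  by_cases hx : x ∈ Om Q
  · have h1 : F ⁻¹' ball (F x) 1 ∈ 𝓝 x :=
      (hF.1.differentiableAt (hQ.isOpen.mem_nhds hx)).continuousAt.preimage_mem_nhds
        (ball_mem_nhds _ one_pos)
    refine ⟨_, h1, (isBounded_ball (x := F x) (r := 1)).subset ?_⟩
    exact image_subset_iff.2 inter_subset_left
  · obtain ⟨i, hi⟩ := mem_iUnion.1 (not_not.1 hx)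
    obtain ⟨R, hR⟩ := (hE.cpt i).isBounded.subset_ball 0
    have h1 := eventually_inf_principal.1
      ((hE.lim i).eventually (isOpen_ball.mem_nhdsSet.2 hR))
    refine ⟨_, h1.filter_mono (nhds_le_nhdsSet hi), (isBounded_ball (x := 0) (r := R)).subset ?_⟩
    rintro _ ⟨z, ⟨h2, h3⟩, rfl⟩
    exact h2 h3

theorem Ends.bdd (hQ : Fam Q) (hF : NormMap (⋃ j, Q j) F) (hE : Ends Q F E)
    (hb : Bornology.IsBounded S) : Bornology.IsBounded (F '' (S ∩ Om Q)) := by
  choose T h1 h2 using back_loc hQ hF hE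
  obtain ⟨t, -, ht⟩ := hb.isCompact_closure.elim_nhds_subcover T fun x _ => h1 x
  refine ((Bornology.isBounded_biUnion_finset t).2 fun x _ => h2 x).subset ?_
  rintro _ ⟨z, ⟨h3, h4⟩, rfl⟩
  obtain ⟨x, hx, h5⟩ := mem_iUnion₂.1 (ht (subset_closure h3))
  exact mem_iUnion₂.2 ⟨x, hx, z, ⟨h5, h4⟩, rfl⟩

end Vale.P116B
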