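import Vale.Agent.P116B.Defs

/-!
# P116B Basic

Wirtinger calculus. All proofs are short: unfold `db dz`, use `fderiv_fun_add`, `fderiv_fun_mul`,
`fderiv_comp`, `ContinuousLinearEquiv.comp_fderiv` with `conjCLE`; a real linear map `T` satisfies
`T v = v.re * T 1 + v.im * T I`. `jac_eq_det`: `LinearMap.det_toMatrix basisOneI`, `Matrix.det_fin_two`.
-/

namespace Vale.P116B

open Set Filter Topology MeasureTheory Metric Complex Vale.P116
open scoped ContDiff ComplexConjugate Real ENNReal Gradient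

variable {ι : Type} [Fintype ι] {Q U E : ι → Set ℂ} {W : ι → ℂ → ℤ} {c : ι → ℂ} {r ρ s : ι → ℝ}
  {f g h k F G Φ Θ θ φ χ η ξ a b V : ℂ → ℂ} {K A O S Z : Set ℂ} {z p q w : ℂ} {j : ι}
  {R M t L ε : ℝ}

theorem basic_hol (h : DifferentiableAt ℂ g z) (v : ℂ) : fderiv ℝ g z v = v * deriv g z := by
  rw [h.fderiv_restrictScalars ℝ, ContinuousLinearMap.coe_restrictScalars',
    fderiv_eq_smul_deriv, smul_eq_mul]

theorem basic_lin (g : ℂ → ℂ) (z v : ℂ) : fderiv ℝ g z v = dz g z * v + db g z * conj v := by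
  have e : v = v.re • (1 : ℂ) + v.im • I := by
    rw [real_smul, real_smul, mul_one, re_add_im]
  have e1 : fderiv ℝ g z v = v.re * fderiv ℝ g z 1 + v.im * fderiv ℝ g z I := by
    conv_lhs => rw [e, map_add, map_smul, map_smul, real_smul, real_smul]
  have e2 : conj v = v.re - v.im * I := by
    apply Complex.ext <;> simp
  have e3 := (re_add_im v).symm
  rw [e1, e2, dz, db]
  generalize (v.re : ℂ) = x at e3 ⊢
  generalize (v.im : ℂ) = y at e3 ⊢
  rw [e3]
  linear_combination (y * fderiv ℝ g z I) * I_mul_I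

theorem basic_conj (f : ℂ → ℂ) (z v : ℂ) :
    fderiv ℝ (fun w => conj (f w)) z v = conj (fderiv ℝ f z v) :=
  congrArg (· v) (conjCLE.comp_fderiv (f := f) (x := z))

theorem basic_comp (hΘ : DifferentiableAt ℝ Θ (g z)) (hg : DifferentiableAt ℝ g z) (v : ℂ) :
    fderiv ℝ (fun w => Θ (g w)) z v = fderiv ℝ Θ (g z) (fderiv ℝ g z v) :=
  congrArg (· v) (fderiv_comp z hΘ hg)

theorem basic_cd (h : ContDiff ℝ ∞ g) (v : ℂ) : ContDiff ℝ ∞ fun z => fderiv ℝ g z v :=
  (h.fderiv_right (m := ∞) (by simp)).clm_apply contDiff_const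

theorem db_hol (h : DifferentiableAt ℂ g z) : db g z = 0 := by
  rw [db, basic_hol h, basic_hol h]
  linear_combination deriv g z / 2 * I_mul_I

theorem dz_hol (h : DifferentiableAt ℂ g z) : dz g z = deriv g z := by
  rw [dz, basic_hol h, basic_hol h]
  linear_combination -deriv g z / 2 * I_mul_I

theorem jac_hol (h : DifferentiableAt ℂ g z) : jac g z = ‖deriv g z‖ ^ 2 := by
  rw [jac, db_hol h, dz_hol h, norm_zero]
  ring

theorem hol_of_db (h : DifferentiableAt ℝ g z) (h0 : db g z = 0) : DifferentiableAt ℂ g z := by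
  refine differentiableAt_complex_iff_differentiableAt_real.2 ⟨h, ?_⟩
  rw [db] at h0
  rw [smul_eq_mul]
  linear_combination -2 * I * h0 + fderiv ℝ g z I * I_mul_I

theorem db_congr (h : f =ᶠ[𝓝 z] g) : db f z = db g z := by rw [db, db, h.fderiv_eq]

theorem dz_congr (h : f =ᶠ[𝓝 z] g) : dz f z = dz g z := by rw [dz, dz, h.fderiv_eq]

theorem jac_congr (h : f =ᶠ[𝓝 z] g) : jac f z = jac g z := by
  rw [jac, jac, db_congr h, dz_congr h]

theorem db_const (u z : ℂ) : db (fun _ => u) z = 0 := db_hol (differentiableAt_const u)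

theorem dz_const (u z : ℂ) : dz (fun _ => u) z = 0 := by
  rw [dz_hol (differentiableAt_const u), deriv_const]

theorem db_id (z : ℂ) : db (fun w => w) z = 0 := db_hol differentiableAt_id

theorem dz_id (z : ℂ) : dz (fun w => w) z = 1 := by
  rw [dz_hol differentiableAt_fun_id, deriv_id'']

theorem db_add (hf : DifferentiableAt ℝ f z) (hg : DifferentiableAt ℝ g z) :
    db (fun w => f w + g w) z = db f z + db g z := by
  simp only [db, fderiv_fun_add hf hg, add_apply]
  ring

theorem dz_add (hf : DifferentiableAt ℝ f z) (hg : DifferentiableAt ℝ g z) :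
    dz (fun w => f w + g w) z = dz f z + dz g z := by
  simp only [dz, fderiv_fun_add hf hg, add_apply]
  ring

theorem db_sub (hf : DifferentiableAt ℝ f z) (hg : DifferentiableAt ℝ g z) :
    db (fun w => f w - g w) z = db f z - db g z := by
  simp only [db, fderiv_fun_sub hf hg, sub_apply]
  ring

theorem dz_sub (hf : DifferentiableAt ℝ f z) (hg : DifferentiableAt ℝ g z) :
    dz (fun w => f w - g w) z = dz f z - dz g z := by
  simp only [dz, fderiv_fun_sub hf hg, sub_apply]
  ring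

theorem db_mul (hf : DifferentiableAt ℝ f z) (hg : DifferentiableAt ℝ g z) :
    db (fun w => f w * g w) z = db f z * g z + f z * db g z := by
  simp only [db, fderiv_fun_mul hf hg, add_apply, smul_apply, smul_eq_mul]
  ring

theorem dz_mul (hf : DifferentiableAt ℝ f z) (hg : DifferentiableAt ℝ g z) :
    dz (fun w => f w * g w) z = dz f z * g z + f z * dz g z := by
  simp only [dz, fderiv_fun_mul hf hg, add_apply, smul_apply, smul_eq_mul]
  ring

theorem db_const_mul (u : ℂ) (hf : DifferentiableAt ℝ f z) :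
    db (fun w => u * f w) z = u * db f z := by
  rw [db_mul (differentiableAt_const u) hf, db_const, zero_mul, zero_add]

theorem dz_const_mul (u : ℂ) (hf : DifferentiableAt ℝ f z) :
    dz (fun w => u * f w) z = u * dz f z := by
  rw [dz_mul (differentiableAt_const u) hf, dz_const, zero_mul, zero_add]

theorem db_sum {u : ι → ℂ → ℂ} (hu : ∀ j, DifferentiableAt ℝ (u j) z) :
    db (fun w => ∑ j, u j w) z = ∑ j, db (u j) z := by
  simp only [db, fderiv_fun_sum fun j _ => hu j, sum_apply, Finset.mul_sum,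
    ← Finset.sum_add_distrib, Finset.sum_div]

theorem db_conj (f : ℂ → ℂ) (z : ℂ) : db (fun w => conj (f w)) z = conj (dz f z) := by
  simp only [dz, db, basic_conj, map_div₀, map_sub, map_mul, conj_I, map_ofNat]
  ring

theorem dz_conj (f : ℂ → ℂ) (z : ℂ) : dz (fun w => conj (f w)) z = conj (db f z) := by
  simp only [dz, db, basic_conj, map_div₀, map_add, map_mul, conj_I, map_ofNat]
  ring

theorem db_conj_id (z : ℂ) : db (fun w => conj w) z = 1 := by
  rw [db_conj (fun w => w), dz_id, map_one]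

theorem db_comp (hΘ : DifferentiableAt ℝ Θ (g z)) (hg : DifferentiableAt ℝ g z) :
    db (fun w => Θ (g w)) z = dz Θ (g z) * db g z + db Θ (g z) * conj (dz g z) := by
  rw [db, basic_comp hΘ hg, basic_comp hΘ hg, basic_lin, basic_lin Θ (g z) (fderiv ℝ g z I)]
  simp only [dz, db, map_div₀, map_add, map_sub, map_mul, conj_I, map_ofNat]
  ring

theorem dz_comp (hΘ : DifferentiableAt ℝ Θ (g z)) (hg : DifferentiableAt ℝ g z) :
    dz (fun w => Θ (g w)) z = dz Θ (g z) * dz g z + db Θ (g z) * conj (db g z) := by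
  rw [dz, basic_comp hΘ hg, basic_comp hΘ hg, basic_lin, basic_lin Θ (g z) (fderiv ℝ g z I)]
  simp only [dz, db, map_div₀, map_add, map_sub, map_mul, conj_I, map_ofNat]
  ring

theorem db_comp_hol (hΘ : DifferentiableAt ℝ Θ (F z)) (hF : DifferentiableAt ℂ F z) :
    db (fun w => Θ (F w)) z = db Θ (F z) * conj (deriv F z) := by
  rw [db_comp hΘ (hF.restrictScalars ℝ), db_hol hF, dz_hol hF, mul_zero, zero_add]

theorem jac_eq_det (g : ℂ → ℂ) (z : ℂ) : jac g z = (fderiv ℝ g z).det := by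
  rw [ContinuousLinearMap.det, ← LinearMap.det_toMatrix basisOneI, Matrix.det_fin_two]
  simp only [jac, dz, db, LinearMap.toMatrix_apply, Complex.sq_norm, normSq_apply]
  simp
  ring

theorem norm_db_le (g : ℂ → ℂ) (z : ℂ) : ‖db g z‖ ≤ ‖fderiv ℝ g z‖ := by
  have h1 := (fderiv ℝ g z).le_opNorm 1
  have h2 := (fderiv ℝ g z).le_opNorm I
  have h3 := norm_add_le (fderiv ℝ g z 1) (I * fderiv ℝ g z I)
  rw [norm_mul, norm_I] at h3
  rw [norm_one] at h1
  rw [norm_I] at h2
  rw [db, norm_div, Complex.norm_ofNat]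
  linarith

theorem norm_dz_le (g : ℂ → ℂ) (z : ℂ) : ‖dz g z‖ ≤ ‖fderiv ℝ g z‖ := by
  have h1 := (fderiv ℝ g z).le_opNorm 1
  have h2 := (fderiv ℝ g z).le_opNorm I
  have h3 := norm_sub_le (fderiv ℝ g z 1) (I * fderiv ℝ g z I)
  rw [norm_mul, norm_I] at h3
  rw [norm_one] at h1
  rw [norm_I] at h2
  rw [dz, norm_div, Complex.norm_ofNat]
  linarith

theorem db_of_fderiv (h : fderiv ℝ g z = 0) : db g z = 0 := by simp [db, h]

theorem dz_of_fderiv (h : fderiv ℝ g z = 0) : dz g z = 0 := by simp [dz, h]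

theorem db_notMem (h : z ∉ tsupport g) : db g z = 0 :=
  db_of_fderiv (fderiv_of_notMem_tsupport ℝ h)

theorem dz_notMem (h : z ∉ tsupport g) : dz g z = 0 :=
  dz_of_fderiv (fderiv_of_notMem_tsupport ℝ h)

theorem measurable_db (g : ℂ → ℂ) : Measurable (db g) :=
  ((measurable_fderiv_apply_const ℝ g 1).add
    ((measurable_fderiv_apply_const ℝ g I).const_mul I)).div_const 2

theorem measurable_dz (g : ℂ → ℂ) : Measurable (dz g) :=
  ((measurable_fderiv_apply_const ℝ g 1).sub
    ((measurable_fderiv_apply_const ℝ g I).const_mul I)).div_const 2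

theorem measurable_jac (g : ℂ → ℂ) : Measurable (jac g) :=
  ((measurable_dz g).norm.pow_const 2).sub ((measurable_db g).norm.pow_const 2)

theorem contDiff_db (h : ContDiff ℝ ∞ g) : ContDiff ℝ ∞ (db g) :=
  ((basic_cd h 1).add (contDiff_const.mul (basic_cd h I))).div_const 2

theorem contDiff_dz (h : ContDiff ℝ ∞ g) : ContDiff ℝ ∞ (dz g) :=
  ((basic_cd h 1).sub (contDiff_const.mul (basic_cd h I))).div_const 2

theorem continuous_jac (h : ContDiff ℝ ∞ g) : Continuous (jac g) :=
  ((contDiff_dz h).continuous.norm.pow 2).sub ((contDiff_db h).continuous.norm.pow 2)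

theorem contOn_db (hO : IsOpen O) (h : ContDiffOn ℝ ∞ g O) : ContinuousOn (db g) O := by
  have h1 := h.continuousOn_fderiv_of_isOpen hO (by simp)
  exact ((h1.clm_apply continuousOn_const).add
    (continuousOn_const.mul (h1.clm_apply continuousOn_const))).div_const 2

theorem contOn_dz (hO : IsOpen O) (h : ContDiffOn ℝ ∞ g O) : ContinuousOn (dz g) O := by
  have h1 := h.continuousOn_fderiv_of_isOpen hO (by simp)
  exact ((h1.clm_apply continuousOn_const).sub
    (continuousOn_const.mul (h1.clm_apply continuousOn_const))).div_const 2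

theorem Cc.db (h : Cc φ) : Cc (db φ) :=
  ⟨contDiff_db h.1, h.2.mono' fun _ hz => by_contra fun h' => hz (db_notMem h')⟩

theorem Cc.dz (h : Cc φ) : Cc (dz φ) :=
  ⟨contDiff_dz h.1, h.2.mono' fun _ hz => by_contra fun h' => hz (dz_notMem h')⟩

theorem Cc.diffAt (h : Cc φ) (z : ℂ) : DifferentiableAt ℝ φ z :=
  h.1.differentiable (by simp) z

theorem Cc.integrable (h : Cc φ) : Integrable φ :=
  h.1.continuous.integrable_of_hasCompactSupport h.2

theorem Cc.bdd (h : Cc φ) : ∃ M : ℝ, ∀ z, ‖φ z‖ ≤ M := h.2.exists_bound_of_continuous h.1.continuous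

theorem Cc.far (h : Cc φ) : ∃ R : ℝ, ∀ z, R ≤ ‖z‖ → φ z = 0 := by
  obtain ⟨R, hR⟩ := h.2.isCompact.isBounded.exists_norm_le
  exact ⟨R + 1, fun z hz => image_eq_zero_of_notMem_tsupport fun h' => by linarith [hR z h']⟩

theorem Cc.add (h1 : Cc φ) (h2 : Cc χ) : Cc fun z => φ z + χ z := ⟨h1.1.add h2.1, h1.2.add h2.2⟩

theorem Cc.sub (h1 : Cc φ) (h2 : Cc χ) : Cc fun z => φ z - χ z := ⟨h1.1.sub h2.1, h1.2.sub h2.2⟩

theorem Cc.mul (h1 : Cc φ) (h2 : ContDiff ℝ ∞ g) : Cc fun z => φ z * g z :=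
  ⟨h1.1.mul h2, h1.2.mul_right⟩

theorem Cc.sum {u : ι → ℂ → ℂ} (hu : ∀ j, Cc (u j)) : Cc fun z => ∑ j, u j z := by
  classical
  have : ∀ t : Finset ι, Cc fun z => ∑ j ∈ t, u j z := fun t => by
    induction t using Finset.induction_on with
    | empty => exact ⟨contDiff_const, HasCompactSupport.zero⟩
    | insert j t hj ih =>
      simp only [Finset.sum_insert hj]
      exact (hu j).add ih
  exact this _

theorem cc_ofReal {ψ : ℂ → ℝ} (h : ContDiff ℝ ∞ ψ) (hc : HasCompactSupport ψ) :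
    Cc fun z => (ψ z : ℂ) :=
  ⟨ofRealCLM.contDiff.comp h, hc.comp_left ofReal_zero⟩

theorem tsupport_ofReal (ψ : ℂ → ℝ) : tsupport (fun z => (ψ z : ℂ)) = tsupport ψ := by
  unfold tsupport
  congr 1
  ext z
  simp

theorem grad_eq_db {ψ : ℂ → ℝ} (h : DifferentiableAt ℝ ψ z) :
    ∇ ψ z = 2 * db (fun w => (ψ w : ℂ)) z := by
  have e : ∀ v, fderiv ℝ (fun w => (ψ w : ℂ)) z v = (fderiv ℝ ψ z v : ℝ) := fun v => by
    have := (ofRealCLM.hasFDerivAt.comp z h.hasFDerivAt).fderiv
    exact congrArg (· v) this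
  rw [db, e, e, ← inner_gradient_left, ← inner_gradient_left]
  generalize ∇ ψ z = u
  apply Complex.ext <;> simp <;> ring

theorem contDiffOn_hol (hO : IsOpen O) (h : DifferentiableOn ℂ F O) : ContDiffOn ℝ ∞ F O :=
  (h.contDiffOn hO).restrict_scalars ℝ

theorem diffAt_of_on (hO : IsOpen O) (h : ContDiffOn ℝ ∞ g O) (hz : z ∈ O) :
    DifferentiableAt ℝ g z :=
  (h.contDiffAt (hO.mem_nhds hz)).differentiableAt (by simp)

/-- Extension by zero. -/
theorem ext0 (hO : IsOpen O) (ha : ContDiff ℝ ∞ a) (hs : tsupport a ⊆ O)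
    (hk : ContDiffOn ℝ ∞ k O) : ContDiff ℝ ∞ fun z => a z * k z := by
  refine contDiff_iff_contDiffAt.2 fun z => ?_
  by_cases hz : z ∈ tsupport a
  · exact ha.contDiffAt.mul (hk.contDiffAt (hO.mem_nhds (hs hz)))
  · refine (contDiffAt_const (c := (0 : ℂ))).congr_of_eventuallyEq ?_
    filter_upwards [notMem_tsupport_iff_eventuallyEq.1 hz] with w hw
    rw [hw, Pi.zero_apply, zero_mul]

theorem Cc.mul_on (ha : Cc a) (hO : IsOpen O) (hs : tsupport a ⊆ O) (hk : ContDiffOn ℝ ∞ k O) :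
    Cc fun z => a z * k z := ⟨ext0 hO ha.1 hs hk, ha.2.mul_right⟩

end Vale.P116B
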