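import Vale.Agent.P116B.Basic

/-!
# P116B CT

Cauchy-Pompeiu formula and the Cauchy transform. `pompeiu`: `Vale.Agent.P136.pomp` for `H u = φ (u + z)` and
translation invariance. Smoothness: `cauchyT V` is a constant times the convolution of `t⁻¹` (locally integrable,
`locallyIntegrable_of_norm_le_rpow`) with `V`: `HasCompactSupport.contDiff_convolution_right`,
`hasFDerivAt_convolution_right`, `convolution_precompR_apply` (see `pompA` in Vale/Agent/P071L/Pompeiu.lean on main).
-/

namespace Vale.P116B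

open Set Filter Topology MeasureTheory Metric Complex Vale.P116
open scoped ContDiff ComplexConjugate Real ENNReal Gradient

variable {ι : Type} [Fintype ι] {Q U E : ι → Set ℂ} {W : ι → ℂ → ℤ} {c : ι → ℂ} {r ρ s : ι → ℝ}
  {f g h k F G Φ Θ θ φ χ η ξ a b V : ℂ → ℂ} {K A O S Z : Set ℂ} {z p q w : ℂ} {j : ι}
  {R M t L ε : ℝ}

open scoped Convolution

theorem ct_locInt : LocallyIntegrable (fun t : ℂ => t⁻¹) volume :=
  locallyIntegrable_of_norm_le_rpow (C := 1) (α := 1) (by simp) (by simp)
    (Eventually.of_forall fun t => by rw [norm_inv, one_mul, Real.rpow_neg_one])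
    measurable_inv.aestronglyMeasurable

theorem ct_eq (V : ℂ → ℂ) : cauchyT V = fun ζ => (π : ℂ)⁻¹ *
    ((fun t : ℂ => t⁻¹) ⋆[ContinuousLinearMap.mul ℝ ℂ, volume] V) ζ := by
  funext ζ
  rw [cauchyT, convolution_eq_swap, neg_mul, ← mul_neg, ← integral_neg]
  refine congrArg _ (integral_congr_ae (Eventually.of_forall fun y => ?_))
  simp only [ContinuousLinearMap.mul_apply']
  rw [← neg_sub ζ y, div_neg, neg_neg, div_eq_inv_mul]

theorem int_div (hV : Continuous V) (hc : HasCompactSupport V) (z : ℂ) :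
    Integrable fun w => V w / (w - z) := by
  have h := (hc.convolutionExists_right (ContinuousLinearMap.mul ℝ ℂ) ct_locInt hV
    z).integrable_swap
  refine h.neg.congr (Eventually.of_forall fun y => ?_)
  simp only [Pi.neg_apply, ContinuousLinearMap.mul_apply']
  rw [← neg_sub z y, div_neg, div_eq_inv_mul]

theorem pompeiu (hφ : Cc φ) (z : ℂ) : ∫ w, db φ w / (w - z) = -(π : ℂ) * φ z := by
  have h := Vale.Agent.P136.pomp (H := fun u => φ (u + z))
    ((hφ.1.of_le (by norm_cast)).comp (contDiff_id.add contDiff_const))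
    (hφ.2.comp_homeomorph (Homeomorph.addRight z))
  have e : ∀ u : ℂ, u⁻¹ • (fderiv ℝ (fun u => φ (u + z)) u 1 +
      I • fderiv ℝ (fun u => φ (u + z)) u I) = 2 * (db φ (u + z) / (u + z - z)) := fun u => by
    rw [fderiv_comp_add_right, db, add_sub_cancel_right, smul_eq_mul, smul_eq_mul]
    ring
  rw [funext e, zero_add, smul_eq_mul, integral_const_mul,
    integral_add_right_eq_self (fun w => db φ w / (w - z)) z] at h
  linear_combination h / 2

theorem cauchyT_smooth (hV : Cc V) : ContDiff ℝ ∞ (cauchyT V) := by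
  rw [ct_eq]
  exact contDiff_const.mul (hV.2.contDiff_convolution_right _ ct_locInt hV.1)

theorem db_cauchyT (hV : Cc V) (z : ℂ) : db (cauchyT V) z = V z := by
  have h1 : ContDiff ℝ 1 V := hV.1.of_le (by norm_cast)
  have hD := h1.continuous_fderiv one_ne_zero
  have h2 : ∀ v, fderiv ℝ (cauchyT V) z v = cauchyT (fun y => fderiv ℝ V y v) z := fun v => by
    have h3 := hV.2.hasFDerivAt_convolution_right (ContinuousLinearMap.mul ℝ ℂ) ct_locInt h1 z
    rw [ct_eq, ct_eq, (h3.const_mul _).fderiv, smul_apply,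
      convolution_precompR_apply _ ct_locInt (hV.2.fderiv ℝ) hD]
    rfl
  have hi : ∀ v, Integrable fun w => fderiv ℝ V w v / (w - z) := fun v =>
    int_div (hD.clm_apply continuous_const) (hV.2.fderiv_apply ℝ v) z
  have h3 : ∫ w, db V w / (w - z) =
      ((∫ w, fderiv ℝ V w 1 / (w - z)) + I * ∫ w, fderiv ℝ V w I / (w - z)) / 2 := by
    rw [← integral_const_mul, ← integral_add (hi 1) ((hi I).const_mul I), ← integral_div]
    refine integral_congr_ae (Eventually.of_forall fun w => ?_)
    simp only [db]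
    ring
  have hπ : (π : ℂ)⁻¹ * π = 1 := inv_mul_cancel₀ (ofReal_ne_zero.2 Real.pi_ne_zero)
  rw [pompeiu hV] at h3
  rw [db, h2, h2, cauchyT, cauchyT]
  linear_combination (π : ℂ)⁻¹ * h3 + V z * hπ

end Vale.P116B
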