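import Vale.Agent.P116B.Cutoff

/-!
# P116B Gam

The transboundary image of a circle is connected and short. `gam_conn`: given disjoint open `X`, `Y` covering it, the points of the sphere whose image
(`F z`, or the whole disc if `z ∈ Q j`) lies in `X`, resp. `Y`, form relatively open sets (`Ends.lim`); `isPreconnected_sphere`. `gam_sub`: for `w` in the set
with `w ≠ x` let `e = (w - x) / ‖w - x‖` and `l z = re (conj e * (z - x))`. The image under `l` is an interval that contains `R` and `‖w - x‖`, so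
`Ioc R ‖w - x‖` is covered by `l '' disc` for the non free discs (length `2 r`), by the image of the open parameter set under `θ ↦ l (F (circleMap p t θ))`
(`addHaar_image_le_lintegral_abs_det_fderiv` on `ℝ`) and by one point (`θ = π`).
-/

namespace Vale.P116B

open Set Filter Topology MeasureTheory Metric Complex Vale.P116
open scoped ContDiff ComplexConjugate Real ENNReal Gradient

variable {ι : Type} [Fintype ι] {Q U E : ι → Set ℂ} {W : ι → ℂ → ℤ} {c : ι → ℂ} {r ρ s : ι → ℝ}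
  {f g h k F G Φ Θ θ φ χ η ξ a b V : ℂ → ℂ} {K A O S Z : Set ℂ} {z p q w : ℂ} {j : ι}
  {R M t L ε : ℝ}

/-- The transboundary image of one point. -/
def gamIm (Q : ι → Set ℂ) (F : ℂ → ℂ) (c : ι → ℂ) (r : ι → ℝ) (z : ℂ) : Set ℂ :=
  {w | (z ∈ Om Q ∧ w = F z) ∨ ∃ j, z ∈ Q j ∧ w ∈ closedBall (c j) (r j)}

omit [Fintype ι] in
theorem gamIm_om (hz : z ∈ Om Q) : gamIm Q F c r z = {F z} := by
  ext w
  constructor
  · rintro (h | ⟨j, hj, -⟩)
    · exact h.2
    · exact absurd hj (mem_Om.1 hz j)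
  · exact fun h => Or.inl ⟨hz, h⟩

omit [Fintype ι] in
theorem gamIm_Q (hQ : Fam Q) (hz : z ∈ Q j) : gamIm Q F c r z = closedBall (c j) (r j) := by
  ext w
  constructor
  · rintro (h | ⟨i, hi, hw⟩)
    · exact absurd hz (mem_Om.1 h.1 j)
    · by_cases hij : i = j
      · rwa [← hij]
      · exact absurd hz (disjoint_left.1 (hQ.disj hij) hi)
  · exact fun h => Or.inr ⟨j, hz, h⟩

omit [Fintype ι] in
theorem gam_cases (Q : ι → Set ℂ) (z : ℂ) : z ∈ Om Q ∨ ∃ j, z ∈ Q j := by
  by_cases h : z ∈ Om Q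
  · exact Or.inl h
  · right
    rw [mem_Om] at h
    push Not at h
    exact h

omit [Fintype ι] in
theorem gam_mem : w ∈ Gam Q F c r p t ↔ ∃ z ∈ sphere p t, w ∈ gamIm Q F c r z := by
  constructor
  · rintro (⟨z, hz, rfl⟩ | h)
    · exact ⟨z, hz.1, Or.inl ⟨hz.2, rfl⟩⟩
    · simp only [mem_iUnion] at h
      obtain ⟨j, ⟨z, hz⟩, hw⟩ := h
      exact ⟨z, hz.2, Or.inr ⟨j, hz.1, hw⟩⟩
  · rintro ⟨z, hz, h | ⟨j, hj, hw⟩⟩
    · exact Or.inl ⟨z, ⟨hz, h.1⟩, h.2.symm⟩
    · exact Or.inr (mem_iUnion₂.2 ⟨j, ⟨z, hj, hz⟩, hw⟩)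

theorem gamIm_open (hQ : Fam Q) (hC : Circ Q F c r) (hO : IsOpen O) :
    IsOpen {z | gamIm Q F c r z ⊆ O} := by
  refine isOpen_iff_mem_nhds.2 fun z hz => ?_
  rcases gam_cases Q z with h | ⟨j, hj⟩
  · have hz' : F z ∈ O := hz (Or.inl ⟨h, rfl⟩)
    have hc : ContinuousAt F z := (hC.nm.1.differentiableAt (hQ.isOpen.mem_nhds h)).continuousAt
    filter_upwards [hQ.isOpen.mem_nhds h, hc.preimage_mem_nhds (hO.mem_nhds hz')] with y h1 h2
    rw [gamIm_om h1]
    exact singleton_subset_iff.2 h2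
  · have hz' : closedBall (c j) (r j) ⊆ O := by rw [← gamIm_Q hQ hj]; exact hz
    have h1 : ∀ᶠ y in 𝓝ˢ (Q j), y ∈ Om Q → F y ∈ O :=
      eventually_inf_principal.1 ((hC.ends.lim j).eventually (hO.mem_nhdsSet.2 hz'))
    have h2 : ∀ᶠ y in 𝓝 z, ∀ i, i ≠ j → y ∉ Q i := eventually_all.2 fun i => by
      by_cases hij : i = j
      · exact Eventually.of_forall fun _ h => absurd hij h
      · filter_upwards [(hQ.cpt i).isClosed.isOpen_compl.mem_nhds
          (disjoint_right.1 (hQ.disj hij) hj)] with y hy _ using hy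
    filter_upwards [h1.filter_mono (nhds_le_nhdsSet hj), h2] with y a1 a2
    rcases gam_cases Q y with h | ⟨i, hi⟩
    · rw [gamIm_om h]
      exact singleton_subset_iff.2 (a1 h)
    · have hij : i = j := by
        by_contra hij
        exact a2 i hij hi
      rw [gamIm_Q hQ (hij ▸ hi : y ∈ Q j)]
      exact hz'

theorem gam_conn (hQ : Fam Q) (hC : Circ Q F c r) (p : ℂ) (t : ℝ) :
    IsPreconnected (Gam Q F c r p t) := by
  have him : ∀ z, IsConnected (gamIm Q F c r z) := fun z => by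
    rcases gam_cases Q z with h | ⟨j, hj⟩
    · rw [gamIm_om h]; exact isConnected_singleton
    · rw [gamIm_Q hQ hj]; exact hC.ends.conn j
  have hsub : ∀ z ∈ sphere p t, gamIm Q F c r z ⊆ Gam Q F c r p t := fun z hz w hw =>
    gam_mem.2 ⟨z, hz, hw⟩
  refine isPreconnected_iff_subset_of_disjoint.2 fun u v hu hv h1 h2 => ?_
  have h3 := isPreconnected_iff_subset_of_disjoint.1
    (isPreconnected_sphere (by rw [rank_real_complex]; norm_num) p t) _ _
    (gamIm_open hQ hC hu) (gamIm_open hQ hC hv)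
    (fun z hz => isPreconnected_iff_subset_of_disjoint.1 (him z).isPreconnected u v hu hv
      ((hsub z hz).trans h1) (eq_empty_of_subset_empty
        (h2 ▸ inter_subset_inter_left _ (hsub z hz))))
    (eq_empty_of_forall_notMem fun z hz => by
      obtain ⟨w, hw⟩ := (him z).nonempty
      have : w ∈ Gam Q F c r p t ∩ (u ∩ v) := ⟨hsub z hz.1 hw, hz.2.1 hw, hz.2.2 hw⟩
      rw [h2] at this
      exact this)
  refine h3.imp (fun h w hw => ?_) fun h w hw => ?_ <;>
  · obtain ⟨z, hz, hw⟩ := gam_mem.1 hw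
    exact h hz hw

theorem gam_arc (hQ : Fam Q) (hF : DifferentiableOn ℂ F (Om Q)) (ht : 0 < t) {e : ℂ}
    (he : ‖e‖ = 1) (x : ℂ) :
    volume ((fun θ => (e * (F (circleMap p t θ) - x)).re) ''
      (Ioo (-π) π ∩ {θ | circleMap p t θ ∈ Om Q})) ≤ arcL Q F p t := by
  have hS : MeasurableSet (Ioo (-π) π ∩ {θ | circleMap p t θ ∈ Om Q}) :=
    measurableSet_Ioo.inter (hQ.isOpen.preimage (continuous_circleMap p t)).measurableSet
  have hd : ∀ θ ∈ Ioo (-π) π ∩ {θ | circleMap p t θ ∈ Om Q},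
      HasDerivAt (fun θ => (e * (F (circleMap p t θ) - x)).re)
        (e * (deriv F (circleMap p t θ) * (circleMap 0 t θ * I))).re θ := fun θ hθ =>
    reCLM.hasFDerivAt.comp_hasDerivAt θ
      ((((hF.differentiableAt (hQ.isOpen.mem_nhds hθ.2)).hasDerivAt.comp θ
        (hasDerivAt_circleMap p t θ)).sub_const x).const_mul e)
  refine (addHaar_image_le_lintegral_abs_det_fderiv volume hS
    fun θ hθ => (hd θ hθ).hasFDerivAt.hasFDerivWithinAt).trans (lintegral_mono fun θ => ?_)
  simp only [ContinuousLinearMap.det_toSpanSingleton]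
  rw [← ofReal_norm, ← ENNReal.ofReal_mul ht.le]
  refine ENNReal.ofReal_le_ofReal ((abs_re_le_norm _).trans (le_of_eq ?_))
  simp [he, abs_of_pos ht, mul_comm]

theorem gam_disc {e : ℂ} (he : ‖e‖ = 1) (x y : ℂ) (R : ℝ) :
    volume ((fun z => (e * (z - x)).re) '' closedBall y R) ≤ ENNReal.ofReal (2 * R) := by
  have h : (fun z => (e * (z - x)).re) '' closedBall y R ⊆ closedBall (e * (y - x)).re R := by
    rintro _ ⟨z, hz, rfl⟩
    rw [mem_closedBall, Real.dist_eq, ← sub_re]
    refine (abs_re_le_norm _).trans ?_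
    rw [← mul_sub, norm_mul, he, one_mul, sub_sub_sub_cancel_right]
    exact mem_closedBall_iff_norm.1 hz
  exact (measure_mono h).trans (Real.volume_closedBall _ _).le

theorem gam_sub {x : ℂ} {X : Set ι} (hQ : Fam Q) (hC : Circ Q F c r) (ht : 0 < t) (hR : 0 ≤ R)
    (hL : 0 ≤ L) (hx : closedBall x R ⊆ Gam Q F c r p t)
    (hX : ∀ i ∈ X, closedBall (c i) (r i) ⊆ closedBall x R)
    (h : trL Q F r X p t ≤ ENNReal.ofReal L) : Gam Q F c r p t ⊆ closedBall x (R + L) := by
  classical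
  intro w hw
  rw [mem_closedBall_iff_norm]
  by_contra hd
  rw [not_le] at hd
  set d := ‖w - x‖ with hdd
  have hd0 : 0 < d := by linarith
  have hd1 : (d : ℂ) ≠ 0 := by exact_mod_cast hd0.ne'
  let u : ℂ := (w - x) / d
  have hu : ‖u‖ = 1 := by
    rw [norm_div, norm_real, Real.norm_of_nonneg hd0.le, div_self hd0.ne']
  have he : ‖conj u‖ = 1 := by rw [RCLike.norm_conj, hu]
  have huu : conj u * u = 1 := by rw [conj_mul', hu]; simp
  let l : ℂ → ℝ := fun z => (conj u * (z - x)).re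
  have hl : ∀ a : ℝ, l (x + a * u) = a := fun a => by
    have : conj u * (x + a * u - x) = a := by linear_combination (a : ℂ) * huu
    simp only [l, this, ofReal_re]
  have h1 : R ∈ l '' Gam Q F c r p t := ⟨_, hx (by
    rw [mem_closedBall_iff_norm, add_sub_cancel_left, norm_mul, hu, mul_one, norm_real,
      Real.norm_of_nonneg hR]), hl R⟩
  have h2 : d ∈ l '' Gam Q F c r p t := ⟨w, hw, by
    rw [← hl d]
    congr 1
    simp only [u]
    field_simp
    ring⟩
  have h3 := ((gam_conn hQ hC p t).image l (by fun_prop)).Icc_subset h1 h2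
  let J : Finset ι := Finset.univ.filter fun j => j ∉ X ∧ (Q j ∩ sphere p t).Nonempty
  have h4 : Ioc R d ⊆ ((fun θ => (conj u * (F (circleMap p t θ) - x)).re) ''
      (Ioo (-π) π ∩ {θ | circleMap p t θ ∈ Om Q}) ∪ ⋃ j ∈ J, l '' closedBall (c j) (r j)) ∪
      {l (F (circleMap p t π))} := by
    intro y hy
    obtain ⟨v, hv, rfl⟩ := h3 (Ioc_subset_Icc_self hy)
    obtain ⟨z, hz, ⟨h5, rfl⟩ | ⟨j, hj, hv⟩⟩ := gam_mem.1 hv
    · have h6 : circleMap p t (arg (z - p)) = z := by
        rw [circleMap, ← mem_sphere_iff_norm.1 hz, norm_mul_exp_arg_mul_I]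
        ring
      rcases (arg_le_pi (z - p)).eq_or_lt with h7 | h7
      · right
        rw [← h7, h6]
        rfl
      · refine Or.inl (Or.inl ⟨arg (z - p), ⟨⟨neg_pi_lt_arg _, h7⟩, ?_⟩, ?_⟩)
        · show circleMap p t _ ∈ Om Q
          rw [h6]; exact h5
        · simp only [h6, l]
    · refine Or.inl (Or.inr (mem_iUnion₂.2 ⟨j, Finset.mem_filter.2
        ⟨Finset.mem_univ _, fun hjX => ?_, z, hj, hz⟩, v, hv, rfl⟩))
      have h8 : l v ≤ R := by
        refine (re_le_norm _).trans ?_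
        rw [norm_mul, he, one_mul]
        exact mem_closedBall_iff_norm.1 (hX j hjX hv)
      exact absurd hy.1 (not_lt.2 h8)
  have h9 : ENNReal.ofReal (d - R) ≤ trL Q F r X p t := by
    rw [← Real.volume_Ioc]
    refine (measure_mono h4).trans ((measure_union_le _ _).trans ?_)
    rw [Real.volume_singleton, add_zero, trL, ← Finset.sum_filter]
    refine (measure_union_le _ _).trans (add_le_add (gam_arc hQ hC.nm.1 ht he x)
      ((measure_biUnion_finset_le _ _).trans ?_))
    exact Finset.sum_le_sum fun j _ => gam_disc he x _ _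
  have := (ENNReal.ofReal_le_ofReal_iff hL).1 (h9.trans h)
  linarith

end Vale.P116B
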