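import Vale.Agent.P116B.Sq

/-!
# P116B Scales

Separated scales. `finite_big`: finitely many components have half side at least `ε` (`sum_sq_le` for finite subfamilies). `scales_step`: components with
small side that meet `ann p R` stay at distance `R / 4` from `p`; the finitely many others that miss `p` are closed. Then recursion on `ℕ`.
-/

namespace Vale.P116B

open Set Filter Topology MeasureTheory Metric Complex Vale.P116
open scoped ContDiff ComplexConjugate Real ENNReal Gradient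

variable {ι : Type} [Fintype ι] {Q U E : ι → Set ℂ} {W : ι → ℂ → ℤ} {c : ι → ℂ} {r ρ s : ι → ℝ}
  {f g h k F G Φ Θ θ φ χ η ξ a b V : ℂ → ℂ} {K A O S Z : Set ℂ} {z p q w : ℂ} {j : ι}
  {R M t L ε : ℝ}

theorem finite_big (hK : IsCompact K) (hs : SquareComps K) (hε : 0 < ε) :
    {S ∈ Cmp K | ∃ (x : ℂ) (t : ℝ), ε ≤ t ∧ S = sq x t}.Finite := by
  by_contra h
  obtain ⟨R, hR⟩ := hK.isBounded.subset_ball 0
  obtain ⟨n, hn⟩ := exists_nat_gt (R ^ 2 / ε ^ 2)
  obtain ⟨T, h1, h2⟩ := Set.Infinite.exists_subset_card_eq h n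
  choose x t h3 h4 using fun j : T => (h1 j.2).2
  have h5 := sum_sq_le (c := x) (s := t) (R := R) (fun j => hε.trans_le (h3 j))
    (fun i j hij => Set.disjoint_left.2 fun z hi hj => hij (Subtype.ext
      ((cmp_eq (h1 i.2).1 ((h4 i).ge hi)).trans (cmp_eq (h1 j.2).1 ((h4 j).ge hj)).symm)))
    fun j => h4 j ▸ (cmp_subset (h1 j.2).1).trans hR
  have h6 : ∑ _j : T, ε ^ 2 ≤ ∑ j, t j ^ 2 :=
    Finset.sum_le_sum fun j _ => pow_le_pow_left₀ hε.le (h3 j) 2
  rw [Finset.sum_const, Finset.card_univ, Fintype.card_coe, h2, nsmul_eq_mul] at h6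
  rw [div_lt_iff₀ (by positivity)] at hn
  linarith

theorem scales_step (hK : IsCompact K) (hs : SquareComps K) (p : ℂ) (hR : 0 < R) :
    ∃ R' : ℝ, 0 < R' ∧ R' < R / 2 ∧
      ∀ S ∈ Cmp K, p ∉ S → (S ∩ ann p R).Nonempty → Disjoint S (closedBall p R') := by
  have h1 := (finite_big hK hs (ε := R / 16) (by positivity)).subset
    (sep_subset _ fun S => p ∉ S)
  have h2 := h1.isClosed_biUnion (f := fun S => S) fun S hS => by
    obtain ⟨x, t, -, rfl⟩ := hS.1.2
    exact (isCompact_sq x t).isClosed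
  obtain ⟨δ, h3, h4⟩ := nhds_basis_closedBall.mem_iff.1 (h2.isOpen_compl.mem_nhds (x := p) fun h => by
    obtain ⟨S, hS, hp⟩ := mem_iUnion₂.1 h
    exact hS.2 hp)
  refine ⟨min δ (R / 4), by positivity, (min_le_right _ _).trans_lt (by linarith),
    fun S hS hp ⟨y, hy, hy'⟩ => Set.disjoint_left.2 fun z hz hz' => ?_⟩
  obtain ⟨x, t, ht, rfl⟩ := cmp_sq hs hS
  rcases le_or_gt (R / 16) t with h5 | h5
  · exact h4 (closedBall_subset_closedBall (min_le_left _ _) hz')
      (mem_iUnion₂.2 ⟨_, ⟨⟨hS, x, t, h5, rfl⟩, hp⟩, hz⟩)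
  · have h6 := mem_ball.1 (sq_subset_ball x ht hy)
    have h7 := mem_ball'.1 (sq_subset_ball x ht hz)
    have h8 := (mem_closedBall.1 hz').trans (min_le_right _ _)
    have h9 := hy'.1
    rw [← dist_eq_norm] at h9
    linarith [dist_triangle4 y x z p]

theorem scales (hK : IsCompact K) (hs : SquareComps K) (p : ℂ) (hR : 0 < R) :
    ∃ u : ℕ → ℝ, (∀ n, 0 < u n ∧ u n ≤ R) ∧ (∀ n m, n < m → u m < u n / 2) ∧
      ∀ S ∈ Cmp K, p ∉ S → ∀ n m, (S ∩ ann p (u n)).Nonempty → (S ∩ ann p (u m)).Nonempty →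
        n = m := by
  choose! φ h1 h2 h3 using fun R (hR : 0 < R) => scales_step hK hs p hR
  have h4 : ∀ n, 0 < φ^[n] R := fun n => by
    induction n with
    | zero => exact hR
    | succ n ih => rw [Function.iterate_succ_apply']; exact h1 _ ih
  have h5 : ∀ n, φ^[n + 1] R < φ^[n] R / 2 := fun n => by
    rw [Function.iterate_succ_apply']
    exact h2 _ (h4 n)
  have h6 : Antitone fun n => φ^[n] R :=
    antitone_nat_of_succ_le fun n => (h5 n).le.trans (half_le_self (h4 n).le)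
  have h7 : ∀ S ∈ Cmp K, p ∉ S → ∀ n m, (S ∩ ann p (φ^[n] R)).Nonempty →
      (S ∩ ann p (φ^[m] R)).Nonempty → m ≤ n := fun S hS hp n m hn ⟨z, hz, hz'⟩ => by
    by_contra h
    refine Set.disjoint_left.1 (h3 _ (h4 n) S hS hp hn) hz ?_
    rw [mem_closedBall, dist_eq_norm, ← Function.iterate_succ_apply' φ]
    exact hz'.2.trans (h6 (not_le.1 h))
  exact ⟨fun n => φ^[n] R, fun n => ⟨h4 n, h6 n.zero_le⟩, fun n m h => (h6 h).trans_lt (h5 n),
    fun S hS hp n m hn hm => le_antisymm (h7 S hS hp m n hm hn) (h7 S hS hp n m hn hm)⟩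

end Vale.P116B
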