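import Vale.Agent.P116B.Len
import Vale.Agent.P116B.Scales
import Vale.Agent.P116B.Gam
import Vale.Agent.P116B.Hull

/-!
# P116B Clu

Uniform cluster estimate. Choose `R₀ ≤ 1`, at most the half side if the component of `p` is a square; `u` from `scales`; `N` with
`40 √((2 π + 3 M) / N) ≤ ε`; `ρ = u N / 2`. Given a family let `X = {j | p ∈ j.1}`. The annuli are disjoint subsets of `closedBall p 1`, where the energy of `F` is at most
`2 π + 2 M`, and a non free square meets at most one annulus; so some `n < N` has energy plus sum at most `(2 π + 3 M) / N` (`clu_pigeon`). Then `len`, `gam_sub`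
(with the disc of `j` using `sq_hit`, or with any point of `Gam` and radius zero) and `hull`.
-/

namespace Vale.P116B

open Set Filter Topology MeasureTheory Metric Complex Vale.P116
open scoped ContDiff ComplexConjugate Real ENNReal Gradient

variable {ι : Type} [Fintype ι] {Q U E : ι → Set ℂ} {W : ι → ℂ → ℤ} {c : ι → ℂ} {r ρ s : ι → ℝ}
  {f g h k F G Φ Θ θ φ χ η ξ a b V : ℂ → ℂ} {K A O S Z : Set ℂ} {z p q w : ℂ} {j : ι}
  {R M t L ε : ℝ}

theorem clu_energy (hB : Bnd Q F r M) (p : ℂ) :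
    ∫⁻ z in closedBall p 1 ∩ Om Q, ‖deriv F z‖ₑ ^ 2 ≤ ENNReal.ofReal (2 * π + 2 * M) := by
  have hi : Integrable (fun z => ‖deriv F z - 1‖ ^ 2) (volume.restrict (Om Q)) :=
    (memLp_two_iff_integrable_sq_norm hB.1.1).1 hB.1
  have hM : 0 ≤ M := (Finset.sum_nonneg fun j _ => sq_nonneg _).trans hB.2.2
  have h1 : ∀ z, ‖deriv F z‖ₑ ^ 2 ≤ 2 + 2 * ENNReal.ofReal (‖deriv F z - 1‖ ^ 2) := fun z => by
    have h2 : ‖deriv F z‖ ≤ ‖deriv F z - 1‖ + 1 := by
      simpa using norm_add_le (deriv F z - 1) 1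
    rw [← ofReal_norm, ← ENNReal.ofReal_pow (norm_nonneg _), ← ENNReal.ofReal_ofNat 2,
      ← ENNReal.ofReal_mul zero_le_two, ← ENNReal.ofReal_add zero_le_two (by positivity)]
    refine ENNReal.ofReal_le_ofReal ?_
    nlinarith [norm_nonneg (deriv F z), norm_nonneg (deriv F z - 1), sq_nonneg (‖deriv F z - 1‖ - 1)]
  have h3 : ∫⁻ z in closedBall p 1 ∩ Om Q, ENNReal.ofReal (‖deriv F z - 1‖ ^ 2) ≤
      ENNReal.ofReal M := by
    refine (lintegral_mono_set inter_subset_right).trans ?_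
    rw [← ofReal_integral_eq_lintegral_ofReal hi (Eventually.of_forall fun z => sq_nonneg _)]
    exact ENNReal.ofReal_le_ofReal hB.2.1
  have h4 : volume (closedBall p 1 ∩ Om Q) ≤ ENNReal.ofReal π := by
    refine (measure_mono inter_subset_left).trans_eq ?_
    rw [Complex.volume_closedBall, ENNReal.ofReal_one, one_pow, one_mul,
      ← ENNReal.ofReal_coe_nnreal, NNReal.coe_real_pi]
  refine (lintegral_mono h1).trans ?_
  rw [lintegral_add_left measurable_const, lintegral_const_mul' _ _ ENNReal.ofNat_ne_top,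
    setLIntegral_const, ENNReal.ofReal_add (by positivity) (by positivity),
    ENNReal.ofReal_mul zero_le_two, ENNReal.ofReal_mul zero_le_two, ENNReal.ofReal_ofNat]
  gcongr

theorem clu_meas (hQ : Fam Q) (p : ℂ) (R : ℝ) : MeasurableSet (ann p R ∩ Om Q) := by
  have h : Continuous fun z : ℂ => ‖z - p‖ := by fun_prop
  exact ((isClosed_le continuous_const h).inter
    (isClosed_le h continuous_const)).measurableSet.inter
    (isClosed_iUnion_of_finite fun j => (hQ.cpt j).isClosed).measurableSet.compl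

open Classical in
theorem clu_pigeon {X : Set ι} {u : ℕ → ℝ} {N : ℕ} (hQ : Fam Q) (hB : Bnd Q F r M) (hN : 0 < N)
    (hu : ∀ n, 0 < u n ∧ u n ≤ 1) (hu' : ∀ n m, n < m → u m < u n / 2)
    (hX : ∀ j, j ∉ X → ∀ n m, (Q j ∩ ann p (u n)).Nonempty → (Q j ∩ ann p (u m)).Nonempty →
      n = m) :
    ∃ n < N, ∫⁻ z in ann p (u n) ∩ Om Q, ‖deriv F z‖ₑ ^ 2 ≤ ENNReal.ofReal ((2 * π + 3 * M) / N) ∧
      ∑ j, (if j ∉ X ∧ (Q j ∩ ann p (u n)).Nonempty then r j ^ 2 else 0) ≤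
        (2 * π + 3 * M) / N := by
  have hM : 0 ≤ M := (Finset.sum_nonneg fun j _ => sq_nonneg _).trans hB.2.2
  have hN' : (0 : ℝ) < N := by exact_mod_cast hN
  have hd : ∀ n m, n < m → Disjoint (ann p (u n) ∩ Om Q) (ann p (u m) ∩ Om Q) := fun n m h =>
    disjoint_left.2 fun z h1 h2 => by linarith [h1.1.1, h2.1.2, hu' n m h]
  have h1 : ∑ n ∈ Finset.range N, ∫⁻ z in ann p (u n) ∩ Om Q, ‖deriv F z‖ₑ ^ 2 ≤
      ENNReal.ofReal (2 * π + 2 * M) := by
    rw [← lintegral_biUnion_finset (fun n _ m _ h => h.lt_or_gt.elim (hd n m)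
      fun h => (hd m n h).symm) fun n _ => clu_meas hQ p (u n)]
    refine le_trans (lintegral_mono_set (iUnion₂_subset fun n _ z hz => ?_)) (clu_energy hB p)
    exact ⟨mem_closedBall_iff_norm.2 (hz.1.2.trans (hu n).2), hz.2⟩
  have h0 : ∀ n, 0 ≤ ∑ j, (if j ∉ X ∧ (Q j ∩ ann p (u n)).Nonempty then r j ^ 2 else 0) :=
    fun n => Finset.sum_nonneg fun j _ => by split_ifs <;> positivity
  have h2 : ∑ n ∈ Finset.range N,
      ∑ j, (if j ∉ X ∧ (Q j ∩ ann p (u n)).Nonempty then r j ^ 2 else 0) ≤ M := by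
    rw [Finset.sum_comm]
    refine (Finset.sum_le_sum fun j _ => ?_).trans hB.2.2
    rw [← Finset.sum_filter, Finset.sum_const, nsmul_eq_mul]
    refine mul_le_of_le_one_left (sq_nonneg _) ?_
    rw [Nat.cast_le_one, Finset.card_le_one]
    intro n hn m hm
    rw [Finset.mem_filter] at hn hm
    exact hX j hn.2.1 n m hn.2.2 hm.2.2
  have h3 : ∑ n ∈ Finset.range N, ((∫⁻ z in ann p (u n) ∩ Om Q, ‖deriv F z‖ₑ ^ 2) + ENNReal.ofReal
      (∑ j, (if j ∉ X ∧ (Q j ∩ ann p (u n)).Nonempty then r j ^ 2 else 0))) ≤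
      ∑ _n ∈ Finset.range N, ENNReal.ofReal ((2 * π + 3 * M) / N) := by
    rw [Finset.sum_add_distrib, ← ENNReal.ofReal_sum_of_nonneg fun n _ => h0 n,
      ← ENNReal.ofReal_sum_of_nonneg fun n _ => by positivity]
    refine (add_le_add h1 (ENNReal.ofReal_le_ofReal h2)).trans_eq ?_
    rw [← ENNReal.ofReal_add (by positivity) hM, Finset.sum_const, Finset.card_range, nsmul_eq_mul,
      mul_div_cancel₀ _ hN'.ne']
    congr 1
    ring
  obtain ⟨n, hn, h4⟩ := ENNReal.exists_le_of_sum_le (Finset.nonempty_range_iff.2 hN.ne') h3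
  exact ⟨n, Finset.mem_range.1 hn, le_self_add.trans h4,
    (ENNReal.ofReal_le_ofReal_iff (by positivity)).1 (le_add_self.trans h4)⟩

theorem clu_not (hS : S ∈ Cmp K) (hp : p ∈ S) (h : connectedComponentIn K p = {p}) : False := by
  have h1 := hS.1
  rw [cmp_eq hS hp, h] at h1
  exact not_nontrivial_singleton h1

theorem clu_R (hs : SquareComps K) (hp : p ∈ K) : ∃ R₀ : ℝ, 0 < R₀ ∧ R₀ ≤ 1 ∧
    ∀ S ∈ Cmp K, p ∈ S → ∀ t, 0 ≤ t → t ≤ R₀ → (S ∩ sphere p t).Nonempty := by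
  rcases cmp_or hp with h | h
  · obtain ⟨x, t₀, h0, h1⟩ := cmp_sq hs h
    refine ⟨min 1 t₀, lt_min one_pos h0, min_le_left _ _, fun S hS hpS t h2 h3 => ?_⟩
    have h4 := (cmp_eq hS hpS).trans h1
    rw [h4] at hpS ⊢
    exact sq_hit hpS h2 (h3.trans (min_le_right _ _))
  · exact ⟨1, one_pos, le_rfl, fun S hS hpS => (clu_not hS hpS h).elim⟩

theorem clu_N (hM : 0 < M) (hε : 0 < ε) : ∃ N : ℕ, 0 < N ∧ 40 * √((2 * π + 3 * M) / N) ≤ ε := by
  obtain ⟨N, hN⟩ := exists_nat_gt ((2 * π + 3 * M) / (ε / 40) ^ 2)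
  have h0 : (0 : ℝ) < N := lt_trans (by positivity) hN
  refine ⟨N, by exact_mod_cast h0, ?_⟩
  have h1 : √((2 * π + 3 * M) / N) ≤ ε / 40 := by
    rw [Real.sqrt_le_left (by positivity), div_le_iff₀' h0]
    exact ((div_lt_iff₀ (by positivity)).1 hN).le
  linarith

theorem clu (hK : IsCompact K) (hs : SquareComps K) (hM : 0 < M) : UClu K M := by
  intro p hp ε hε
  obtain ⟨R₀, h0, h1, hR⟩ := clu_R hs hp
  obtain ⟨u, hu, hu', hu''⟩ := scales hK hs p h0
  obtain ⟨N, hN, hNε⟩ := clu_N hM hε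
  refine ⟨u N, (hu N).1, fun 𝓕 F c r h𝓕 hU => ?_⟩
  have hQ := fam_fam hs h𝓕
  obtain ⟨n, hn, h2, h3⟩ := clu_pigeon (X := {j : 𝓕 | p ∈ j.1}) hQ hU.bnd hN
    (fun n => ⟨(hu n).1, (hu n).2.trans h1⟩) hu' fun j hj => hu'' j.1 (h𝓕 j.2) hj
  obtain ⟨t, ht, h4⟩ := len hQ (fun j => cmp_sq hs (h𝓕 j.2)) hU.circ.r0 (hu n).1 (by positivity)
    h2 h3
  have h5 : u N < t := (hu' n N hn).trans_le ht.1
  have ht0 : 0 < t := (hu N).1.trans h5
  have h6 := h4.trans (ENNReal.ofReal_le_ofReal hNε)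
  have h7 : F '' (ball p (u N) ∩ Om (fam 𝓕)) ⊆ F '' (ball p t ∩ Om (fam 𝓕)) :=
    image_mono (inter_subset_inter_left _ (ball_subset_ball h5.le))
  refine ⟨fun j hj => h7.trans (hull hQ hU.circ (gam_sub hQ hU.circ ht0 (hU.circ.r0 j) hε.le
    (fun w hw => Or.inr (mem_biUnion (hR j.1 (h𝓕 j.2) hj t ht0.le (ht.2.trans (hu n).2)) hw))
    (fun i hi => ?_) h6)).1, fun h => ?_⟩
  · rw [show i = j from Subtype.ext ((cmp_eq (h𝓕 i.2) hi).trans (cmp_eq (h𝓕 j.2) hj).symm)]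
  · rcases (Gam (fam 𝓕) F c r p t).eq_empty_or_nonempty with h8 | ⟨a, ha⟩
    · exact ⟨0, h7.trans (hull hQ hU.circ (by rw [h8]; exact empty_subset _)).1⟩
    · have h9 := gam_sub (x := a) hQ hU.circ ht0 le_rfl hε.le (by simpa using ha)
        (fun i hi => (clu_not (h𝓕 i.2) hi h).elim) h6
      rw [zero_add] at h9
      exact ⟨a, h7.trans (hull hQ hU.circ h9).1⟩

end Vale.P116B
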