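import Vale.Agent.P116.Glue
import Vale.Agent.P128.Wey
import Vale.Agent.P136.Pomp
import Vale.Agent.Lib.RiemannMapping
import Vale.Agent.Lib.Degree

/-!
# P116B Defs

Part B of the circle-domain theorem: a domain of squares and points is conformal to a circle domain.
Definitions. See skeleton/P116B/GUIDE.md.
-/

namespace Vale.P116B

open Set Filter Topology MeasureTheory Metric Complex Vale.P116
open scoped ContDiff ComplexConjugate Real ENNReal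

/-- The Wirtinger derivative in `z`. -/
noncomputable def dz (g : ℂ → ℂ) (z : ℂ) : ℂ := (fderiv ℝ g z 1 - I * fderiv ℝ g z I) / 2

/-- The Wirtinger derivative in `conj z`. -/
noncomputable def db (g : ℂ → ℂ) (z : ℂ) : ℂ := (fderiv ℝ g z 1 + I * fderiv ℝ g z I) / 2

/-- The Jacobian determinant. -/
noncomputable def jac (g : ℂ → ℂ) (z : ℂ) : ℝ := ‖dz g z‖ ^ 2 - ‖db g z‖ ^ 2

/-- Smooth with compact support. -/
def Cc (φ : ℂ → ℂ) : Prop := ContDiff ℝ ∞ φ ∧ HasCompactSupport φ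

/-- Values in the real interval from 0 to 1. -/
def Unit01 (χ : ℂ → ℂ) : Prop := ∀ z, ∃ t : ℝ, 0 ≤ t ∧ t ≤ 1 ∧ χ z = t

/-- The Cauchy transform. -/
noncomputable def cauchyT (V : ℂ → ℂ) (ζ : ℂ) : ℂ := -(π : ℂ)⁻¹ * ∫ w, V w / (w - ζ)

variable {ι : Type}

/-- A family of disjoint nonempty compact convex sets. -/
structure Fam (Q : ι → Set ℂ) : Prop where
  cpt : ∀ j, IsCompact (Q j)
  cvx : ∀ j, Convex ℝ (Q j)
  ne : ∀ j, (Q j).Nonempty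
  disj : Pairwise (Function.onFun Disjoint Q)

/-- The complement of the family. -/
def Om (Q : ι → Set ℂ) : Set ℂ := (⋃ j, Q j)ᶜ

/-- The area of the family. -/
noncomputable def area (Q : ι → Set ℂ) : ℝ := volume.real (⋃ j, Q j)

/-- Test functions: smooth off the family, zero far out, with square integrable `db`. -/
def Test (Q : ι → Set ℂ) (k : ℂ → ℂ) : Prop :=
  ContDiffOn ℝ ∞ k (Om Q) ∧ (∃ R : ℝ, ∀ z, R ≤ ‖z‖ → k z = 0) ∧
    MemLp (db k) 2 (volume.restrict (Om Q))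

/-- Near `Q j` the values of `k` lie in a disc of radius `ρ j`. -/
def Near (Q : ι → Set ℂ) (k : ℂ → ℂ) (ρ : ι → ℝ) : Prop :=
  ∀ j, 0 ≤ ρ j ∧ ∃ c : ℂ, ∀ᶠ z in 𝓝ˢ (Q j), z ∈ Om Q → ‖k z - c‖ ≤ ρ j

/-- Smooth, compactly supported, constant near each member of the family. -/
def LocC (Q : ι → Set ℂ) (χ : ℂ → ℂ) : Prop :=
  Cc χ ∧ ∀ j, ∃ a : ℂ, ∀ᶠ z in 𝓝ˢ (Q j), χ z = a

/-- A cutoff equal to one near `Q j` and to zero near the other members. -/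
def Cut (Q : ι → Set ℂ) (j : ι) (χ : ℂ → ℂ) : Prop :=
  Cc χ ∧ (∀ᶠ z in 𝓝ˢ (Q j), χ z = 1) ∧ ∀ i, i ≠ j → ∀ᶠ z in 𝓝ˢ (Q i), χ z = 0

/-- Holomorphic off the family, normalised at infinity, with finite renormalised energy. -/
structure Pre (Q : ι → Set ℂ) (F : ℂ → ℂ) : Prop where
  hol : DifferentiableOn ℂ F (Om Q)
  l2 : MemLp (fun z => deriv F z - 1) 2 (volume.restrict (Om Q))
  inf : Tendsto (fun z => F z - z) (cocompact ℂ) (𝓝 0)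

/-- Neighbourhoods of the members and a smooth map that agrees with `F` off a compact set. -/
structure Frame (Q : ι → Set ℂ) (F : ℂ → ℂ) (U : ι → Set ℂ) (A : Set ℂ) (g : ℂ → ℂ) : Prop where
  op : ∀ j, IsOpen (U j)
  bd : ∀ j, Bornology.IsBounded (U j)
  disj : Pairwise (Function.onFun Disjoint U)
  sub : ∀ j, Q j ⊆ U j
  cA : IsCompact A
  QA : ∀ j, Q j ⊆ A
  AU : A ⊆ ⋃ j, U j
  sm : ContDiff ℝ ∞ g
  eq : ∀ z, z ∉ A → g z = F z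

/-- The integer valued winding functions, given by signed counts of preimages. -/
def W0 (Q : ι → Set ℂ) (F : ℂ → ℂ) (U : ι → Set ℂ) (g : ℂ → ℂ) (W : ι → ℂ → ℤ) : Prop :=
  ∀ j, Measurable (W j) ∧ Integrable (fun w => (W j w : ℝ)) ∧
    ∀ θ : ℂ → ℂ, Measurable θ → (∃ M : ℝ, ∀ w, ‖θ w‖ ≤ M) →
      ∫ w, (W j w : ℂ) * θ w = (∫ z in U j, θ (g z) * (jac g z : ℂ)) -
        ∫ z in U j \ Q j, θ (F z) * ((‖deriv F z‖ ^ 2 : ℝ) : ℂ)

/-- First property of the winding functions. -/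
def W1 (Q : ι → Set ℂ) (F : ℂ → ℂ) (W : ι → ℂ → ℤ) : Prop :=
  ∀ j (χ Θ : ℂ → ℂ), Cut Q j χ → ContDiff ℝ ∞ Θ → (∃ M : ℝ, ∀ w, ‖db Θ w‖ ≤ M) →
    -∫ z in Om Q, deriv F z * db (fun z => χ z * Θ (F z)) z = ∫ w, (W j w : ℂ) * db Θ w

variable [Fintype ι]

/-- Second property: the argument principle. -/
def W2 (Q : ι → Set ℂ) (F : ℂ → ℂ) (W : ι → ℂ → ℤ) : Prop :=
  ∀ᵐ w, ∃ m : ℕ, (Om Q ∩ F ⁻¹' {w}).encard = m ∧ (m : ℤ) + ∑ j, W j w = 1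

/-- Third property: the total enclosed area. -/
def W3 (Q : ι → Set ℂ) (F : ℂ → ℂ) (W : ι → ℂ → ℤ) : Prop :=
  ∃ R₀ : ℝ, ∀ η : ℂ → ℂ, Cc η → (∀ z, ‖z‖ ≤ R₀ → η z = 1) →
    ∑ j, ∫ w, (W j w : ℝ) =
      area Q - ∫ z in Om Q, (jac (fun z => z + η z * (F z - z)) z - 1)

/-- All properties of the winding functions that are used later. -/
structure Wind (Q : ι → Set ℂ) (F : ℂ → ℂ) (W : ι → ℂ → ℤ) : Prop where
  meas : ∀ j, Measurable (W j)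
  int : ∀ j, Integrable fun w => (W j w : ℝ)
  w1 : W1 Q F W
  w2 : W2 Q F W
  w3 : W3 Q F W

/-- The variational inequality. -/
def EL (Q : ι → Set ℂ) (Φ : ℂ → ℂ) (r : ι → ℝ) : Prop :=
  ∀ (k : ℂ → ℂ) (ρ : ι → ℝ), Test Q k → Near Q (fun z => conj z + k z) ρ →
    (∫ z in Om Q, ‖Φ z - 1‖ ^ 2) + π * ∑ j, r j ^ 2 + area Q ≤
      2 * (∫ z in Om Q, Φ z * db k z).re + 2 * π * ∑ j, r j * ρ j

/-- The boundary variation bound. -/
def Star (Q : ι → Set ℂ) (Φ : ℂ → ℂ) (r : ι → ℝ) : Prop :=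
  ∀ (k : ℂ → ℂ) (s : ι → ℝ), Test Q k → Near Q k s →
    ‖∫ z in Om Q, Φ z * db k z‖ ≤ π * ∑ j, r j * s j

/-- A solution of the variational problem. -/
structure Sol (Q : ι → Set ℂ) (F : ℂ → ℂ) (r : ι → ℝ) : Prop where
  pre : Pre Q F
  r0 : ∀ j, 0 ≤ r j
  el : EL Q (deriv F) r
  star : Star Q (deriv F) r

omit [Fintype ι] in
/-- The complementary pieces of the image that correspond to the members of the family. -/
structure Ends (Q : ι → Set ℂ) (F : ℂ → ℂ) (E : ι → Set ℂ) : Prop where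
  cpt : ∀ j, IsCompact (E j)
  conn : ∀ j, IsConnected (E j)
  disj : Pairwise (Function.onFun Disjoint E)
  img : F '' Om Q = (⋃ j, E j)ᶜ
  lim : ∀ j, Tendsto F (𝓝ˢ (Q j) ⊓ 𝓟 (Om Q)) (𝓝ˢ (E j))

omit [Fintype ι] in
/-- A conformal map of the complement of the family onto a circle domain. -/
structure Circ (Q : ι → Set ℂ) (F : ℂ → ℂ) (c : ι → ℂ) (r : ι → ℝ) : Prop where
  nm : NormMap (⋃ j, Q j) F
  r0 : ∀ j, 0 ≤ r j
  ends : Ends Q F fun j => closedBall (c j) (r j)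

/-- Energy bounds. -/
def Bnd (Q : ι → Set ℂ) (F : ℂ → ℂ) (r : ι → ℝ) (B : ℝ) : Prop :=
  MemLp (fun z => deriv F z - 1) 2 (volume.restrict (Om Q)) ∧
    (∫ z in Om Q, ‖deriv F z - 1‖ ^ 2) ≤ B ∧ ∑ j, r j ^ 2 ≤ B

omit [Fintype ι] in
/-- The transboundary image of a circle. -/
def Gam (Q : ι → Set ℂ) (F : ℂ → ℂ) (c : ι → ℂ) (r : ι → ℝ) (p : ℂ) (t : ℝ) : Set ℂ :=
  F '' (sphere p t ∩ Om Q) ∪ ⋃ j ∈ {j | (Q j ∩ sphere p t).Nonempty}, closedBall (c j) (r j)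

omit [Fintype ι] in
/-- The length of the image of the part of a circle off the family. -/
noncomputable def arcL (Q : ι → Set ℂ) (F : ℂ → ℂ) (p : ℂ) (t : ℝ) : ℝ≥0∞ :=
  ∫⁻ θ in Ioo (-π) π ∩ {θ | circleMap p t θ ∈ Om Q},
    ENNReal.ofReal t * ‖deriv F (circleMap p t θ)‖ₑ

open Classical in
/-- The transboundary length of a circle, the members with index in `X` being free. -/
noncomputable def trL (Q : ι → Set ℂ) (F : ℂ → ℂ) (r : ι → ℝ) (X : Set ι) (p : ℂ) (t : ℝ) :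
    ℝ≥0∞ :=
  arcL Q F p t +
    ∑ j, if j ∉ X ∧ (Q j ∩ sphere p t).Nonempty then ENNReal.ofReal (2 * r j) else 0

/-- The closed annulus with radii `R / 2` and `R`. -/
def ann (p : ℂ) (R : ℝ) : Set ℂ := {z | R / 2 ≤ ‖z - p‖ ∧ ‖z - p‖ ≤ R}

/-- The components of `K` with more than one point. -/
def Cmp (K : Set ℂ) : Set (Set ℂ) :=
  {T | T.Nontrivial ∧ ∃ w ∈ K, T = connectedComponentIn K w}

/-- The family given by a finite set of sets. -/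
def fam (𝓕 : Finset (Set ℂ)) : 𝓕 → Set ℂ := fun j => j.1

/-- Uniform bounds for the approximating maps. -/
structure Unif (𝓕 : Finset (Set ℂ)) (F : ℂ → ℂ) (c : 𝓕 → ℂ) (r : 𝓕 → ℝ) (M : ℝ) : Prop where
  circ : Circ (fam 𝓕) F c r
  bnd : Bnd (fam 𝓕) F r M
  sup : ∀ z ∈ Om (fam 𝓕), ‖F z - z‖ ≤ M
  dec : ∀ z, M ≤ ‖z‖ → ‖F z - z‖ ≤ M / ‖z‖
  cen : ∀ j, ‖c j‖ ≤ M ∧ r j ≤ M

/-- Uniform boundary behaviour of the approximating maps. -/
def UClu (K : Set ℂ) (M : ℝ) : Prop :=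
  ∀ p ∈ K, ∀ ε > 0, ∃ ρ > 0, ∀ (𝓕 : Finset (Set ℂ)) (F : ℂ → ℂ) (c : 𝓕 → ℂ) (r : 𝓕 → ℝ),
    (𝓕 : Set (Set ℂ)) ⊆ Cmp K → Unif 𝓕 F c r M →
      (∀ j : 𝓕, p ∈ j.1 → F '' (ball p ρ ∩ Om (fam 𝓕)) ⊆ closedBall (c j) (r j + ε)) ∧
      (connectedComponentIn K p = {p} →
        ∃ a : ℂ, F '' (ball p ρ ∩ Om (fam 𝓕)) ⊆ closedBall a ε)

/-- Boundary behaviour of the limit map. -/
def Clus (K : Set ℂ) (f : ℂ → ℂ) : Prop :=
  ∀ p ∈ K, ∃ (c : ℂ) (r : ℝ), 0 ≤ r ∧ Disjoint (closedBall c r) (f '' Kᶜ) ∧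
    ∀ q ∈ connectedComponentIn K p, ∀ ε > 0, ∀ᶠ z in 𝓝 q, z ∉ K → f z ∈ closedBall c (r + ε)

end Vale.P116B
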