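import Vale.Agent.P116B.AB2
import Vale.Agent.P116B.Asum
import Vale.Agent.P116B.CT

/-!
# P116B Discs

The winding functions are indicators of discs. For a real test `v` put `Θ = cauchyT v`, so `db Θ = v` and `‖Θ‖ ≤ M / π`; `Star` for
`χ * Θ (F)` (`test_comp`) with `s = Pi.single j (M / π)` and `W1` give the hypothesis of `ab`. Then `asum` forces equality for every `j`.
-/

namespace Vale.P116B

open Set Filter Topology MeasureTheory Metric Complex Vale.P116
open scoped ContDiff ComplexConjugate Real ENNReal Gradient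

variable {ι : Type} [Fintype ι] {Q U E : ι → Set ℂ} {W : ι → ℂ → ℤ} {c : ι → ℂ} {r ρ s : ι → ℝ}
  {f g h k F G Φ Θ θ φ χ η ξ a b V : ℂ → ℂ} {K A O S Z : Set ℂ} {z p q w : ℂ} {j : ι}
  {R M t L ε : ℝ}

theorem discs_hyp (hQ : Fam Q) (hS : Sol Q F r) (hW : Wind Q F W) (j : ι) (v : ℂ → ℝ) (M : ℝ)
    (hv : ContDiff ℝ ∞ v) (hc : HasCompactSupport v)
    (hM : ∀ ζ : ℂ, ‖∫ w, (v w : ℂ) / (w - ζ)‖ ≤ M) :
    ∫ w, (W j w : ℝ) * v w ≤ r j * M := by
  classical
  have hV : Cc fun z => (v z : ℂ) := cc_ofReal hv hc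
  have hM0 : 0 ≤ M := (norm_nonneg _).trans (hM 0)
  have hsm : ContDiff ℝ ∞ (cauchyT fun z => (v z : ℂ)) := cauchyT_smooth hV
  have hdb : ∀ z, db (cauchyT fun z => (v z : ℂ)) z = (v z : ℂ) := db_cauchyT hV
  have hb : ∃ M : ℝ, ∀ w, ‖db (cauchyT fun z => (v z : ℂ)) w‖ ≤ M := by
    obtain ⟨B, hB⟩ := hV.bdd
    exact ⟨B, fun w => by rw [hdb]; exact hB w⟩
  have hΘ : ∀ ζ, ‖cauchyT (fun z => (v z : ℂ)) ζ‖ ≤ M / π := by
    intro ζ
    unfold cauchyT
    rw [norm_mul, norm_neg, norm_inv, Complex.norm_real, Real.norm_eq_abs, abs_of_pos Real.pi_pos,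
      div_eq_inv_mul]
    exact mul_le_mul_of_nonneg_left (hM ζ) (inv_nonneg.2 Real.pi_pos.le)
  obtain ⟨χ, hχ, -, -⟩ := hQ.exists_Cut j isOpen_univ (subset_univ _)
  have hT := test_comp hQ hS.pre hχ.locC hsm hb
  have hN : Near Q (fun z => χ z * cauchyT (fun z => (v z : ℂ)) (F z))
      (Pi.single j (M / π)) := by
    intro i
    by_cases hi : i = j
    · subst hi
      rw [Pi.single_eq_same]
      refine ⟨div_nonneg hM0 Real.pi_pos.le, 0, ?_⟩
      filter_upwards [hχ.2.1] with z hz _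
      rw [hz, one_mul, sub_zero]
      exact hΘ _
    · rw [Pi.single_eq_of_ne hi]
      refine ⟨le_rfl, 0, ?_⟩
      filter_upwards [hχ.2.2 i hi] with z hz _
      rw [hz, zero_mul, sub_zero, norm_zero]
  have h1 := hS.star _ _ hT hN
  have h2 := hW.w1 j χ _ hχ hsm hb
  have h3 : ∑ i, r i * (Pi.single j (M / π) : ι → ℝ) i = r j * (M / π) := by
    rw [Finset.sum_eq_single j]
    · rw [Pi.single_eq_same]
    · intro i _ hi
      rw [Pi.single_eq_of_ne hi, mul_zero]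
    · intro h
      exact absurd (Finset.mem_univ j) h
  rw [h3, ← norm_neg, h2] at h1
  have h4 : ∫ w, (W j w : ℂ) * db (cauchyT fun z => (v z : ℂ)) w =
      ((∫ w, (W j w : ℝ) * v w : ℝ) : ℂ) := by
    rw [← integral_complex_ofReal]
    refine integral_congr_ae (Eventually.of_forall fun w => ?_)
    simp only [hdb]
    push_cast
    rfl
  rw [h4, Complex.norm_real, Real.norm_eq_abs] at h1
  have h5 : π * (r j * (M / π)) = r j * M := by
    field_simp
  rw [h5] at h1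
  exact (le_abs_self _).trans h1

theorem discs (hQ : Fam Q) (hS : Sol Q F r) (hW : Wind Q F W) :
    ∃ c : ι → ℂ, ∀ j, ∀ᵐ w, W j w = (ball (c j) (r j)).indicator 1 w := by
  classical
  have key : ∀ j, ∫ w, (W j w : ℝ) ≤ π * r j ^ 2 ∧
      (π * r j ^ 2 ≤ ∫ w, (W j w : ℝ) → ∃ x : ℂ, ∀ᵐ w, W j w = (ball x (r j)).indicator 1 w) :=
    fun j => ab (hW.meas j) (hW.int j) (hS.r0 j) (discs_hyp hQ hS hW j)
  have hsum := asum hQ hS hW
  have heq : ∀ j, π * r j ^ 2 ≤ ∫ w, (W j w : ℝ) := by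
    intro j
    by_contra hlt
    push Not at hlt
    have : ∑ i, ∫ w, (W i w : ℝ) < ∑ i, π * r i ^ 2 :=
      Finset.sum_lt_sum (fun i _ => (key i).1) ⟨j, Finset.mem_univ j, hlt⟩
    rw [← Finset.mul_sum] at this
    linarith
  choose c hc using fun j => (key j).2 (heq j)
  exact ⟨c, hc⟩

end Vale.P116B
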