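import Vale.Agent.P116B.NL2

/-!
# P116B Epos

The energy is nonnegative. Let `g = z + conj (k z)`, so `dz g = 1 + conj (db k)` on `Om Q`, and `‖g - conj (c j)‖ ≤ ρ j` near `Q j`.
`epos_fill`: with cutoffs `κ j` (`Fam.exists_Cut`, disjoint supports inside the neighbourhoods) put
`G = (1 - ∑ κ j) * g + ∑ κ j * e j` (`ext0`), `A = ⋃ tsupport (κ j)`. For `δ > 0` take a real cutoff `θ` equal to one on the closed discs and
supported in the discs of radius `ρ j + δ`. By `nl2`, `nl3`: `∫ ((1 - θ (G z)) * jac G z - 1 + θ z) = 0` in the sense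
`∫ (jac G - 1) - ∫ θ (G) jac G + ∫ θ = 0`. Pointwise `(1 - θ (G z)) * jac G z ≤ ‖1 + conj (db k z)‖ ^ 2` on `Om Q`, and it is zero on `A`.
-/

namespace Vale.P116B

open Set Filter Topology MeasureTheory Metric Complex Vale.P116
open scoped ContDiff ComplexConjugate Real ENNReal Gradient

variable {ι : Type} [Fintype ι] {Q U E : ι → Set ℂ} {W : ι → ℂ → ℤ} {c : ι → ℂ} {r ρ s : ι → ℝ}
  {f g h k F G Φ Θ θ φ χ η ξ a b V : ℂ → ℂ} {K A O S Z : Set ℂ} {z p q w : ℂ} {j : ι}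
  {R M t L ε : ℝ}

theorem epos_fill {e : ι → ℂ} (hQ : Fam Q) (hg : ContDiffOn ℝ ∞ g (Om Q))
    (hR : ∀ z, R ≤ ‖z‖ → g z = z) (hρ : ∀ j, 0 ≤ ρ j)
    (he : ∀ j, ∀ᶠ z in 𝓝ˢ (Q j), z ∈ Om Q → ‖g z - e j‖ ≤ ρ j) :
    ∃ (G : ℂ → ℂ) (A : Set ℂ) (R' : ℝ), ContDiff ℝ ∞ G ∧ IsCompact A ∧ (∀ j, Q j ⊆ A) ∧
      (∀ z, R' ≤ ‖z‖ → G z = z) ∧ (∀ z, z ∉ A → G z = g z) ∧
      ∀ z ∈ A, ∃ j, G z ∈ closedBall (e j) (ρ j) := by
  classical
  obtain ⟨δ, hδ, hd⟩ := hQ.exists_thick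
  have h1 : ∀ j, ∃ χ : ℂ → ℂ, Cut Q j χ ∧ Unit01 χ ∧ ∀ z ∈ tsupport χ,
      z ∈ cthickening δ (Q j) ∧ (z ∈ Om Q → ‖g z - e j‖ ≤ ρ j) := by
    intro j
    obtain ⟨O, hO, h2, h3⟩ := eventually_nhdsSet_iff_exists.1 (he j)
    obtain ⟨χ, a1, a2, a3⟩ := hQ.exists_Cut j (hO.inter isOpen_thickening)
      (subset_inter h2 (self_subset_thickening hδ _))
    exact ⟨χ, a1, a2, fun z hz => ⟨thickening_subset_cthickening _ _ (a3 hz).2, h3 z (a3 hz).1⟩⟩
  choose κ hκ h01 hs using h1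
  have hA : IsCompact (⋃ j, tsupport (κ j)) := isCompact_iUnion fun j => (hκ j).1.2
  have hsub : ∀ j, Q j ⊆ tsupport (κ j) := fun j z hz => subset_tsupport _ (by
    rw [Function.mem_support, (hκ j).2.1.self_of_nhdsSet z hz]
    exact one_ne_zero)
  have hout : ∀ z, z ∉ (⋃ j, tsupport (κ j)) →
      (1 - ∑ j, κ j z) * g z + ∑ j, κ j z * e j = g z := fun z hz => by
    have h2 : ∀ j, κ j z = 0 := fun j =>
      image_eq_zero_of_notMem_tsupport fun h3 => hz (mem_iUnion.2 ⟨j, h3⟩)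
    simp [h2]
  obtain ⟨R₁, hR₁⟩ := hA.isBounded.subset_ball 0
  refine ⟨fun z => (1 - ∑ j, κ j z) * g z + ∑ j, κ j z * e j, ⋃ j, tsupport (κ j), max R R₁, ?_,
    hA, fun j => (hsub j).trans (subset_iUnion (fun j => tsupport (κ j)) j), fun z hz => ?_, hout,
    fun z hz => ?_⟩
  · refine (ext0 hQ.isOpen (contDiff_const.sub (ContDiff.sum fun j _ => (hκ j).1.1))
      (supp_of_zero fun j => ?_) hg).add (ContDiff.sum fun j _ => (hκ j).1.1.mul contDiff_const)
    have h2 : ∀ᶠ z in 𝓝ˢ (Q j), ∀ i, j ≠ i → κ i z = 0 :=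
      eventually_all.2 fun i => eventually_all.2 fun hi => (hκ i).2.2 j hi
    filter_upwards [h2, (hκ j).2.1] with z a1 a2
    rw [Finset.sum_eq_single j (fun i _ hi => a1 i hi.symm) (by simp), a2, sub_self]
  · refine (hout z fun h2 => ?_).trans (hR z ((le_max_left _ _).trans hz))
    exact absurd (mem_ball_zero_iff.1 (hR₁ h2)) (not_lt.2 ((le_max_right _ _).trans hz))
  obtain ⟨j, hj⟩ := mem_iUnion.1 hz
  have h2 : ∀ i, i ≠ j → z ∉ tsupport (κ i) := fun i hi h3 =>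
    disjoint_left.1 (hd hi) (hs i z h3).1 (hs j z hj).1
  have h3 : ∀ i, i ≠ j → κ i z = 0 := fun i hi => image_eq_zero_of_notMem_tsupport (h2 i hi)
  refine ⟨j, mem_closedBall_iff_norm.2 ?_⟩
  beta_reduce
  rw [Finset.sum_eq_single j (fun i _ hi => h3 i hi) (by simp),
    Finset.sum_eq_single j (fun i _ hi => by rw [h3 i hi, zero_mul]) (by simp),
    show (1 - κ j z) * g z + κ j z * e j - e j = (1 - κ j z) * (g z - e j) by ring]
  by_cases h4 : z ∈ Om Q
  · obtain ⟨t, t0, t1, ht⟩ := h01 j z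
    rw [norm_mul, ht, ← ofReal_one, ← ofReal_sub, norm_real, Real.norm_of_nonneg (by linarith)]
    exact (mul_le_of_le_one_left (norm_nonneg _) (by linarith)).trans ((hs j z hj).2 h4)
  · obtain ⟨i, hi⟩ := not_forall_not.1 (mt mem_Om.2 h4)
    obtain rfl : i = j := by
      by_contra h5
      exact h2 i h5 (hsub i hi)
    rw [(hκ i).2.1.self_of_nhdsSet z hi, sub_self, zero_mul, norm_zero]
    exact hρ i

theorem epos_cut (e : ι → ℂ) (hρ : ∀ j, 0 ≤ ρ j) {δ : ℝ} (hδ : 0 < δ) :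
    ∃ ψ : ℂ → ℝ, ContDiff ℝ ∞ ψ ∧ HasCompactSupport ψ ∧ (∀ z, 0 ≤ ψ z ∧ ψ z ≤ 1) ∧
      (∀ j, ∀ z ∈ closedBall (e j) (ρ j), ψ z = 1) ∧ ∫ z, ψ z ≤ π * ∑ j, (ρ j + δ) ^ 2 := by
  have hO : IsOpen (⋃ j, ball (e j) (ρ j + δ)) := isOpen_iUnion fun j => isOpen_ball
  obtain ⟨ψ, h1, h2, h3, h4, h5⟩ := exists_cut_real
    (isCompact_iUnion fun j => isCompact_closedBall (e j) (ρ j)) hO
    (iUnion_mono fun j => closedBall_subset_ball (by linarith))
  refine ⟨ψ, h1, h2, h4, fun j z hz => h5.self_of_nhdsSet z (mem_iUnion.2 ⟨j, hz⟩), ?_⟩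
  have h6 : volume (⋃ j, ball (e j) (ρ j + δ)) ≠ ⊤ :=
    (Bornology.isBounded_iUnion.2 fun j => isBounded_ball).measure_lt_top.ne
  rw [← setIntegral_eq_integral_of_forall_compl_eq_zero (s := ⋃ j, ball (e j) (ρ j + δ))
    fun z hz => image_eq_zero_of_notMem_tsupport fun h7 => hz (h3 h7)]
  refine (le_abs_self _).trans ((norm_setIntegral_le_of_norm_le_const (C := 1) h6.lt_top
    fun z _ => by rw [Real.norm_of_nonneg (h4 z).1]; exact (h4 z).2).trans ?_)
  rw [one_mul, Finset.mul_sum]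
  refine (measureReal_iUnion_fintype_le _).trans (Finset.sum_le_sum fun j _ => le_of_eq ?_)
  have h7 : 0 ≤ ρ j + δ := by linarith [hρ j]
  rw [measureReal_def, Complex.volume_ball]
  simp [h7, mul_comm]

theorem epos_sq (u : ℂ) : ‖1 + conj u‖ ^ 2 = 1 + (‖u‖ ^ 2 + 2 * u.re) := by
  simp only [← normSq_eq_norm_sq, normSq_apply, add_re, one_re, conj_re, add_im, one_im, conj_im]
  ring

theorem epos (hQ : Fam Q) (hk : Test Q k) (hρ : Near Q (fun z => conj z + k z) ρ) :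
    area Q ≤ (∫ z in Om Q, ‖db k z‖ ^ 2) + 2 * (∫ z in Om Q, db k z).re +
      π * ∑ j, ρ j ^ 2 := by
  choose h0 c hc using hρ
  obtain ⟨R, hR⟩ := hk.2.1
  obtain ⟨G, A, R', hG, hA, hQA, hR', hGg, hin⟩ := epos_fill (g := fun z => z + conj (k z))
    (e := fun j => conj (c j)) (R := R) hQ
    (contDiffOn_id.add (conjCLE.contDiff.comp_contDiffOn hk.1)) (fun z hz => by simp [hR z hz]) h0
    fun j => (hc j).mono fun z hz h1 => by
      rw [← norm_conj]
      simpa using hz h1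
  have hm : MeasurableSet (⋃ j, Q j) := hQ.isCompact.measurableSet
  have i1 : IntegrableOn (fun z => ‖db k z‖ ^ 2) (Om Q) := hk.2.2.norm.integrable_sq
  have i2 : IntegrableOn (fun z => (db k z).re) (Om Q) := (hk.int_db hQ).re
  have key : ∀ δ : ℝ, 0 < δ → area Q ≤ (∫ z in Om Q, ‖db k z‖ ^ 2) +
      2 * (∫ z in Om Q, db k z).re + π * ∑ j, (ρ j + δ) ^ 2 := by
    intro δ hδ
    obtain ⟨ψ, h1, h2, h3, h4, h5⟩ := epos_cut (fun j => conj (c j)) h0 hδ
    have h6 : ∫ z, ψ (G z) * jac G z = ∫ z, ψ z := by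
      have h7 := nl2 hG hR' (cc_ofReal h1 h2)
      simp only [← ofReal_mul, integral_complex_ofReal] at h7
      exact ofReal_injective h7
    obtain ⟨R₁, hR₁⟩ := (cc_ofReal h1 h2).far
    have i3 : Integrable fun z => ψ (G z) * jac G z := by
      refine ((h1.continuous.comp hG.continuous).mul
        (continuous_jac hG)).integrable_of_hasCompactSupport
        (HasCompactSupport.intro (isCompact_closedBall 0 (max R' R₁)) fun z hz => ?_)
      have h7 := (not_le.1 (mt mem_closedBall_zero_iff.2 hz)).le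
      rw [Pi.mul_apply, Function.comp_apply, hR' z ((le_max_left _ _).trans h7),
        ofReal_eq_zero.1 (hR₁ z ((le_max_right _ _).trans h7)), zero_mul]
    obtain ⟨i4, h7⟩ := nl3 hG hR'
    have i5 := i4.sub i3
    have h8 := integral_add_compl hm i5
    have h9 := integral_sub i4 i3
    have hA1 : ∀ z ∈ A, jac G z - 1 - ψ (G z) * jac G z = -1 := fun z hz => by
      obtain ⟨j, hj⟩ := hin z hz
      rw [h4 j _ hj]
      ring
    have h10 : ∫ z in ⋃ j, Q j, (jac G z - 1 - ψ (G z) * jac G z) = -area Q := by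
      rw [setIntegral_congr_fun hm fun z hz => hA1 z (iUnion_subset hQA hz)]
      simp [area]
    have h11 : ∫ z in Om Q, (jac G z - 1 - ψ (G z) * jac G z) ≤
        ∫ z in Om Q, (‖db k z‖ ^ 2 + 2 * (db k z).re) := by
      refine setIntegral_mono_on i5.integrableOn (i1.add (i2.const_mul 2)) hm.compl fun z hz => ?_
      have a1 := epos_sq (db k z)
      have a2 := sq_nonneg ‖1 + conj (db k z)‖
      by_cases h12 : z ∈ A
      · rw [hA1 z h12]
        linarith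
      have a3 : G =ᶠ[𝓝 z] fun z => z + conj (k z) :=
        (hA.isClosed.isOpen_compl.eventually_mem h12).mono hGg
      have a4 : jac G z ≤ ‖1 + conj (db k z)‖ ^ 2 := by
        rw [jac_congr a3, jac, dz_add (f := fun w => w) (g := fun w => conj (k w)) differentiableAt_id
          (conjCLE.differentiableAt.comp z (hk.diffAt hQ hz)), dz_id, dz_conj]
        exact sub_le_self _ (sq_nonneg _)
      nlinarith [(h3 (G z)).1, (h3 (G z)).2]
    rw [integral_add i1 (i2.const_mul 2), integral_const_mul] at h11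
    have h12 : ∫ z in Om Q, (db k z).re = (∫ z in Om Q, db k z).re := integral_re (hk.int_db hQ)
    simp only [Pi.sub_apply] at h8
    rw [h10] at h8
    rw [h12, Om] at h11
    rw [Om]
    linarith
  have h1 : ContinuousAt (fun δ : ℝ => (∫ z in Om Q, ‖db k z‖ ^ 2) +
      2 * (∫ z in Om Q, db k z).re + π * ∑ j, (ρ j + δ) ^ 2) 0 := by fun_prop
  simpa using ge_of_tendsto (h1.tendsto.mono_left (nhdsWithin_le_nhds (s := Ioi 0)))
    (eventually_mem_nhdsWithin.mono key)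

end Vale.P116B
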