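import Vale.Agent.P116B.Hil
import Vale.Agent.P116B.Epos

/-!
# P116B ElX

Existence of a solution of the variational inequality. Apply `hilbert` in
`H = WithLp 2 (Lp ℂ 2 (volume.restrict (Om Q)) × EuclideanSpace ℝ ι)` (real inner product) to the convex set of all
`((toLp (db k), √π • ρ), 2 * re ∫ db k)` with `Test Q k` and `Near Q (conj z + k z) ρ`; it is nonempty (`k = 0`). With
`x₀ = (x, y)` put `Φ = 1 + conj x`, `r = y / √π`. `L2.inner_def`, real inner product on `ℂ` is `re (conj a * b)`.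
-/

namespace Vale.P116B

open Set Filter Topology MeasureTheory Metric Complex Vale.P116
open scoped ContDiff ComplexConjugate Real ENNReal Gradient

variable {ι : Type} [Fintype ι] {Q U E : ι → Set ℂ} {W : ι → ℂ → ℤ} {c : ι → ℂ} {r ρ s : ι → ℝ}
  {f g h k F G Φ Θ θ φ χ η ξ a b V : ℂ → ℂ} {K A O S Z : Set ℂ} {z p q w : ℂ} {j : ι}
  {R M t L ε : ℝ}

theorem elx_sq {μ : Measure ℂ} (x : Lp ℂ 2 μ) (h : x =ᵐ[μ] f) :
    ‖x‖ ^ 2 = ∫ z, ‖f z‖ ^ 2 ∂μ := by
  rw [← real_inner_self_eq_norm_sq, L2.inner_def]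
  refine integral_congr_ae (h.mono fun z hz => ?_)
  simp only [hz, real_inner_self_eq_norm_sq]

/-- The convex set of admissible triples. -/
def elxC (Q : ι → Set ℂ) :
    Set (WithLp 2 (Lp ℂ 2 (volume.restrict (Om Q)) × EuclideanSpace ℝ ι) × ℝ) :=
  {x | ∃ (k : ℂ → ℂ) (ρ : ι → ℝ), Test Q k ∧ Near Q (fun z => conj z + k z) ρ ∧
    x.1.fst =ᵐ[volume.restrict (Om Q)] db k ∧ (∀ j, x.1.snd j = √π * ρ j) ∧
      x.2 = 2 * (∫ z in Om Q, db k z).re}

theorem elx_mem (hk : Test Q k) (hρ : Near Q (fun z => conj z + k z) ρ) :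
    ∃ x ∈ elxC Q, x.1.fst =ᵐ[volume.restrict (Om Q)] db k ∧ (∀ j, x.1.snd j = √π * ρ j) ∧
      x.2 = 2 * (∫ z in Om Q, db k z).re :=
  ⟨(WithLp.toLp 2 (hk.2.2.toLp (db k), WithLp.toLp 2 fun j => √π * ρ j),
    2 * (∫ z in Om Q, db k z).re), ⟨k, ρ, hk, hρ, hk.2.2.coeFn_toLp, fun _ => rfl, rfl⟩,
    hk.2.2.coeFn_toLp, fun _ => rfl, rfl⟩

theorem elx_convex (hQ : Fam Q) : Convex ℝ (elxC Q) := by
  rintro x ⟨k, ρ, hk, hρ, x1, x2, x3⟩ y ⟨h, s, hh, hs, y1, y2, y3⟩ α β hα hβ e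
  have e' : (α : ℂ) + β = 1 := by exact_mod_cast e
  have hd : ∀ z ∈ Om Q, db (fun z => α * k z + β * h z) z = α * db k z + β * db h z :=
    fun z hz => by
    rw [db_add ((hk.diffAt hQ hz).const_mul _) ((hh.diffAt hQ hz).const_mul _),
      db_const_mul _ (hk.diffAt hQ hz), db_const_mul _ (hh.diffAt hQ hz)]
  refine ⟨fun z => α * k z + β * h z, fun j => α * ρ j + β * s j,
    (hk.const_mul hQ α).add hQ (hh.const_mul hQ β), fun j => ?_, ?_, fun j => ?_, ?_⟩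
  · obtain ⟨a0, c1, a1⟩ := hρ j
    obtain ⟨b0, c2, b1⟩ := hs j
    refine ⟨by positivity, α * c1 + β * c2, ?_⟩
    filter_upwards [a1, b1] with z h1 h2 hz
    have e2 : conj z + (α * k z + β * h z) - (α * c1 + β * c2) =
        α * (conj z + k z - c1) + β * (conj z + h z - c2) := by
      linear_combination (-conj z) * e'
    rw [e2]
    refine (norm_add_le _ _).trans ?_
    rw [norm_mul, norm_mul, norm_real, norm_real, Real.norm_of_nonneg hα, Real.norm_of_nonneg hβ]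
    exact add_le_add (mul_le_mul_of_nonneg_left (h1 hz) hα) (mul_le_mul_of_nonneg_left (h2 hz) hβ)
  · change (α • x.1.fst + β • y.1.fst : Lp ℂ 2 _) =ᵐ[_] _
    filter_upwards [Lp.coeFn_add (α • x.1.fst) (β • y.1.fst), Lp.coeFn_smul α x.1.fst,
      Lp.coeFn_smul β y.1.fst, x1, y1, ae_restrict_mem hQ.isOpen.measurableSet]
      with z h1 h2 h3 h4 h5 h6
    rw [h1, Pi.add_apply, h2, h3, Pi.smul_apply, Pi.smul_apply, h4, h5, hd z h6, real_smul,
      real_smul]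
  · change α * x.1.snd j + β * y.1.snd j = _
    rw [x2, y2]
    ring
  · change α * x.2 + β * y.2 = _
    rw [setIntegral_congr_fun hQ.isOpen.measurableSet hd,
      integral_add ((hk.int_db hQ).const_mul _) ((hh.int_db hQ).const_mul _), integral_const_mul,
      integral_const_mul, x3, y3, add_re, re_ofReal_mul, re_ofReal_mul]
    ring

theorem elx_zero (hQ : Fam Q) : (elxC Q).Nonempty := by
  obtain ⟨R, R0, hR⟩ := hQ.exists_ball
  have hk : Test Q fun _ => 0 := by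
    refine ⟨contDiffOn_const, ⟨0, fun _ _ => rfl⟩, ?_⟩
    rw [show db (fun _ => 0) = fun _ => 0 from funext (db_const 0)]
    exact MemLp.zero'
  obtain ⟨x, hx, -⟩ := elx_mem (ρ := fun _ => R) hk fun j => ⟨R0.le, 0, by
    filter_upwards [isOpen_ball.mem_nhdsSet.2 (hR j)] with z hz _
    simpa using (mem_ball_zero_iff.1 hz).le⟩
  exact ⟨x, hx⟩

theorem elx_low (hQ : Fam Q) : ∀ x ∈ elxC Q, area Q ≤ ‖x.1‖ ^ 2 + x.2 := by
  rintro x ⟨k, ρ, hk, hρ, x1, x2, x3⟩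
  have := epos hQ hk hρ
  rw [WithLp.prod_norm_sq_eq_of_L2, elx_sq _ x1, EuclideanSpace.real_norm_sq_eq, x3]
  simp only [x2, mul_pow, Real.sq_sqrt Real.pi_pos.le, ← Finset.mul_sum]
  linarith

theorem elx_e1 {μ : Measure ℂ} (x y : Lp ℂ 2 μ) (h : y =ᵐ[μ] f) (i1 : Integrable f μ)
    (i2 : Integrable (fun z => (1 + conj (x z)) * f z) μ) :
    inner ℝ x y = (∫ z, (1 + conj (x z)) * f z ∂μ).re - (∫ z, f z ∂μ).re := by
  rw [← sub_re, ← integral_sub i2 i1, L2.inner_def]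
  refine Eq.trans (integral_congr_ae (h.mono fun z hz => ?_))
    (reCLM.integral_comp_comm (i2.sub i1))
  simp only [hz, Complex.inner, reCLM_apply, Pi.sub_apply]
  congr 1
  ring

theorem elx_e2 (x y : EuclideanSpace ℝ ι) (h : ∀ j, y j = √π * ρ j) :
    inner ℝ x y = π * ∑ j, x j / √π * ρ j := by
  have p0 : 0 < √π := Real.sqrt_pos.2 Real.pi_pos
  have p1 : √π * √π = π := Real.mul_self_sqrt Real.pi_pos.le
  rw [PiLp.inner_apply, Finset.mul_sum]
  refine Finset.sum_congr rfl fun j _ => ?_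
  rw [h, RCLike.inner_apply, conj_trivial]
  calc √π * ρ j * x j = √π * √π * (x j / √π * ρ j) := by field_simp
    _ = _ := by rw [p1]

theorem elx_e3 (x : EuclideanSpace ℝ ι) : ‖x‖ ^ 2 = π * ∑ j, (x j / √π) ^ 2 := by
  rw [EuclideanSpace.real_norm_sq_eq, Finset.mul_sum]
  refine Finset.sum_congr rfl fun j _ => ?_
  rw [div_pow, Real.sq_sqrt Real.pi_pos.le, mul_div_cancel₀ _ Real.pi_pos.ne']

theorem exists_el (hQ : Fam Q) : ∃ (Φ : ℂ → ℂ) (r : ι → ℝ),
    MemLp (fun z => Φ z - 1) 2 (volume.restrict (Om Q)) ∧ EL Q Φ r := by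
  obtain ⟨x₀, hx⟩ := hilbert
    (H := WithLp 2 (Lp ℂ 2 (volume.restrict (Om Q)) × EuclideanSpace ℝ ι)) (C := elxC Q)
    (elx_convex hQ) (elx_zero hQ) (elx_low hQ)
  have hm : MemLp (fun z => 1 + conj (x₀.fst z) - 1) 2 (volume.restrict (Om Q)) := by
    simp only [add_sub_cancel_left]
    exact conjCLE.toContinuousLinearMap.comp_memLp x₀.fst
  refine ⟨fun z => 1 + conj (x₀.fst z), fun j => x₀.snd j / √π, hm, fun k ρ hk hρ => ?_⟩
  obtain ⟨x, hC, x1, x2, x3⟩ := elx_mem hk hρ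
  have h := hx x hC
  have e1 := elx_e1 x₀.fst x.1.fst x1 (hk.int_db hQ) (hk.int_mul hQ hm)
  have e2 := elx_e2 x₀.snd x.1.snd x2
  have e4 : inner ℝ x₀ x.1 = inner ℝ x₀.fst x.1.fst + inner ℝ x₀.snd x.1.snd :=
    WithLp.prod_inner_apply _ _
  rw [WithLp.prod_norm_sq_eq_of_L2, elx_sq _ (ae_eq_refl _), elx_e3, e4, e1, e2, x3] at h
  simp only [add_sub_cancel_left, norm_conj]
  linarith

end Vale.P116B
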