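import Vale.Agent.P116B.Defs

/-!
# P116B Ends2

Ends under a normalised map. `normMap_inv`: `Function.invFunOn`; the inverse is holomorphic (`HasStrictDerivAt.localInverse` or
`HasDerivAt.of_local_left_inverse`; the derivative of an injective holomorphic map does not vanish, see Lib.RiemannMapping for
`hasDerivAt_of_sq` and Mathlib `DifferentiableOn.deriv_ne_zero_of_injOn` if present; otherwise continuity of the inverse plus removable singularities).
`ends2`: take a continuous `θ : ℂ → ℝ` equal to `0` on an open `U₁ ⊇ K₁` and `1` on an open `U₂ ⊇ K₂`. The function `u = exp (2 π I θ (f⁻¹ w))` on the image,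
`1` off it, is continuous on `ℂ` because `f '' (U₁ ∪ U₂)ᶜ` is closed (properness). Lift `u = exp (2 π I l)`; on the connected image `l - θ ∘ f⁻¹`
is an integer constant `m`. Put `E₁ = {l = m}` and `E₂ = {l ≠ m}` inside the complement of the image, where `l` is integer valued.
-/

namespace Vale.P116B

open Set Filter Topology MeasureTheory Metric Complex Vale.P116
open scoped ContDiff ComplexConjugate Real ENNReal Gradient

variable {ι : Type} [Fintype ι] {Q U E : ι → Set ℂ} {W : ι → ℂ → ℤ} {c : ι → ℂ} {r ρ s : ι → ℝ}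
  {f g h k F G Φ Θ θ φ χ η ξ a b V : ℂ → ℂ} {K A O S Z : Set ℂ} {z p q w : ℂ} {j : ι}
  {R M t L ε : ℝ}

theorem normMap_tendsto (hf : NormMap K f) : Tendsto f (cocompact ℂ) (cocompact ℂ) := by
  rw [← Metric.cobounded_eq_cocompact, ← tendsto_norm_atTop_iff_cobounded]
  have h := hf.2.2
  rw [← Metric.cobounded_eq_cocompact] at h
  refine tendsto_atTop_mono' _ ((h.norm.eventually (ge_mem_nhds (norm_zero.trans_lt one_pos))).mono
    fun z hz => ?_) (tendsto_atTop_add_const_right _ (-1) tendsto_norm_cobounded_atTop)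
  have h1 := norm_sub_norm_le z (f z)
  rw [norm_sub_rev] at h1
  simp only
  linarith

theorem Ends2_nc (hK : IsCompact K) (hf : NormMap K f) (hz : z ∉ K) :
    ¬∀ᶠ x in 𝓝 z, f x = f z := fun h => by
  obtain ⟨x, ⟨h1, h2⟩, h3⟩ := (((h.and (hK.isClosed.isOpen_compl.mem_nhds hz)).filter_mono
    (nhdsWithin_le_nhds (s := {z}ᶜ))).and self_mem_nhdsWithin).exists
  exact h3 (hf.2.1 h2 hz h1)

theorem Ends2_le (hK : IsCompact K) (hf : NormMap K f) (hz : z ∉ K) : 𝓝 (f z) ≤ map f (𝓝 z) :=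
  (hf.1.analyticAt (hK.isClosed.isOpen_compl.mem_nhds hz)
    ).eventually_constant_or_nhds_le_map_nhds.resolve_left (Ends2_nc hK hf hz)

theorem normMap_open (hK : IsCompact K) (hf : NormMap K f) (hO : IsOpen O) (h : O ⊆ Kᶜ) :
    IsOpen (f '' O) := by
  refine isOpen_iff_mem_nhds.2 ?_
  rintro _ ⟨z, hz, rfl⟩
  exact Ends2_le hK hf (h hz) (image_mem_map (hO.mem_nhds hz))

theorem normMap_inv (hK : IsCompact K) (hc : IsConnected Kᶜ) (hf : NormMap K f) :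
    ∃ g : ℂ → ℂ, NormMap (f '' Kᶜ)ᶜ g ∧ ∀ z, z ∉ K → g (f z) = z := by
  obtain ⟨g, hg⟩ : ∃ g : ℂ → ℂ, ∀ z, z ∉ K → g (f z) = z :=
    ⟨Function.invFunOn f Kᶜ, fun z hz => hf.2.1.leftInvOn_invFunOn hz⟩
  have ho := hK.isClosed.isOpen_compl
  have hco : ∀ z, z ∉ K → Tendsto g (𝓝 (f z)) (𝓝 z) := fun z hz =>
    Tendsto.mono_left (tendsto_map' (tendsto_id.congr'
      (mem_of_superset (ho.mem_nhds hz) fun x hx => (hg x hx).symm))) (Ends2_le hK hf hz)
  have hca : ∀ z, z ∉ K → ContinuousAt g (f z) := fun z hz => by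
    rw [ContinuousAt, hg z hz]
    exact hco z hz
  have hr : ∀ z, z ∉ K → ∀ᶠ w in 𝓝 (f z), g w ∉ K ∧ f (g w) = w := fun z hz =>
    Eventually.filter_mono (Ends2_le hK hf hz) (eventually_map.2
      (mem_of_superset (ho.mem_nhds hz) fun x hx => by
        rw [mem_setOf_eq, hg x hx]
        exact ⟨hx, rfl⟩))
  refine ⟨g, ⟨?_, ?_, ?_⟩, hg⟩
  · rw [compl_compl]
    rintro _ ⟨z, hz, rfl⟩
    have ha := hf.1.analyticAt (ho.mem_nhds hz)
    have h1 : ∀ᶠ x in 𝓝[≠] z, deriv f x ≠ 0 := by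
      refine ha.deriv.eventually_eq_zero_or_eventually_ne_zero.resolve_left fun h0 =>
        Ends2_nc hK hf hz ?_
      obtain ⟨ε, hε, h2⟩ := Metric.eventually_nhds_iff_ball.1 (h0.and (ho.mem_nhds hz))
      exact mem_of_superset (ball_mem_nhds z hε) fun x hx =>
        isOpen_ball.is_const_of_deriv_eq_zero (convex_ball z ε).isPreconnected
          (hf.1.mono fun y hy => (h2 y hy).2) (fun y hy => (h2 y hy).1) hx (mem_ball_self hε)
    refine (analyticAt_of_differentiable_on_punctured_nhds_of_continuousAt ?_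
      (hca z hz)).differentiableAt.differentiableWithinAt
    rw [eventually_nhdsWithin_iff] at h1 ⊢
    filter_upwards [(hco z hz).eventually h1, hr z hz] with w h2 h3 h4
    have h5 := hca _ h3.1
    have h6 := hr _ h3.1
    rw [h3.2] at h5 h6
    exact (HasDerivAt.of_local_left_inverse h5
      (hf.1.differentiableAt (ho.mem_nhds h3.1)).hasDerivAt
      (h2 fun e => h4 (h3.2.symm.trans (congrArg f e))) (h6.mono fun _ h => h.2)).differentiableAt
  · rw [compl_compl]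
    rintro _ ⟨x, hx, rfl⟩ _ ⟨y, hy, rfl⟩ h
    rw [hg x hx, hg y hy] at h
    rw [h]
  · refine Metric.tendsto_nhds.2 fun ε hε => ?_
    obtain ⟨C, hC, h1⟩ := mem_cocompact.1 (Metric.tendsto_nhds.1 hf.2.2 ε hε)
    obtain ⟨R, hR, h2⟩ := (hK.union hC).isBounded.subset_closedBall_lt 0 0
    have h3 : (closedBall (0 : ℂ) R)ᶜ ⊆ Kᶜ := compl_subset_compl.2 (subset_union_left.trans h2)
    have h4 := (NormMap.image_props (isCompact_closedBall (0 : ℂ) R)
      ⟨nonempty_compl.2 fun h => NormedSpace.unbounded_univ ℝ ℂ (h ▸ isBounded_closedBall),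
        isPreconnected_compl_closedBall R hR.le⟩ ⟨hf.1.mono h3, hf.2.1.mono h3, hf.2.2⟩).1
    refine mem_cocompact.2 ⟨_, h4, ?_⟩
    rw [compl_compl]
    rintro _ ⟨z, hz, rfl⟩
    have h5 := h1 fun hx => hz (h2 (Or.inr hx))
    rw [mem_setOf_eq, dist_zero_right] at h5 ⊢
    rwa [hg z (h3 hz), norm_sub_rev]

theorem Ends2_closed (hf : NormMap K f) (hS : IsClosed S) (h : S ⊆ Kᶜ) : IsClosed (f '' S) := by
  rw [image_eq_range]
  exact (isProperMap_iff_tendsto_cocompact.2 ⟨(hf.1.continuousOn.mono h).restrict,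
    (normMap_tendsto hf).comp hS.isClosedEmbedding_subtypeVal.tendsto_cocompact⟩).isClosed_range

theorem Ends2_lim (hg : NormMap (f '' Kᶜ)ᶜ g) (hgf : ∀ z, z ∉ K → g (f z) = z) {K₁ B : Set ℂ}
    (h1 : K₁ ⊆ K) (hB : IsClosed B) (hU : ∀ᶠ z in 𝓝ˢ K₁, z ∉ K → f z ∈ B) :
    Tendsto f (𝓝ˢ K₁ ⊓ 𝓟 Kᶜ) (𝓝ˢ ((f '' Kᶜ)ᶜ ∩ B)) := by
  refine (hasBasis_nhdsSet _).tendsto_right_iff.2 fun V ⟨hV, hBV⟩ => eventually_inf_principal.2 ?_
  have h2 : Vᶜ ∩ B ⊆ f '' Kᶜ := fun w hw => by_contra fun hn => hw.1 (hBV ⟨hn, hw.2⟩)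
  have h3 := Ends2_closed hg (hV.isClosed_compl.inter hB) (by rwa [compl_compl])
  have h4 : K₁ ⊆ (g '' (Vᶜ ∩ B))ᶜ := by
    rintro _ hx ⟨w, hw, rfl⟩
    obtain ⟨z, hz, rfl⟩ := h2 hw
    exact hz (hgf z hz ▸ h1 hx)
  filter_upwards [hU, h3.isOpen_compl.mem_nhdsSet.2 h4] with z h5 h6 hz
  exact by_contra fun hn => h6 ⟨f z, ⟨hn, h5 hz⟩, hgf z hz⟩

theorem ends2 {K₁ K₂ : Set ℂ} (h1 : IsCompact K₁) (h2 : IsCompact K₂) (hd : Disjoint K₁ K₂)
    (hc : IsConnected (K₁ ∪ K₂)ᶜ) (hf : NormMap (K₁ ∪ K₂) f) :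
    ∃ E₁ E₂ : Set ℂ, IsCompact E₁ ∧ IsCompact E₂ ∧ Disjoint E₁ E₂ ∧
      E₁ ∪ E₂ = (f '' (K₁ ∪ K₂)ᶜ)ᶜ ∧ Tendsto f (𝓝ˢ K₁ ⊓ 𝓟 (K₁ ∪ K₂)ᶜ) (𝓝ˢ E₁) ∧
      Tendsto f (𝓝ˢ K₂ ⊓ 𝓟 (K₁ ∪ K₂)ᶜ) (𝓝ˢ E₂) := by
  classical
  have hK := h1.union h2
  obtain ⟨hD1, hD2, hD3⟩ := NormMap.image_props hK hc hf
  obtain ⟨g, hg, hgf⟩ := normMap_inv hK hc hf
  have hgc : ContinuousOn g (f '' (K₁ ∪ K₂)ᶜ) := by
    have h := hg.1.continuousOn
    rwa [compl_compl] at h
  obtain ⟨δ, hδ, hdd⟩ := hd.exists_cthickenings h1 h2.isClosed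
  obtain ⟨θ, h0, h1', -⟩ := exists_continuous_zero_one_of_isClosed isClosed_cthickening
    isClosed_cthickening hdd
  have t0 : ∀ z ∈ thickening δ K₁, (2 * π * I * θ z : ℂ) = 0 := fun z hz => by
    rw [h0 (thickening_subset_cthickening _ _ hz), Pi.zero_apply, ofReal_zero, mul_zero]
  have t1 : ∀ z ∈ thickening δ K₂, (2 * π * I * θ z : ℂ) = 2 * π * I := fun z hz => by
    rw [h1' (thickening_subset_cthickening _ _ hz), Pi.one_apply, ofReal_one, mul_one]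
  have hθ : ContinuousOn (fun w => (2 * π * I * θ (g w) : ℂ)) (f '' (K₁ ∪ K₂)ᶜ) :=
    continuousOn_const.mul ((continuous_ofReal.comp θ.continuous).comp_continuousOn hgc)
  obtain ⟨u, hu1, hu2⟩ : ∃ u : ℂ → ℂ, (∀ w ∈ f '' (K₁ ∪ K₂)ᶜ, u w = exp (2 * π * I * θ (g w))) ∧
      ∀ w, w ∉ f '' (K₁ ∪ K₂)ᶜ → u w = 1 :=
    ⟨fun w => if w ∈ f '' (K₁ ∪ K₂)ᶜ then exp (2 * π * I * θ (g w)) else 1,
      fun w hw => if_pos hw, fun w hw => if_neg hw⟩
  have hs : (thickening δ K₁ ∪ thickening δ K₂)ᶜ ⊆ (K₁ ∪ K₂)ᶜ := compl_subset_compl.2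
    (union_subset_union (self_subset_thickening hδ _) (self_subset_thickening hδ _))
  have hT := Ends2_closed hf (isOpen_thickening.union isOpen_thickening).isClosed_compl hs
  have huc : ContinuousOn u univ := fun w _ => ContinuousAt.continuousWithinAt (by
    by_cases hw : w ∈ f '' (K₁ ∪ K₂)ᶜ
    · exact (hθ.cexp.congr hu1).continuousAt (hD3.mem_nhds hw)
    · refine (continuousAt_const (y := (1 : ℂ))).congr (mem_of_superset
        (hT.isOpen_compl.mem_nhds fun h => hw (image_mono hs h)) fun x hx => ?_)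
      by_cases hx' : x ∈ f '' (K₁ ∪ K₂)ᶜ
      · rw [mem_setOf_eq, hu1 x hx']
        obtain ⟨z, hz, rfl⟩ := hx'
        rw [hgf z hz]
        rcases (by_contra fun hn => hx ⟨z, hn, rfl⟩ : z ∈ thickening δ K₁ ∪ thickening δ K₂)
          with h | h
        · rw [t0 z h, Complex.exp_zero]
        · rw [t1 z h, exp_two_pi_mul_I]
      · exact (hu2 x hx').symm)
  haveI := (convex_univ (𝕜 := ℝ) (E := ℂ)).contractibleSpace univ_nonempty
  obtain ⟨l, hl, hle⟩ := exists_continuousOn_eqOn_exp_comp (U := (univ : Set ℂ))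
    (SimplyConnectedSpace.ofContractible _) isOpen_univ huc (by
      rintro ⟨w, -, hw⟩
      by_cases hw' : w ∈ f '' (K₁ ∪ K₂)ᶜ
      · exact Complex.exp_ne_zero _ ((hu1 w hw').symm.trans hw)
      · exact one_ne_zero ((hu2 w hw').symm.trans hw))
  have hl' : ∀ w, exp (l w) = u w := fun w => hle (mem_univ w)
  have he : ∀ w ∈ f '' (K₁ ∪ K₂)ᶜ, exp (l w - 2 * π * I * θ (g w)) = 1 := fun w hw => by
    rw [Complex.exp_sub, hl', hu1 w hw, div_self (Complex.exp_ne_zero _)]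
  obtain ⟨w₀, hw₀⟩ := hD2.nonempty
  have hm : ∀ w ∈ f '' (K₁ ∪ K₂)ᶜ, l w - (l w₀ - 2 * π * I * θ (g w₀)) = 2 * π * I * θ (g w) :=
    fun w hw => by
      rw [← Complex.isCoveringMap_exp.constOn_of_comp hD2.isPreconnected
        (g := fun w => l w - 2 * π * I * θ (g w)) ((hl.mono (subset_univ _)).sub hθ)
        (fun a ha b hb => Subtype.ext ((he a ha).trans (he b hb).symm)) hw hw₀]
      exact sub_sub_cancel _ _
  obtain ⟨L, hL, hL1, hL2⟩ : ∃ L : ℂ → ℂ, Continuous L ∧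
      (∀ w ∈ f '' (K₁ ∪ K₂)ᶜ, L w = 2 * π * I * θ (g w)) ∧
      ∀ w, w ∉ f '' (K₁ ∪ K₂)ᶜ → exp (L w) = 1 :=
    ⟨fun w => l w - (l w₀ - 2 * π * I * θ (g w₀)), (continuousOn_univ.1 hl).sub continuous_const,
      hm, fun w hw => by
      rw [Complex.exp_sub, hl', hu2 w hw, he w₀ hw₀, div_one]⟩
  have hπ : (1 : ℝ) ≤ ‖(2 * π * I : ℂ)‖ := by
    simp [abs_of_pos Real.pi_pos]
    linarith [Real.pi_gt_three]
  have c1 : IsClosed {w | L w = 0} := isClosed_eq hL continuous_const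
  have c2 : IsClosed {w | 1 ≤ ‖L w‖} := isClosed_le continuous_const hL.norm
  refine ⟨_, _, hD1.inter_right c1, hD1.inter_right c2, disjoint_left.2 fun w hw hw' => ?_, ?_,
    Ends2_lim hg hgf subset_union_left c1 (mem_of_superset
      (isOpen_thickening.mem_nhdsSet.2 (self_subset_thickening hδ _)) fun z hz hz' => ?_),
    Ends2_lim hg hgf subset_union_right c2 (mem_of_superset
      (isOpen_thickening.mem_nhdsSet.2 (self_subset_thickening hδ _)) fun z hz hz' => ?_)⟩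
  · have h3 : 1 ≤ ‖L w‖ := hw'.2
    rw [show L w = 0 from hw.2, norm_zero] at h3
    linarith
  · rw [← inter_union_distrib_left]
    refine inter_eq_left.2 fun w hw => ?_
    obtain ⟨n, hn⟩ := exp_eq_one_iff.1 (hL2 w hw)
    rcases eq_or_ne n 0 with rfl | h
    · exact Or.inl (by simpa using hn)
    · refine Or.inr ?_
      rw [mem_setOf_eq, hn, norm_mul, Complex.norm_intCast]
      exact one_le_mul_of_one_le_of_one_le (by exact_mod_cast Int.one_le_abs h) hπ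
  · rw [mem_setOf_eq, hL1 _ ⟨z, hz', rfl⟩, hgf z hz', t0 z hz]
  · rwa [mem_setOf_eq, hL1 _ ⟨z, hz', rfl⟩, hgf z hz', t1 z hz]

end Vale.P116B
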