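import Vale.Agent.P116B.Cutoff

/-!
# P116B Jan

Connected complements. `conn_convex`: from `z ∉ S` go out along the ray away from a point of `S` until the complement of a large closed ball
(`isPreconnected_compl_closedBall` in Glue). `janis`: if the complement of the union splits into nonempty open `X`, `Y`, take a continuous
`θ : ℂ → ℝ` equal to `0` near `K₁` and `1` near `K₂`, let `u = exp (2 π I θ)` on `X` and `1` elsewhere (continuous on `ℂ`), lift `u = exp (2 π I l)`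
(`Complex.exists_continuousOn_eqOn_exp_comp` on `univ`). Then `l - θ * indicator X` is continuous and integer valued on `K₂ᶜ`, and
`l - (θ - 1) * indicator X` on `K₁ᶜ`; both are constant; compare on `X` and on `Y`. `om_conn`: induction over finsets.
-/

namespace Vale.P116B

open Set Filter Topology MeasureTheory Metric Complex Vale.P116
open scoped ContDiff ComplexConjugate Real ENNReal Gradient

variable {ι : Type} [Fintype ι] {Q U E : ι → Set ℂ} {W : ι → ℂ → ℤ} {c : ι → ℂ} {r ρ s : ι → ℝ}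
  {f g h k F G Φ Θ θ φ χ η ξ a b V : ℂ → ℂ} {K A O S Z : Set ℂ} {z p q w : ℂ} {j : ι}
  {R M t L ε : ℝ}

theorem Jan_ne (hc : IsCompact S) : Sᶜ.Nonempty :=
  nonempty_compl.2 hc.ne_univ

theorem conn_convex (hS : Convex ℝ S) (hc : IsCompact S) : IsConnected Sᶜ := by
  refine ⟨Jan_ne hc, ?_⟩
  rcases S.eq_empty_or_nonempty with rfl | ⟨p, hp⟩
  · rw [compl_empty]
    exact isPreconnected_univ
  obtain ⟨R, hR0, hR⟩ := hc.isBounded.subset_closedBall_lt 0 (0 : ℂ)
  obtain ⟨x, hx⟩ := Jan_ne (isCompact_closedBall (0 : ℂ) R)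
  have hB : (closedBall (0 : ℂ) R)ᶜ ⊆ Sᶜ := compl_subset_compl.2 hR
  refine isPreconnected_of_forall x fun y hy => ?_
  have hyp : y - p ≠ 0 := fun h => hy (by rw [sub_eq_zero.1 h]; exact hp)
  have hn : 0 < ‖y - p‖ := norm_pos_iff.2 hyp
  have hray : IsPreconnected ((fun t : ℝ => y + t • (y - p)) '' Ici 0) :=
    isPreconnected_Ici.image _ (by fun_prop)
  refine ⟨(fun t : ℝ => y + t • (y - p)) '' Ici 0 ∪ (closedBall (0 : ℂ) R)ᶜ, ?_, Or.inr hx,
    Or.inl ⟨0, le_refl (0 : ℝ), by simp⟩, ?_⟩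
  · refine union_subset ?_ hB
    rintro _ ⟨t, ht, rfl⟩ hS'
    have ht0 : (0 : ℝ) ≤ t := ht
    have h1 : (0 : ℝ) < 1 + t := by linarith
    have h2 := hS hp hS' (a := t / (1 + t)) (b := 1 / (1 + t)) (by positivity) (by positivity)
      (by field_simp; ring)
    apply hy
    have h3 : (t / (1 + t)) • p + (1 / (1 + t)) • (y + t • (y - p)) = y := by
      have h4 : ((1 : ℂ) + t) ≠ 0 := by exact_mod_cast h1.ne'
      simp only [real_smul]
      push_cast
      field_simp
      ring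
    rwa [h3] at h2
  · have hT : 0 ≤ (R + ‖y‖ + 1) / ‖y - p‖ := by positivity
    refine IsPreconnected.union (y + ((R + ‖y‖ + 1) / ‖y - p‖) • (y - p)) ⟨_, hT, rfl⟩ ?_ hray
      (isPreconnected_compl_closedBall R hR0.le)
    intro h
    rw [mem_closedBall_zero_iff] at h
    have h5 : ‖((R + ‖y‖ + 1) / ‖y - p‖) • (y - p)‖ = R + ‖y‖ + 1 := by
      rw [norm_smul, Real.norm_of_nonneg hT, div_mul_cancel₀ _ hn.ne']
    have h6 := norm_sub_le (y + ((R + ‖y‖ + 1) / ‖y - p‖) • (y - p)) y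
    rw [add_sub_cancel_left, h5] at h6
    linarith

theorem Jan_const (hS : IsPreconnected S) (hf : ContinuousOn f S) (h1 : ∀ z ∈ S, exp (f z) = 1)
    (hp : p ∈ S) (hq : q ∈ S) : f p = f q :=
  isCoveringMap_exp.constOn_of_comp hS hf
    (fun x hx y hy => Subtype.ext ((h1 x hx).trans (h1 y hy).symm)) hp hq

theorem Jan_cont {X Y : Set ℂ} (hX : IsOpen X) (hY : IsOpen Y) (hd : Disjoint X Y)
    (hf : Continuous f) (hz : z ∈ X ∨ z ∈ Y ∨ ∀ᶠ w in 𝓝 z, f w = 0) :
    ContinuousAt (X.indicator f) z := by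
  rcases hz with hz | hz | hz
  · refine hf.continuousAt.congr ?_
    filter_upwards [hX.mem_nhds hz] with w hw
    rw [indicator_of_mem hw]
  · refine (continuousAt_const (y := (0 : ℂ))).congr ?_
    filter_upwards [hY.mem_nhds hz] with w hw
    rw [indicator_of_notMem (disjoint_right.1 hd hw)]
  · refine (continuousAt_const (y := (0 : ℂ))).congr ?_
    filter_upwards [hz] with w hw
    by_cases hw' : w ∈ X
    · rw [indicator_of_mem hw', hw]
    · rw [indicator_of_notMem hw']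

theorem Jan_log (hf : Continuous f) (h0 : ∀ z, f z ≠ 0) :
    ∃ l : ℂ → ℂ, Continuous l ∧ ∀ z, exp (l z) = f z := by
  have hs : IsSimplyConnected (univ : Set ℂ) := by
    have := (convex_univ : Convex ℝ (univ : Set ℂ)).contractibleSpace univ_nonempty
    exact SimplyConnectedSpace.ofContractible _
  obtain ⟨l, hl, he⟩ := exists_continuousOn_eqOn_exp_comp hs isOpen_univ hf.continuousOn
    (by rintro ⟨z, -, hz⟩; exact h0 z hz)
  exact ⟨l, continuousOn_univ.1 hl, fun z => he (mem_univ z)⟩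

theorem janis {K₁ K₂ : Set ℂ} (h1 : IsCompact K₁) (h2 : IsCompact K₂) (hd : Disjoint K₁ K₂)
    (c1 : IsConnected K₁ᶜ) (c2 : IsConnected K₂ᶜ) : IsConnected (K₁ ∪ K₂)ᶜ := by
  have hK := h1.union h2
  refine ⟨Jan_ne hK, ?_⟩
  intro u v hu hv huv hne1 hne2
  by_contra hcon
  rw [not_nonempty_iff_eq_empty] at hcon
  obtain ⟨x, hx⟩ := hne1
  obtain ⟨y, hy⟩ := hne2
  have hO : IsOpen (K₁ ∪ K₂)ᶜ := hK.isClosed.isOpen_compl
  have hX : IsOpen ((K₁ ∪ K₂)ᶜ ∩ u) := hO.inter hu
  have hY : IsOpen ((K₁ ∪ K₂)ᶜ ∩ v) := hO.inter hv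
  have hXY : Disjoint ((K₁ ∪ K₂)ᶜ ∩ u) ((K₁ ∪ K₂)ᶜ ∩ v) := by
    rw [disjoint_left]
    intro z hz1 hz2
    have : z ∈ (K₁ ∪ K₂)ᶜ ∩ (u ∩ v) := ⟨hz1.1, hz1.2, hz2.2⟩
    rw [hcon] at this
    exact this
  have hcov : ∀ z, z ∉ K₁ → z ∉ K₂ → z ∈ (K₁ ∪ K₂)ᶜ ∩ u ∨ z ∈ (K₁ ∪ K₂)ᶜ ∩ v := by
    intro z hz1 hz2
    have hz : z ∈ (K₁ ∪ K₂)ᶜ := fun h => h.elim hz1 hz2
    exact (huv hz).imp (fun h => ⟨hz, h⟩) fun h => ⟨hz, h⟩
  have hx1 : x ∈ K₁ᶜ := fun h => hx.1 (Or.inl h)
  have hx2 : x ∈ K₂ᶜ := fun h => hx.1 (Or.inr h)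
  have hy1 : y ∈ K₁ᶜ := fun h => hy.1 (Or.inl h)
  have hy2 : y ∈ K₂ᶜ := fun h => hy.1 (Or.inr h)
  have hyX : y ∉ (K₁ ∪ K₂)ᶜ ∩ u := disjoint_right.1 hXY hy
  generalize (K₁ ∪ K₂)ᶜ ∩ u = X at *
  generalize (K₁ ∪ K₂)ᶜ ∩ v = Y at *
  obtain ⟨ψ, hψ, -, hψs, -, hψ1⟩ :=
    exists_cut_real h2 h1.isClosed.isOpen_compl (subset_compl_iff_disjoint_left.2 hd)
  have hψc : Continuous ψ := hψ.continuous
  have f1c : Continuous fun z => 2 * π * I * (ψ z : ℂ) := by fun_prop
  have f2c : Continuous fun z => 2 * π * I * ((ψ z : ℂ) - 1) := by fun_prop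
  have a1 : ∀ z, z ∉ K₂ → ContinuousAt (X.indicator fun z => 2 * π * I * (ψ z : ℂ)) z := by
    intro z hz
    refine Jan_cont hX hY hXY f1c ?_
    by_cases hz1 : z ∈ K₁
    · refine Or.inr (Or.inr ?_)
      have hz3 : z ∉ tsupport ψ := fun h => hψs h hz1
      filter_upwards [(isClosed_tsupport ψ).isOpen_compl.mem_nhds hz3] with w hw
      rw [image_eq_zero_of_notMem_tsupport hw]
      simp
    · exact (hcov z hz1 hz).imp id Or.inl
  have a2 : ∀ z, z ∉ K₁ → ContinuousAt (X.indicator fun z => 2 * π * I * ((ψ z : ℂ) - 1)) z := by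
    intro z hz
    refine Jan_cont hX hY hXY f2c ?_
    by_cases hz2 : z ∈ K₂
    · refine Or.inr (Or.inr ?_)
      filter_upwards [hψ1.filter_mono (nhds_le_nhdsSet hz2)] with w hw
      rw [hw]
      simp
    · exact (hcov z hz hz2).imp id Or.inl
  have ee : ∀ z, exp (X.indicator (fun z => 2 * π * I * (ψ z : ℂ)) z) =
      exp (X.indicator (fun z => 2 * π * I * ((ψ z : ℂ) - 1)) z) := by
    intro z
    by_cases hz : z ∈ X
    · rw [indicator_of_mem hz, indicator_of_mem hz, mul_sub, exp_sub, mul_one, exp_two_pi_mul_I,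
        div_one]
    · rw [indicator_of_notMem hz, indicator_of_notMem hz]
  have uc : Continuous fun z => exp (X.indicator (fun z => 2 * π * I * (ψ z : ℂ)) z) := by
    rw [continuous_iff_continuousAt]
    intro z
    by_cases hz : z ∈ K₂
    · simp only [ee]
      exact continuous_exp.continuousAt.comp (a2 z (disjoint_right.1 hd hz))
    · exact continuous_exp.continuousAt.comp (a1 z hz)
  obtain ⟨l, hl, hle⟩ := Jan_log uc fun z => exp_ne_zero _
  have b1 := Jan_const (f := fun z => l z - X.indicator (fun z => 2 * π * I * (ψ z : ℂ)) z)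
    c2.isPreconnected (fun z hz => (hl.continuousAt.sub (a1 z hz)).continuousWithinAt)
    (fun z _ => by rw [exp_sub, hle, div_self (exp_ne_zero _)]) hx2 hy2
  have b2 := Jan_const (f := fun z => l z - X.indicator (fun z => 2 * π * I * ((ψ z : ℂ) - 1)) z)
    c1.isPreconnected (fun z hz => (hl.continuousAt.sub (a2 z hz)).continuousWithinAt)
    (fun z _ => by rw [exp_sub, hle, ee, div_self (exp_ne_zero _)]) hx1 hy1
  simp only [indicator_of_mem hx, indicator_of_notMem hyX] at b1 b2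
  apply two_pi_I_ne_zero
  linear_combination b2 - b1

theorem om_conn (hQ : Fam Q) : IsConnected (Om Q) := by
  classical
  have key : ∀ T : Finset ι, IsConnected (⋃ j ∈ T, Q j)ᶜ := by
    intro T
    induction T using Finset.induction_on with
    | empty => simpa using (isConnected_univ : IsConnected (univ : Set ℂ))
    | insert i T hi ih =>
      rw [Finset.set_biUnion_insert]
      refine janis (hQ.cpt i) (T.isCompact_biUnion fun j _ => hQ.cpt j) ?_
        (conn_convex (hQ.cvx i) (hQ.cpt i)) ih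
      rw [disjoint_iUnion₂_right]
      intro j hj
      exact hQ.disj (fun h => hi (h ▸ hj))
  simpa [Om] using key Finset.univ

end Vale.P116B
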