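import Vale.Agent.P116B.Back
import Vale.Agent.P116B.Jan

/-!
# P116B EndsN

The pieces for a finite family. For each `j` apply `ends2` to `Q j` and the union of the others; call the pieces `E j`, `E' j`. A compact set that is
relatively clopen in the complement of the image and has no point in the closure of the image is clopen in `ℂ`, hence empty; with
`exists_pre` and `mem_of_cluster` this shows that `E i ∩ E j` and `⋂ j, E' j` are empty. `E j` is nonempty because `Q j` has a frontier point in the closure of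
`Om Q` (and `F` stays in a compact neighbourhood of `E j`). Connectedness: if `E j = X ∪ Y` with disjoint nonempty compact sets, apply `ends2` to the
inverse map (`normMap_inv`) and the partition into `X` and the rest; both resulting pieces meet the connected set `Q j`.
-/

namespace Vale.P116B

open Set Filter Topology MeasureTheory Metric Complex Vale.P116
open scoped ContDiff ComplexConjugate Real ENNReal Gradient

variable {ι : Type} [Fintype ι] {Q U E : ι → Set ℂ} {W : ι → ℂ → ℤ} {c : ι → ℂ} {r ρ s : ι → ℝ}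
  {f g h k F G Φ Θ θ φ χ η ξ a b V : ℂ → ℂ} {K A O S Z : Set ℂ} {z p q w : ℂ} {j : ι}
  {R M t L ε : ℝ}

/-- A nonempty compact piece of the complement of `S` meets the closure of `S`. -/
theorem endsN_meet {D D' : Set ℂ} (hD : IsCompact D) (hD' : IsClosed D') (hd : Disjoint D D')
    (hu : D ∪ D' = Sᶜ) (hn : D.Nonempty) : ∃ w ∈ D, w ∈ closure S := by
  by_contra h
  push Not at h
  have he : D = (closure S)ᶜ ∩ D'ᶜ := by
    ext w
    constructor
    · exact fun hw => ⟨h w hw, disjoint_left.1 hd hw⟩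
    · rintro ⟨h1, h2⟩
      have : w ∈ D ∪ D' := by rw [hu]; exact fun h3 => h1 (subset_closure h3)
      exact this.resolve_right h2
  have ho : IsOpen D := by rw [he]; exact isClosed_closure.isOpen_compl.inter hD'.isOpen_compl
  rcases isClopen_iff.1 ⟨hD.isClosed, ho⟩ with h1 | h1
  · exact hn.ne_empty h1
  · exact hD.ne_univ h1

theorem endsN_pull (hK : IsCompact K) (hf : NormMap K f) (hw : w ∈ closure (f '' Kᶜ))
    (hw' : w ∉ f '' Kᶜ) : ∃ x ∈ K,
      (∀ A B : Set ℂ, x ∈ A → IsCompact B → Tendsto f (𝓝ˢ A ⊓ 𝓟 Kᶜ) (𝓝ˢ B) → w ∈ B) ∧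
      ∀ (g : ℂ → ℂ) (A B : Set ℂ), (∀ z, z ∉ K → g (f z) = z) → w ∈ A → IsCompact B →
        Tendsto g (𝓝ˢ A ⊓ 𝓟 (f '' Kᶜ)) (𝓝ˢ B) → x ∈ B := by
  obtain ⟨x, hx, -, hc⟩ := exists_pre hK hf subset_rfl hw hw'
  refine ⟨x, hx, fun A B hA hB h => mem_of_cluster hB
    (h.mono_left (inf_le_inf_right _ (nhds_le_nhdsSet hA))) hc, fun g A B hg hA hB h => ?_⟩
  have hne : ((𝓝 x ⊓ 𝓟 Kᶜ) ⊓ comap f (𝓝 w)).NeBot := by
    rw [neBot_inf_comap_iff_map, inf_comm]
    exact hc
  have hev : ∀ᶠ z in (𝓝 x ⊓ 𝓟 Kᶜ) ⊓ comap f (𝓝 w), z ∈ Kᶜ :=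
    mem_inf_of_left (mem_inf_of_right (mem_principal_self _))
  have h1 : Tendsto f ((𝓝 x ⊓ 𝓟 Kᶜ) ⊓ comap f (𝓝 w)) (𝓝ˢ A ⊓ 𝓟 (f '' Kᶜ)) :=
    tendsto_inf.2 ⟨(tendsto_comap.mono_left inf_le_right).mono_right (nhds_le_nhdsSet hA),
      tendsto_principal.2 (hev.mono fun z hz => ⟨z, hz, rfl⟩)⟩
  have h2 : Tendsto id ((𝓝 x ⊓ 𝓟 Kᶜ) ⊓ comap f (𝓝 w)) (𝓝ˢ B) :=
    (h.comp h1).congr' (hev.mono fun z hz => hg z hz)
  refine mem_of_cluster hB (tendsto_id'.1 h2) ?_
  exact ClusterPt.of_le_nhds (inf_le_left.trans inf_le_left)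

theorem endsN_one (hQ : Fam Q) (hF : NormMap (⋃ j, Q j) F) (j : ι) : ∃ E₁ E₂ : Set ℂ,
    IsCompact E₁ ∧ IsCompact E₂ ∧ Disjoint E₁ E₂ ∧ E₁ ∪ E₂ = (F '' Om Q)ᶜ ∧
      Tendsto F (𝓝ˢ (Q j) ⊓ 𝓟 (Om Q)) (𝓝ˢ E₁) ∧
      ∀ i, i ≠ j → Tendsto F (𝓝ˢ (Q i) ⊓ 𝓟 (Om Q)) (𝓝ˢ E₂) := by
  have hu : Q j ∪ ⋃ i ∈ {i | i ≠ j}, Q i = ⋃ j, Q j := by
    apply Subset.antisymm
    · exact union_subset (subset_iUnion Q j) (iUnion₂_subset fun i _ => subset_iUnion Q i)
    · refine iUnion_subset fun i => ?_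
      by_cases h : i = j
      · rw [h]; exact subset_union_left
      · exact (subset_biUnion_of_mem (u := Q) (show i ∈ {i | i ≠ j} from h)).trans
          subset_union_right
  have h := ends2 (f := F) (hQ.cpt j) ((toFinite {i | i ≠ j}).isCompact_biUnion fun i _ => hQ.cpt i)
    (disjoint_iUnion₂_right.2 fun i hi => hQ.disj (Ne.symm hi))
    (by rw [hu]; exact om_conn hQ) (by rw [hu]; exact hF)
  rw [hu] at h
  obtain ⟨E₁, E₂, h1, h2, h3, h4, h5, h6⟩ := h
  exact ⟨E₁, E₂, h1, h2, h3, h4, h5, fun i hi => h6.mono_left (inf_le_inf_right _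
    (nhdsSet_mono (subset_biUnion_of_mem (u := Q) (show i ∈ {i | i ≠ j} from hi))))⟩

theorem endsN_ne (hQ : Fam Q) (j : ι) : (𝓝ˢ (Q j) ⊓ 𝓟 (Om Q)).NeBot := by
  obtain ⟨x, hx, h⟩ := endsN_meet (S := Om Q) (D' := ⋃ i ∈ {i | i ≠ j}, Q i) (hQ.cpt j)
    ((toFinite {i | i ≠ j}).isCompact_biUnion fun i _ => hQ.cpt i).isClosed
    (disjoint_iUnion₂_right.2 fun i hi => hQ.disj (Ne.symm hi)) (by
      rw [Om, compl_compl]
      apply Subset.antisymm
      · exact union_subset (subset_iUnion Q j) (iUnion₂_subset fun i _ => subset_iUnion Q i)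
      · refine iUnion_subset fun i => ?_
        by_cases h : i = j
        · rw [h]; exact subset_union_left
        · exact (subset_biUnion_of_mem (u := Q) (show i ∈ {i | i ≠ j} from h)).trans
            subset_union_right) (hQ.ne j)
  exact (mem_closure_iff_clusterPt.1 h).neBot.mono (inf_le_inf_right _ (nhds_le_nhdsSet hx))

theorem exists_ends (hQ : Fam Q) (hF : NormMap (⋃ j, Q j) F) : ∃ E : ι → Set ℂ, Ends Q F E := by
  choose E E' hE hE' hd hu hl hl' using endsN_one hQ hF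
  have hC : IsCompact (F '' Om Q)ᶜ := by
    obtain ⟨E₁, E₂, h1, h2, -, h4, -⟩ := ends2 (f := F) hQ.isCompact isCompact_empty
      (disjoint_empty _) (by rw [union_empty]; exact om_conn hQ) (by rw [union_empty]; exact hF)
    rw [union_empty] at h4
    exact h4 ▸ h1.union h2
  have hsub : ∀ j, E j ⊆ (F '' Om Q)ᶜ := fun j => hu j ▸ subset_union_left
  have hsub' : ∀ j, E' j ⊆ (F '' Om Q)ᶜ := fun j => hu j ▸ subset_union_right
  have hmem : ∀ j, ∀ w ∈ (F '' Om Q)ᶜ, w ∈ E j ∨ w ∈ E' j := fun j w hw => by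
    rw [← hu j] at hw; exact hw
  have key : ∀ w ∈ (F '' Om Q)ᶜ, w ∈ closure (F '' Om Q) → ∃ i, ∃ x ∈ Q i, w ∈ E i ∧
      (∀ j, i ≠ j → w ∈ E' j) ∧ ∀ (g : ℂ → ℂ) (A B : Set ℂ), (∀ z, z ∉ ⋃ j, Q j → g (F z) = z) →
        w ∈ A → IsCompact B → Tendsto g (𝓝ˢ A ⊓ 𝓟 (F '' Om Q)) (𝓝ˢ B) → x ∈ B := by
    intro w h1 h2
    obtain ⟨x, hx, h3, h4⟩ := endsN_pull hQ.isCompact hF h2 h1
    obtain ⟨i, hi⟩ := mem_iUnion.1 hx
    exact ⟨i, x, hi, h3 _ _ hi (hE i) (hl i), fun j hj => h3 _ _ hi (hE' j) (hl' j i hj), h4⟩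
  refine ⟨E, hE, fun j => ⟨?_, ?_⟩, fun i j hij => ?_, ?_, hl⟩
  · rw [nonempty_iff_ne_empty]
    intro h
    have h1 := hl j
    rw [h, nhdsSet_empty] at h1
    have := endsN_ne hQ j
    exact (h1.neBot).ne rfl
  · refine isPreconnected_iff_subset_of_disjoint_closed.2 fun u v hu1 hv1 h1 h2 => ?_
    by_contra hn
    rw [not_or, not_subset, not_subset] at hn
    obtain ⟨⟨y, hy, hyu⟩, ⟨x, hx, hxv⟩⟩ := hn
    have hX : IsCompact (E j ∩ u) := (hE j).inter_right hu1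
    have hY : IsCompact (E j ∩ v) := (hE j).inter_right hv1
    have hXY : Disjoint (E j ∩ u) (E j ∩ v) := disjoint_left.2 fun w a b => by
      have : w ∈ E j ∩ (u ∩ v) := ⟨a.1, a.2, b.2⟩
      rw [h2] at this
      exact this
    have hXu : E j ∩ u ∪ E j ∩ v = E j := by
      rw [← inter_union_distrib_left, inter_eq_left.2 h1]
    have e1 : E j ∩ u ∪ (E j ∩ v ∪ E' j) = (F '' Om Q)ᶜ := by rw [← union_assoc, hXu, hu]
    have e2 : E j ∩ v ∪ (E j ∩ u ∪ E' j) = (F '' Om Q)ᶜ := by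
      rw [← union_assoc, union_comm (E j ∩ v), hXu, hu]
    have d1 : Disjoint (E j ∩ u) (E j ∩ v ∪ E' j) :=
      disjoint_union_right.2 ⟨hXY, (hd j).mono_left inter_subset_left⟩
    have d2 : Disjoint (E j ∩ v) (E j ∩ u ∪ E' j) :=
      disjoint_union_right.2 ⟨hXY.symm, (hd j).mono_left inter_subset_left⟩
    obtain ⟨g, hg, hgF⟩ := normMap_inv hQ.isCompact (om_conn hQ) hF
    have h3 := ends2 (f := g) hX (hY.union (hE' j)) d1
      (by rw [e1, compl_compl]; exact (om_conn hQ).image F hF.1.continuousOn)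
      (by rw [e1]; exact hg)
    rw [e1, compl_compl] at h3
    obtain ⟨P₁, P₂, p1, p2, p3, p4, p5, p6⟩ := h3
    have p7 : Q j ⊆ P₁ ∪ P₂ := by
      rw [p4]
      rintro _ hz ⟨_, ⟨z, hz', rfl⟩, rfl⟩
      rw [hgF z hz'] at hz
      exact mem_Om.1 hz' j hz
    obtain ⟨w₁, a1, a2⟩ := endsN_meet hX (hY.union (hE' j)).isClosed d1 e1
      ⟨x, hx, (h1 hx).resolve_right hxv⟩
    obtain ⟨w₂, b1, b2⟩ := endsN_meet hY (hX.union (hE' j)).isClosed d2 e2
      ⟨y, hy, (h1 hy).resolve_left hyu⟩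
    obtain ⟨i₁, x₁, a3, -, a4, a5⟩ := key w₁ (hsub j a1.1) a2
    obtain ⟨i₂, x₂, b3, -, b4, b5⟩ := key w₂ (hsub j b1.1) b2
    obtain rfl : i₁ = j := by
      by_contra h
      exact disjoint_left.1 (hd j) a1.1 (a4 j h)
    obtain rfl : i₂ = i₁ := by
      by_contra h
      exact disjoint_left.1 (hd i₁) b1.1 (b4 i₁ h)
    have a6 := a5 g _ _ hgF a1 p1 p5
    have b6 := b5 g _ _ hgF (Or.inl b1) p2 p6
    rcases isPreconnected_iff_subset_of_disjoint_closed.1 (hQ.cvx i₂).isPreconnected P₁ P₂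
      p1.isClosed p2.isClosed p7 (by rw [p3.inter_eq, inter_empty]) with h | h
    · exact disjoint_left.1 p3 (h b3) b6
    · exact disjoint_left.1 p3 a6 (h a3)
  · show Disjoint (E i) (E j)
    rw [disjoint_iff_inter_eq_empty]
    by_contra hn
    obtain ⟨w, a1, a2⟩ := endsN_meet (S := F '' Om Q) ((hE i).inter_right (hE j).isClosed)
      ((hE' i).union (hE' j)).isClosed (disjoint_union_right.2
        ⟨(hd i).mono_left inter_subset_left, (hd j).mono_left inter_subset_right⟩)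
      (Subset.antisymm (union_subset (inter_subset_left.trans (hsub i))
        (union_subset (hsub' i) (hsub' j))) fun w hw => by
          rcases hmem i w hw with h1 | h1
          · rcases hmem j w hw with h2 | h2
            · exact Or.inl ⟨h1, h2⟩
            · exact Or.inr (Or.inr h2)
          · exact Or.inr (Or.inl h1)) (nonempty_iff_ne_empty.2 hn)
    obtain ⟨k, -, -, -, a4, -⟩ := key w (hsub i a1.1) a2
    by_cases hk : k = i
    · exact disjoint_left.1 (hd j) a1.2 (a4 j (hk ▸ hij))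
    · exact disjoint_left.1 (hd i) a1.1 (a4 i hk)
  · rw [eq_comm, compl_eq_comm]
    refine Subset.antisymm (fun w hw => ?_) (iUnion_subset hsub)
    by_contra hn
    have hw' : ∀ j, w ∈ E' j := fun j =>
      (hmem j w hw).resolve_left fun h => hn (mem_iUnion.2 ⟨j, h⟩)
    obtain ⟨y, a1, a2⟩ := endsN_meet (S := F '' Om Q) (D := (F '' Om Q)ᶜ ∩ ⋂ j, E' j)
      (hC.inter_right (isClosed_iInter fun j => (hE' j).isClosed))
      (isCompact_iUnion hE).isClosed (disjoint_iUnion_right.2 fun j =>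
        (hd j).symm.mono_left (inter_subset_right.trans (iInter_subset _ j)))
      (Subset.antisymm (union_subset inter_subset_left (iUnion_subset hsub)) fun y hy => by
        by_cases h : y ∈ ⋃ j, E j
        · exact Or.inr h
        · exact Or.inl ⟨hy, mem_iInter.2 fun j =>
            (hmem j y hy).resolve_left fun h' => h (mem_iUnion.2 ⟨j, h'⟩)⟩)
      ⟨w, hw, mem_iInter.2 hw'⟩
    obtain ⟨k, -, -, a3, -⟩ := key y a1.1 a2
    exact disjoint_left.1 (hd k) a3 (mem_iInter.1 a1.2 k)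

end Vale.P116B
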