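import Vale.Agent.P116B.Basic

/-!
# P116B Mean

Mean value estimates. `mean_sq`: polar coordinates and the circle mean value of `ξ ^ 2` (for instance
`DiffContOnCl.circleAverage` / `circleIntegral_sub_center_inv_smul_of_differentiable_on_off_countable`), or a rotation
average as `mean_zero` in Vale/Agent/P271A/Mean.lean on main. `tendsto_of_l2`: the integral over the complement of large
balls tends to zero. `deriv_tendsto`: Cauchy estimate `norm_deriv_le_of_forall_mem_sphere_norm_le` on unit discs.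
-/

namespace Vale.P116B

open Set Filter Topology MeasureTheory Metric Complex Vale.P116
open scoped ContDiff ComplexConjugate Real ENNReal Gradient

variable {ι : Type} [Fintype ι] {Q U E : ι → Set ℂ} {W : ι → ℂ → ℤ} {c : ι → ℂ} {r ρ s : ι → ℝ}
  {f g h k F G Φ Θ θ φ χ η ξ a b V : ℂ → ℂ} {K A O S Z : Set ℂ} {z p q w : ℂ} {j : ι}
  {R M t L ε : ℝ}

theorem mean_rot_mp {u : ℂ} (hu : ‖u‖ = 1) (R : ℝ) :
    MeasurePreserving (fun v : ℂ => u * v) (volume.restrict (ball 0 R))
      (volume.restrict (ball 0 R)) := by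
  have h1 : MeasurePreserving (fun v : ℂ => u * v) :=
    (rotation ⟨u, by simpa [Submonoid.unitSphere] using hu⟩).measurePreserving
  have h2 := h1.restrict_preimage (s := ball 0 R) measurableSet_ball
  have h5 : (fun v : ℂ => u * v) ⁻¹' ball 0 R = ball 0 R := by
    ext v
    simp [hu]
  rwa [h5] at h2

theorem mean_rot_int {X : Type} [NormedAddCommGroup X] [NormedSpace ℝ X] {u : ℂ} (hu : ‖u‖ = 1)
    (R : ℝ) (H : ℂ → X) : ∫ v in ball (0 : ℂ) R, H (u * v) = ∫ v in ball (0 : ℂ) R, H v :=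
  (mean_rot_mp hu R).integral_comp
    (Homeomorph.mulLeft₀ u fun h => by simp [h] at hu).measurableEmbedding H

theorem mean_at_zero (hd : DifferentiableOn ℂ F (ball 0 R)) (hi : IntegrableOn F (ball 0 R)) :
    ∫ v in ball (0 : ℂ) R, F v = volume.real (ball (0 : ℂ) R) * F 0 := by
  have hn : ∀ θ : ℝ, ‖circleMap 0 1 θ‖ = 1 := fun θ => by simp
  have hmem : ∀ u v : ℂ, ‖u‖ ≤ 1 → v ∈ ball (0 : ℂ) R → u * v ∈ ball (0 : ℂ) R := by
    intro u v hu hv
    rw [mem_ball_zero_iff] at hv ⊢
    rw [norm_mul]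
    exact (mul_le_of_le_one_left (norm_nonneg _) hu).trans_lt hv
  have hc : ContinuousOn (fun x : ℝ × ℂ => F (circleMap 0 1 x.1 * x.2))
      (uIoc 0 (2 * π) ×ˢ ball 0 R) :=
    hd.continuousOn.comp (((continuous_circleMap 0 1).comp continuous_fst).mul
      continuous_snd).continuousOn fun x hx => hmem _ _ (hn _).le hx.2
  have hi2 : Integrable (Function.uncurry fun (θ : ℝ) (v : ℂ) => F (circleMap 0 1 θ * v))
      ((volume.restrict (uIoc 0 (2 * π))).prod (volume.restrict (ball 0 R))) := by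
    refine (integrable_prod_iff ?_).2 ⟨Eventually.of_forall fun θ =>
      (mean_rot_mp (hn θ) R).integrable_comp_of_integrable hi, ?_⟩
    · rw [Measure.prod_restrict]
      exact hc.aestronglyMeasurable (measurableSet_uIoc.prod measurableSet_ball)
    · simp only [Function.uncurry_apply_pair, fun θ => mean_rot_int (hn θ) R fun v => ‖F v‖]
      rw [uIoc_of_le Real.two_pi_pos.le]
      exact integrableOn_const measure_Ioc_lt_top.ne
  have h1 := intervalIntegral_integral_swap hi2
  have h2 : ∀ v ∈ ball (0 : ℂ) R,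
      ∫ θ in (0 : ℝ)..2 * π, F (circleMap 0 1 θ * v) = (2 * π : ℝ) * F 0 := by
    intro v hv
    have h4 : DifferentiableOn ℂ (fun t : ℂ => F (t * v)) (closedBall 0 1) :=
      hd.comp (by fun_prop) fun t ht => hmem _ _ (mem_closedBall_zero_iff.1 ht) hv
    have h3 : Real.circleAverage (fun t : ℂ => F (t * v)) 0 1 = F ((0 : ℂ) * v) := by
      refine DiffContOnCl.circleAverage (f := fun t : ℂ => F (t * v)) ?_
      rw [abs_one]
      refine DifferentiableOn.diffContOnCl ?_
      rwa [closure_ball _ one_ne_zero]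
    rw [Real.circleAverage_def, zero_mul, real_smul] at h3
    rw [← h3, ← mul_assoc, ← ofReal_mul, mul_inv_cancel₀ Real.two_pi_pos.ne', ofReal_one, one_mul]
  rw [setIntegral_congr_fun measurableSet_ball h2, setIntegral_const] at h1
  simp only [fun θ => mean_rot_int (hn θ) R F, intervalIntegral.integral_const, sub_zero,
    real_smul] at h1
  have h4 : ((2 * π : ℝ) : ℂ) ≠ 0 := ofReal_ne_zero.2 Real.two_pi_pos.ne'
  refine mul_left_cancel₀ h4 (h1.trans ?_)
  ring

theorem mean_far (hK : IsCompact K) : ∃ T : ℝ, ∀ z : ℂ, ∀ S, T ≤ S → S + 2 ≤ ‖z‖ →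
    ball z 2 ⊆ (ball 0 S)ᶜ ∩ Kᶜ := by
  obtain ⟨T, hT⟩ := hK.isBounded.subset_ball 0
  refine ⟨T, fun z S hS hz w hw => ?_⟩
  have h1 : S ≤ ‖w‖ := by
    rw [mem_ball_iff_norm'] at hw
    linarith [norm_sub_norm_le z w]
  exact ⟨fun h => h1.not_gt (mem_ball_zero_iff.1 h),
    fun h => (hS.trans h1).not_gt (mem_ball_zero_iff.1 (hT h))⟩

theorem mean_large (T : ℝ) : ∀ᶠ z : ℂ in cocompact ℂ, T ≤ ‖z‖ :=
  (tendsto_norm_cocompact_atTop (E := ℂ)).eventually_ge_atTop T

theorem mean_sq (hR : 0 < R) (hd : DifferentiableOn ℂ ξ (ball z R))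
    (hi : IntegrableOn (fun w => ‖ξ w‖ ^ 2) (ball z R)) :
    π * R ^ 2 * ‖ξ z‖ ^ 2 ≤ ∫ w in ball z R, ‖ξ w‖ ^ 2 := by
  have h2 : (fun v : ℂ => z + v) ⁻¹' ball z R = ball 0 R := by
    ext v
    simp [dist_eq_norm]
  have h1 := (measurePreserving_add_left (volume : Measure ℂ) z).restrict_preimage
    (s := ball z R) measurableSet_ball
  rw [h2] at h1
  have h3 : DifferentiableOn ℂ (fun v : ℂ => ξ (z + v) ^ 2) (ball 0 R) :=
    (hd.comp (by fun_prop) fun v hv => by rwa [← h2] at hv).pow 2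
  have h4 : IntegrableOn (fun v : ℂ => ξ (z + v) ^ 2) (ball 0 R) :=
    (h1.integrable_comp_of_integrable hi).mono'
      (h3.continuousOn.aestronglyMeasurable measurableSet_ball)
      (Eventually.of_forall fun v => (norm_pow _ _).le)
  have h5 := norm_integral_le_integral_norm (μ := volume.restrict (ball 0 R))
    fun v : ℂ => ξ (z + v) ^ 2
  rw [mean_at_zero h3 h4] at h5
  rw [← h1.integral_comp (measurableEmbedding_addLeft z)]
  simpa [Measure.real, hR.le, mul_comm, abs_of_pos Real.pi_pos] using h5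

theorem tendsto_of_l2 (hK : IsCompact K) (hd : DifferentiableOn ℂ ξ Kᶜ)
    (hL : MemLp ξ 2 (volume.restrict Kᶜ)) : Tendsto ξ (cocompact ℂ) (𝓝 0) := by
  have hi : IntegrableOn (fun w => ‖ξ w‖ ^ 2) Kᶜ := (memLp_two_iff_integrable_sq_norm hL.1).1 hL
  have h1 := tendsto_setIntegral_of_antitone (μ := volume.restrict Kᶜ) (f := fun w => ‖ξ w‖ ^ 2)
    (s := fun n : ℕ => (ball (0 : ℂ) n)ᶜ) (fun n => measurableSet_ball.compl)
    (fun m n h => compl_subset_compl.2 (ball_subset_ball (Nat.cast_le.2 h))) ⟨0, hi.integrableOn⟩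
  rw [← compl_iUnion, iUnion_ball_nat, compl_univ, setIntegral_empty] at h1
  obtain ⟨T, hT⟩ := mean_far hK
  refine Metric.tendsto_nhds.2 fun δ hδ => ?_
  obtain ⟨n, h2, h3⟩ := ((h1.eventually_lt_const (pow_pos hδ 2)).and
    (tendsto_natCast_atTop_atTop.eventually_ge_atTop T)).exists
  filter_upwards [mean_large (n + 2)] with z hz
  have h4 := hT z n h3 hz
  have h5 := h4.trans inter_subset_right
  have h6 := (mean_sq two_pos (hd.mono h5) (hi.mono_set h5)).trans (setIntegral_mono_set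
    (hi.mono_set inter_subset_right) (Eventually.of_forall fun _ => sq_nonneg _) h4.eventuallyLE)
  rw [Measure.restrict_restrict measurableSet_ball.compl] at h2
  rw [dist_zero_right]
  refine lt_of_pow_lt_pow_left₀ 2 hδ.le ?_
  nlinarith [Real.pi_gt_three, sq_nonneg ‖ξ z‖]

theorem deriv_tendsto (hK : IsCompact K) (hd : DifferentiableOn ℂ h Kᶜ)
    (h0 : Tendsto h (cocompact ℂ) (𝓝 0)) : Tendsto (deriv h) (cocompact ℂ) (𝓝 0) := by
  obtain ⟨T, hT⟩ := mean_far hK
  refine Metric.tendsto_nhds.2 fun δ hδ => ?_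
  obtain ⟨L, hL, h1⟩ := mem_cocompact.1 (Metric.tendsto_nhds.1 h0 _ (half_pos hδ))
  obtain ⟨T', hT'⟩ := mean_far hL
  filter_upwards [mean_large (T + 2), mean_large (T' + 2)] with z hz hz'
  have h2 : closedBall z 1 ⊆ ball z 2 := closedBall_subset_ball one_lt_two
  have h3 := norm_deriv_le_of_forall_mem_sphere_norm_le one_pos (C := δ / 2) (c := z) (f := h)
    (DifferentiableOn.diffContOnCl (hd.mono (by
      rw [closure_ball _ one_ne_zero]
      exact h2.trans ((hT z T le_rfl hz).trans inter_subset_right))))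
    fun w hw => by
      have := h1 (hT' z T' le_rfl hz' (h2 (sphere_subset_closedBall hw))).2
      rw [mem_ofPred_eq, dist_zero_right] at this
      exact this.le
  rw [dist_zero_right]
  linarith

end Vale.P116B
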