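import Vale.Agent.P116B.Prim
import Vale.Agent.P116B.Mean
import Vale.Agent.P116B.Jan
import Vale.Agent.P116B.Ends2

/-!
# P116B Sqrt

A holomorphic square root. For a cutoff `χ` let `α w = ∫ F' / (F - w) * db χ`. The compact set `F '' tsupport (fderiv χ)` misses `Z`; for `w ∈ Z` and
`w'` close to `w`, `F' / (F - w') - F' / (F - w)` is the derivative of `log ((F - w') / (F - w))` near the support, so `int_deriv_db` gives
`α w' = α w`; hence `α p = α q`. So `prim` applies to `F' / (F - p) - F' / (F - q)` (it tends to zero by `deriv_tendsto`) and gives `L`;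
`(F - p) * exp (-L) / (F - q)` has derivative zero on the connected `Om Q` and tends to one. Take `(F - q) * exp (L / 2)`.
-/

namespace Vale.P116B

open Set Filter Topology MeasureTheory Metric Complex Vale.P116
open scoped ContDiff ComplexConjugate Real ENNReal Gradient

variable {ι : Type} [Fintype ι] {Q U E : ι → Set ℂ} {W : ι → ℂ → ℤ} {c : ι → ℂ} {r ρ s : ι → ℝ}
  {f g h k F G Φ Θ θ φ χ η ξ a b V : ℂ → ℂ} {K A O S Z : Set ℂ} {z p q w : ℂ} {j : ι}
  {R M t L ε : ℝ}

omit [Fintype ι] in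
theorem sqrt_db0 (hz : z ∉ tsupport (fderiv ℝ χ)) : db χ z = 0 :=
  db_of_fderiv (image_eq_zero_of_notMem_tsupport hz)

theorem sqrt_int (hQ : Fam Q) (hF : DifferentiableOn ℂ F (Om Q)) (hχ : LocC Q χ)
    (hw : w ∉ F '' Om Q) : Integrable fun z => deriv F z / (F z - w) * db χ z := by
  have hT : IsCompact (tsupport (fderiv ℝ χ)) := (hχ.1.2.fderiv ℝ).isCompact
  refine IntegrableOn.integrable_of_forall_notMem_eq_zero (s := tsupport (fderiv ℝ χ))
    (ContinuousOn.integrableOn_compact hT ?_) fun z hz => by rw [sqrt_db0 hz, mul_zero]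
  refine (ContinuousOn.mono ?_ hχ.supp).mul hχ.1.db.1.continuous.continuousOn
  exact (hF.deriv hQ.isOpen).continuousOn.div (hF.continuousOn.sub continuousOn_const)
    fun z hz h => hw ⟨z, hz, sub_eq_zero.1 h⟩

theorem sqrt_loc (hQ : Fam Q) (hF : DifferentiableOn ℂ F (Om Q)) (hχ : LocC Q χ)
    (hw : w ∉ F '' Om Q) : ∀ᶠ v in 𝓝 w,
      ∫ z, (deriv F z / (F z - v) * db χ z - deriv F z / (F z - w) * db χ z) = 0 := by
  have hT : IsCompact (tsupport (fderiv ℝ χ)) := (hχ.1.2.fderiv ℝ).isCompact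
  have hI := (hT.image_of_continuousOn (hF.continuousOn.mono hχ.supp)).isClosed.isOpen_compl
  obtain ⟨δ, hδ, hb⟩ := Metric.isOpen_iff.1 hI w fun h => hw (image_mono hχ.supp h)
  filter_upwards [ball_mem_nhds w hδ] with v hv
  let O := Om Q ∩ F ⁻¹' (closedBall w ‖w - v‖)ᶜ
  have hO : IsOpen O :=
    hF.continuousOn.isOpen_inter_preimage hQ.isOpen isClosed_closedBall.isOpen_compl
  have hTO : tsupport (fderiv ℝ χ) ⊆ O := fun z hz => ⟨hχ.supp hz, fun h => by
    refine hb (lt_of_le_of_lt (mem_closedBall.1 h) ?_) ⟨z, hz, rfl⟩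
    rw [norm_sub_rev]
    exact mem_ball_iff_norm.1 hv⟩
  have hd : ∀ z ∈ O, HasDerivAt (fun z => log (1 + (w - v) / (F z - w)))
      (deriv F z / (F z - v) - deriv F z / (F z - w)) z := by
    intro z hz
    have h1 : ‖w - v‖ < ‖F z - w‖ := by
      have := hz.2
      rw [mem_preimage, mem_compl_iff, mem_closedBall_iff_norm, not_le] at this
      exact this
    have h2 : F z - w ≠ 0 := norm_pos_iff.1 ((norm_nonneg _).trans_lt h1)
    have h3 : F z - v ≠ 0 := fun h => by
      rw [sub_eq_zero.1 h, norm_sub_rev] at h1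
      exact lt_irrefl _ h1
    have h4 : 1 + (w - v) / (F z - w) ∈ slitPlane := by
      refine mem_slitPlane_of_norm_lt_one ?_
      rw [norm_div, div_lt_one (norm_pos_iff.2 h2)]
      exact h1
    have h5 := (hF.differentiableAt (hQ.isOpen.mem_nhds hz.1)).hasDerivAt
    refine ((((hasDerivAt_const z (w - v)).fun_div (h5.sub_const w) h2).const_add 1).clog
      h4).congr_deriv ?_
    have h6 : 1 + (w - v) / (F z - w) = (F z - v) / (F z - w) := by field_simp; ring
    rw [h6]
    field_simp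
    ring
  rw [← int_deriv_db hO (fun z hz => (hd z hz).differentiableAt.differentiableWithinAt) hχ.1 hTO]
  refine integral_congr_ae (Eventually.of_forall fun z => ?_)
  by_cases hz : z ∈ O
  · simp only [(hd z hz).deriv]
    ring
  · simp only [sqrt_db0 fun h => hz (hTO h), mul_zero, sub_zero]

theorem sqrt_period (hQ : Fam Q) (hF : DifferentiableOn ℂ F (Om Q)) (hZ : IsPreconnected Z)
    (hZF : Disjoint Z (F '' Om Q)) (hp : p ∈ Z) (hq : q ∈ Z) (hχ : LocC Q χ) :
    ∫ z in Om Q, (deriv F z / (F z - p) - deriv F z / (F z - q)) * db χ z = 0 := by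
  have hn : ∀ w ∈ Z, w ∉ F '' Om Q := fun w hw => disjoint_left.1 hZF hw
  have h := hZ.induction₂' (fun v w => ∫ z, deriv F z / (F z - v) * db χ z =
    ∫ z, deriv F z / (F z - w) * db χ z) (fun w hw => by
      filter_upwards [nhdsWithin_le_nhds (sqrt_loc hQ hF hχ (hn w hw)), self_mem_nhdsWithin]
        with v h1 hv
      rw [integral_sub (sqrt_int hQ hF hχ (hn v hv)) (sqrt_int hQ hF hχ (hn w hw)),
        sub_eq_zero] at h1
      exact ⟨h1.symm, h1⟩) (fun _ _ _ _ _ _ h1 h2 => h1.trans h2) hp hq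
  rw [hχ.int_eq hQ]
  simp only [sub_mul]
  rw [integral_sub (sqrt_int hQ hF hχ (hn p hp)) (sqrt_int hQ hF hχ (hn q hq)), h, sub_self]

theorem sqrt_inv (hF : NormMap K F) (p : ℂ) :
    Tendsto (fun z => (F z - p)⁻¹) (cocompact ℂ) (𝓝 0) := by
  have h1 : Tendsto (fun z => F z - p) (cocompact ℂ) (cocompact ℂ) :=
    (Homeomorph.subRight p).isClosedEmbedding.tendsto_cocompact.comp (normMap_tendsto hF)
  refine tendsto_inv₀_cobounded.comp ?_
  rwa [Metric.cobounded_eq_cocompact]

theorem exists_sqrt (hQ : Fam Q) (hF : NormMap (⋃ j, Q j) F) (hZ : IsPreconnected Z)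
    (hZF : Disjoint Z (F '' Om Q)) (hp : p ∈ Z) (hq : q ∈ Z) :
    ∃ σ : ℂ → ℂ, DifferentiableOn ℂ σ (Om Q) ∧
      ∀ z ∈ Om Q, σ z ^ 2 = (F z - p) * (F z - q) := by
  have hd : DifferentiableOn ℂ F (Om Q) := hF.1
  have hn : ∀ w ∈ Z, ∀ z ∈ Om Q, F z - w ≠ 0 := fun w hw z hz h =>
    disjoint_left.1 hZF hw ⟨z, hz, sub_eq_zero.1 h⟩
  have hev : ∀ᶠ z in cocompact ℂ, z ∈ Om Q := hQ.isCompact.compl_mem_cocompact
  have h1 : Tendsto (deriv F) (cocompact ℂ) (𝓝 1) := by
    have h2 := (deriv_tendsto hQ.isCompact (hF.1.sub differentiableOn_id) hF.2.2).add_const 1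
    rw [zero_add] at h2
    refine h2.congr' ?_
    filter_upwards [hev] with z hz
    rw [((hd.differentiableAt (hQ.isOpen.mem_nhds hz)).hasDerivAt.sub (hasDerivAt_id z)).deriv]
    ring
  obtain ⟨l, hl, hl0⟩ := prim (ξ := fun z => deriv F z / (F z - p) - deriv F z / (F z - q)) hQ
    (((hd.deriv hQ.isOpen).div (hd.sub_const p) (hn p hp)).sub
      ((hd.deriv hQ.isOpen).div (hd.sub_const q) (hn q hq)))
    (by simpa [div_eq_mul_inv] using (h1.mul (sqrt_inv hF p)).sub (h1.mul (sqrt_inv hF q)))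
    fun j χ hχ => sqrt_period hQ hd hZ hZF hp hq hχ.locC
  have hH : ∀ z ∈ Om Q, HasDerivAt (fun z => (F z - p) * exp (-l z) / (F z - q)) 0 z := by
    intro z hz
    have h5 := (hd.differentiableAt (hQ.isOpen.mem_nhds hz)).hasDerivAt
    refine (((h5.sub_const p).fun_mul (hl z hz).fun_neg.cexp).fun_div (h5.sub_const q)
      (hn q hq z hz)).congr_deriv ?_
    have := hn p hp z hz
    have := hn q hq z hz
    field_simp
    ring
  obtain ⟨u, hu⟩ := hQ.isOpen.exists_is_const_of_deriv_eq_zero (om_conn hQ).isPreconnected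
    (fun z hz => (hH z hz).differentiableAt.differentiableWithinAt) fun z hz => (hH z hz).deriv
  have h3 : Tendsto (fun z => (1 + (q - p) * (F z - q)⁻¹) * exp (-l z)) (cocompact ℂ) (𝓝 1) := by
    simpa using (((sqrt_inv hF q).const_mul (q - p)).const_add 1).mul hl0.neg.cexp
  have h4 : u = 1 := by
    refine tendsto_nhds_unique (tendsto_const_nhds (x := u) (f := cocompact ℂ)) (h3.congr' ?_)
    filter_upwards [hev] with z hz
    rw [← hu z hz]
    have := hn q hq z hz
    field_simp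
    ring
  refine ⟨fun z => (F z - q) * exp (l z / 2), (hd.sub_const q).mul
    (DifferentiableOn.cexp fun z hz =>
      ((hl z hz).differentiableAt.div_const 2).differentiableWithinAt), fun z hz => ?_⟩
  have h6 := hu z hz
  rw [h4, div_eq_one_iff_eq (hn q hq z hz)] at h6
  have h7 : exp (l z / 2) ^ 2 * exp (-l z) = 1 := by
    rw [← exp_nat_mul, ← exp_add, ← exp_zero]
    congr 1
    push_cast
    ring
  rw [mul_pow]
  linear_combination (F z - p) * (F z - q) * h7 - (F z - q) * exp (l z / 2) ^ 2 * h6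

end Vale.P116B
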