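import Vale.Agent.P116B.Tent1
import Vale.Agent.P116B.Sqrt

/-!
# P116B Tent2

No tentacles. Let `p ∈ E j` be off the closed disc, `q = c j`, `σ` from `exists_sqrt` with `Z = E j`, and `δ > 0` with `closedBall p δ` disjoint from
`closedBall (c j) (r j + δ)` and from the `E i`, `i ≠ j`. For a real test `ψ` supported in `ball p δ`, `k = ψ (F) * σ` satisfies the hypotheses of `tent1`
(`tent_test`), and `F' * db k = db ψ (F) * ‖F'‖ ^ 2 * σ`. Change variables (`integral_image_eq_integral_abs_det_fderiv_smul`, `jac_eq_det`, `jac_hol`) with the inverse `g`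
of `normMap_inv`: `σ ∘ g` is weakly holomorphic on the ball (a.e. point of it is in the image), so by `Vale.Agent.P128.wey` it agrees a.e. with a holomorphic `H`;
`H ^ 2 = (w - p) * (w - q)` on the ball by continuity; differentiate at `p`.
-/

namespace Vale.P116B

open Set Filter Topology MeasureTheory Metric Complex Vale.P116
open scoped ContDiff ComplexConjugate Real ENNReal Gradient

variable {ι : Type} [Fintype ι] {Q U E : ι → Set ℂ} {W : ι → ℂ → ℤ} {c : ι → ℂ} {r ρ s : ι → ℝ}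
  {f g h k F G Φ Θ θ φ χ η ξ a b V : ℂ → ℂ} {K A O S Z : Set ℂ} {z p q w : ℂ} {j : ι}
  {R M t L ε : ℝ}

omit [Fintype ι] in
theorem Tent2_bd {σ : ℂ → ℂ} (h2 : ∀ z ∈ Om Q, σ z ^ 2 = (F z - p) * (F z - q)) (hθ : Cc θ) :
    ∃ M : ℝ, ∀ z ∈ Om Q, ‖θ (F z) * σ z‖ ≤ M := by
  obtain ⟨M, hM⟩ := (hθ.mul (g := fun w => θ w * ((w - p) * (w - q)))
    (hθ.1.mul ((contDiff_id.sub contDiff_const).mul (contDiff_id.sub contDiff_const)))).bdd
  refine ⟨M + 1, fun z hz => ?_⟩
  have h := hM (F z)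
  rw [← h2 z hz, ← mul_assoc, ← pow_two, ← mul_pow, norm_pow] at h
  nlinarith [sq_nonneg (‖θ (F z) * σ z‖ - 1), sq_nonneg ‖θ (F z) * σ z‖]

omit [Fintype ι] in
theorem Tent2_far (hF : Pre Q F) (hθ : Cc θ) : ∃ R : ℝ, ∀ z, R ≤ ‖z‖ → θ (F z) = 0 := by
  obtain ⟨R₁, h1⟩ := hθ.far
  obtain ⟨R₂, -, h2⟩ := far_one hF.inf
  refine ⟨max R₂ (R₁ + 1), fun z hz => h1 _ ?_⟩
  have h3 := h2 z ((le_max_left _ _).trans hz)
  have h4 := (le_max_right _ _).trans hz
  have h5 := norm_sub_norm_le z (F z)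
  rw [norm_sub_rev] at h5
  linarith

theorem Tent2_db {σ : ℂ → ℂ} (hQ : Fam Q) (hF : Pre Q F) (hσ : DifferentiableOn ℂ σ (Om Q))
    (hθ : Cc θ) (hz : z ∈ Om Q) :
    db (fun z => θ (F z) * σ z) z = db θ (F z) * σ z * conj (deriv F z) := by
  have h1 := hF.hol_at hQ hz
  have h2 : DifferentiableAt ℂ σ z := hσ.differentiableAt (hQ.isOpen.mem_nhds hz)
  have h3 : DifferentiableAt ℝ (fun z => θ (F z)) z :=
    (hθ.diffAt (F z)).comp z (h1.restrictScalars ℝ)
  rw [db_mul h3 (h2.restrictScalars ℝ), db_hol h2, db_comp_hol (hθ.diffAt _) h1]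
  ring

theorem tent_test {σ ψ : ℂ → ℂ} (hQ : Fam Q) (hF : Pre Q F) (hσ : DifferentiableOn ℂ σ (Om Q))
    (h2 : ∀ z ∈ Om Q, σ z ^ 2 = (F z - p) * (F z - q)) (hψ : Cc ψ) :
    Test Q (fun z => ψ (F z) * σ z) ∧ ∃ M : ℝ, ∀ z ∈ Om Q, ‖ψ (F z) * σ z‖ ≤ M := by
  refine ⟨⟨?_, ?_, ?_⟩, Tent2_bd h2 hψ⟩
  · exact (hψ.1.comp_contDiffOn (contDiffOn_hol hQ.isOpen hF.hol)).mul
      (contDiffOn_hol hQ.isOpen hσ)
  · obtain ⟨R, hR⟩ := Tent2_far hF hψ
    exact ⟨R, fun z hz => by simp only [hR z hz, zero_mul]⟩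
  · obtain ⟨R, hR⟩ := Tent2_far hF hψ.db
    obtain ⟨M, hM⟩ := Tent2_bd h2 hψ.db
    have h1 := hF.memLp hQ measurableSet_ball (isBounded_ball (x := (0 : ℂ)) (r := R))
    rw [inter_comm, ← Measure.restrict_restrict measurableSet_ball,
      ← memLp_indicator_iff_restrict measurableSet_ball] at h1
    refine h1.of_le_mul (c := M) (measurable_db _).aestronglyMeasurable ?_
    filter_upwards [ae_restrict_mem hQ.isOpen.measurableSet] with z hz
    rw [Tent2_db hQ hF hσ hψ hz]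
    by_cases h : z ∈ ball (0 : ℂ) R
    · rw [indicator_of_mem h, norm_mul, norm_conj]
      exact mul_le_mul_of_nonneg_right (hM z hz) (norm_nonneg _)
    · rw [indicator_of_notMem h, hR z (not_lt.1 fun h3 => h (mem_ball_zero_iff.2 h3))]
      simp

theorem tent_root {u : ℂ → ℂ} (hR : 0 < R) (hpq : p ≠ q) (hm : AEStronglyMeasurable u volume)
    (h2 : ∀ᵐ w, w ∈ ball p R → u w ^ 2 = (w - p) * (w - q))
    (h : ∀ ψ : ℂ → ℝ, ContDiff ℝ ∞ ψ → HasCompactSupport ψ → tsupport ψ ⊆ ball p R →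
      ∫ w in ball p R, u w * db (fun w => (ψ w : ℂ)) w = 0) : False := by
  have hi : IntegrableOn u (ball p R) := by
    refine Measure.integrableOn_of_bounded (M := R * (R + ‖p - q‖) + 1) measure_ball_lt_top.ne hm
      ?_
    filter_upwards [ae_restrict_mem measurableSet_ball, ae_restrict_of_ae h2] with w hw h3
    have h4 := congrArg norm (h3 hw)
    rw [norm_pow, norm_mul] at h4
    have h5 : ‖w - p‖ < R := mem_ball_iff_norm.1 hw
    have h6 : ‖w - q‖ ≤ R + ‖p - q‖ := (norm_sub_le_norm_sub_add_norm_sub w p q).trans (by linarith)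
    have h7 := mul_le_mul h5.le h6 (norm_nonneg _) hR.le
    nlinarith [sq_nonneg (‖u w‖ - 1), sq_nonneg ‖u w‖]
  obtain ⟨k, hk, hu⟩ := Vale.Agent.P128.wey isOpen_ball hi.locallyIntegrableOn fun ψ h3 h4 h5 => by
    have h6 : ∀ w, u w * ∇ ψ w = 2 * (u w * db (fun w => (ψ w : ℂ)) w) := fun w => by
      rw [grad_eq_db (h3.differentiable (by simp) w), mul_left_comm]
    simp only [h6, integral_const_mul, h ψ h3 h4 h5, mul_zero]
  have he : EqOn (fun w => k w ^ 2) (fun w => (w - p) * (w - q)) (ball p R) := by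
    refine Measure.eqOn_open_of_ae_eq (μ := volume) ?_ isOpen_ball (hk.continuousOn.pow 2)
      (by fun_prop)
    filter_upwards [ae_restrict_mem measurableSet_ball, ae_restrict_of_ae h2,
      ae_restrict_of_ae hu] with w hw h3 h4
    rw [← h4 hw, h3 hw]
  have hb := ball_mem_nhds p hR
  have h3 := (hk.differentiableAt hb).hasDerivAt
  have h4 : k p = 0 := by simpa using he (mem_ball_self hR)
  have h5 := ((h3.fun_pow 2).congr_of_eventuallyEq (he.eventuallyEq_of_mem hb).symm).unique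
    (((hasDerivAt_id' p).sub_const p).fun_mul ((hasDerivAt_id' p).sub_const q))
  rw [h4] at h5
  exact hpq (sub_eq_zero.1 (by simpa using h5.symm))

theorem tent2 (hQ : Fam Q) (hS : Sol Q F r) (hW : Wind Q F W)
    (hc : ∀ j, ∀ᵐ w, W j w = (ball (c j) (r j)).indicator 1 w) (hF : NormMap (⋃ j, Q j) F)
    (hE : Ends Q F E) (hae : ∀ᵐ w, w ∉ ⋃ j, ball (c j) (r j) → w ∈ F '' Om Q)
    (hm : ∀ j, closedBall (c j) (r j) ⊆ E j) (j : ι) : E j ⊆ closedBall (c j) (r j) := by
  intro p hp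
  by_contra hpc
  have hcj : c j ∈ E j := hm j (mem_closedBall_self (hS.r0 j))
  have hZF : Disjoint (E j) (F '' Om Q) := by
    rw [hE.img]
    exact disjoint_compl_right.mono_left (subset_iUnion E j)
  obtain ⟨σ, hσ, h2⟩ := exists_sqrt hQ hF (hE.conn j).isPreconnected hZF hp hcj
  obtain ⟨g, hg, hgF⟩ := normMap_inv hQ.isCompact (om_conn hQ) hF
  have hV : IsOpen (F '' Om Q) := normMap_open hQ.isCompact hF hQ.isOpen Subset.rfl
  obtain ⟨t, ht, htp⟩ := exists_between (not_le.1 fun h => hpc (mem_closedBall.2 h))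
  have hO : ∀ᶠ w in 𝓝 p, w ∉ closedBall (c j) t ∧ ∀ i, i ≠ j → w ∉ E i :=
    (isClosed_closedBall.isOpen_compl.eventually_mem
      fun h => absurd (mem_closedBall.1 h) (not_le.2 htp)).and
      (eventually_all.2 fun i => eventually_imp_distrib_left.2 fun hi =>
        (hE.cpt i).isClosed.isOpen_compl.eventually_mem
          (disjoint_right.1 (hE.disj hi) hp))
  obtain ⟨R, hR, hb⟩ := Metric.eventually_nhds_iff_ball.1 hO
  refine tent_root (u := (F '' Om Q).indicator fun w => σ (g w)) (p := p) (q := c j) hR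
    (fun h => hpc (h ▸ mem_closedBall_self (hS.r0 j))) ?_ ?_ fun ψ h3 h4 h5 => ?_
  · refine (aestronglyMeasurable_indicator_iff hV.measurableSet).2
      (ContinuousOn.aestronglyMeasurable ?_ hV.measurableSet)
    have h3 : ContinuousOn g (F '' Om Q) := by
      have h4 := hg.1.continuousOn
      rwa [compl_compl] at h4
    refine hσ.continuousOn.comp h3 ?_
    rintro _ ⟨z, hz, rfl⟩
    rwa [hgF z hz]
  · filter_upwards [hae] with w h3 hw
    obtain ⟨z, hz, rfl⟩ := h3 fun h4 => by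
      obtain ⟨i, hi⟩ := mem_iUnion.1 h4
      by_cases hij : i = j
      · subst hij
        exact (hb w hw).1 (ball_subset_closedBall.trans (closedBall_subset_closedBall ht.le) hi)
      · exact (hb w hw).2 i hij (hm i (ball_subset_closedBall hi))
    rw [indicator_of_mem (mem_image_of_mem F hz), hgF z hz, h2 z hz]
  · have hθ := cc_ofReal h3 h4
    obtain ⟨t1, t2⟩ := tent_test hQ hS.pre hσ h2 hθ
    have h0 : ∀ w, w ∉ tsupport ψ → (ψ w : ℂ) = 0 := fun w hw => by
      rw [image_eq_zero_of_notMem_tsupport hw, ofReal_zero]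
    have e := tent1 hQ hS hW (hc j) t1 t2 (fun i hi => by
      have h6 : ∀ᶠ w in 𝓝ˢ (E i), w ∉ tsupport ψ :=
        (isClosed_tsupport ψ).isOpen_compl.mem_nhdsSet.2 fun w hw h7 => (hb w (h5 h7)).2 i hi hw
      filter_upwards [eventually_inf_principal.1 ((hE.lim i).eventually h6)] with z h7 hz
      rw [h0 _ (h7 hz), zero_mul])
      ⟨t - r j, sub_pos.2 ht, fun z _ h6 => by
        rw [add_sub_cancel] at h6
        rw [h0 _ fun h7 => (hb _ (h5 h7)).1 (ball_subset_closedBall h6), zero_mul]⟩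
    rw [setIntegral_eq_integral_of_forall_compl_eq_zero fun w hw => by
      rw [db_notMem fun h6 => hw (h5 (tsupport_ofReal ψ ▸ h6)), mul_zero]]
    have h6 : ∀ w, (F '' Om Q).indicator (fun w => σ (g w)) w * db (fun w => (ψ w : ℂ)) w =
        (F '' Om Q).indicator (fun w => σ (g w) * db (fun w => (ψ w : ℂ)) w) w := fun w =>
      (indicator_mul_left _ _ _).symm
    simp only [h6]
    rw [integral_indicator hV.measurableSet, integral_image_eq_integral_abs_det_fderiv_smul volume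
      hQ.isOpen.measurableSet (f' := fderiv ℝ F) (fun z hz =>
        ((hS.pre.hol_at hQ hz).restrictScalars ℝ).hasFDerivAt.hasFDerivWithinAt) hF.2.1, ← e]
    refine setIntegral_congr_fun hQ.isOpen.measurableSet fun z hz => ?_
    rw [Tent2_db hQ hS.pre hσ hθ hz, ← jac_eq_det, jac_hol (hS.pre.hol_at hQ hz), hgF z hz,
      abs_of_nonneg (sq_nonneg _), real_smul, ofReal_pow, ← mul_conj']
    ring

end Vale.P116B
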