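import Vale.Agent.P116B.Jan

/-!
# P116B Univ

Univalence. `F` is not constant on the connected open set `Om Q`, so it is open there (`AnalyticOnNhd.is_constant_or_isOpen`). A nonempty open
set has positive measure. Almost every point has at most one preimage, almost every point of a disc has none and almost every point off the discs
has one.
-/

namespace Vale.P116B

open Set Filter Topology MeasureTheory Metric Complex Vale.P116
open scoped ContDiff ComplexConjugate Real ENNReal Gradient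

variable {ι : Type} [Fintype ι] {Q U E : ι → Set ℂ} {W : ι → ℂ → ℤ} {c : ι → ℂ} {r ρ s : ι → ℝ}
  {f g h k F G Φ Θ θ φ χ η ξ a b V : ℂ → ℂ} {K A O S Z : Set ℂ} {z p q w : ℂ} {j : ι}
  {R M t L ε : ℝ}

theorem univ_isOpen (hQ : Fam Q) : IsOpen (Om Q) :=
  (isCompact_iUnion hQ.cpt).isClosed.isOpen_compl

theorem univ_open (hQ : Fam Q) (hF : Pre Q F) : ∀ s ⊆ Om Q, IsOpen s → IsOpen (F '' s) := by
  refine ((hF.hol.analyticOnNhd (univ_isOpen hQ)).is_constant_or_isOpen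
    (om_conn hQ).isPreconnected).resolve_left ?_
  rintro ⟨w, hw⟩
  have h1 : Tendsto (fun z : ℂ => w - z) (cocompact ℂ) (𝓝 0) := by
    refine hF.inf.congr' ?_
    filter_upwards [(isCompact_iUnion hQ.cpt).compl_mem_cocompact] with z hz
    rw [hw z hz]
  have h2 : Tendsto (fun z : ℂ => ‖z‖) (cocompact ℂ) (𝓝 ‖w‖) := by
    simpa using (h1.const_sub w).norm
  exact not_tendsto_nhds_of_tendsto_atTop (tendsto_norm_cocompact_atTop (E := ℂ)) _ h2



theorem univalent (hQ : Fam Q) (hF : Pre Q F) (h2 : W2 Q F W)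
    (hc : ∀ j, ∀ᵐ w, W j w = (ball (c j) (r j)).indicator 1 w) :
    InjOn F (Om Q) ∧ (∀ j, 0 < r j → Disjoint (closedBall (c j) (r j)) (F '' Om Q)) ∧
      ∀ᵐ w, w ∉ ⋃ j, ball (c j) (r j) → w ∈ F '' Om Q := by
  have hop := univ_open hQ hF
  have hO := univ_isOpen hQ
  have key : ∀ᵐ w, ∃ m : ℕ, (Om Q ∩ F ⁻¹' {w}).encard = m ∧
      (m : ℤ) + ∑ j, (ball (c j) (r j)).indicator (1 : ℂ → ℤ) w = 1 := by
    filter_upwards [h2, ae_all_iff.2 hc] with w h1 h3
    simpa only [h3] using h1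
  have hd := Measure.dense_of_ae key
  have hn : ∀ w j, (0 : ℤ) ≤ (ball (c j) (r j)).indicator (1 : ℂ → ℤ) w := fun w j =>
    indicator_nonneg (fun _ _ => zero_le_one) w
  refine ⟨fun x hx y hy hxy => ?_, fun j hj => ?_, ?_⟩
  · by_contra hne
    obtain ⟨u, v, hu, hv, hxu, hyv, huv⟩ := t2_separation hne
    obtain ⟨w, ⟨m, hm, hs⟩, ⟨a, ha, haw⟩, ⟨b, hb, hbw⟩⟩ := hd.exists_mem_open
      ((hop _ inter_subset_left (hO.inter hu)).inter (hop _ inter_subset_left (hO.inter hv)))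
      ⟨F x, ⟨x, ⟨hx, hxu⟩, rfl⟩, ⟨y, ⟨hy, hyv⟩, hxy.symm⟩⟩
    have h1 : 1 < (Om Q ∩ F ⁻¹' {w}).encard := one_lt_encard_iff.2
      ⟨a, b, ⟨ha.1, haw⟩, ⟨hb.1, hbw⟩, fun hab => disjoint_left.1 huv ha.2 (hab ▸ hb.2)⟩
    rw [hm] at h1
    have h3 : 1 < m := by exact_mod_cast h1
    have h4 := Finset.sum_nonneg fun j (_ : j ∈ Finset.univ) => hn w j
    omega
  · rw [← closure_ball _ hj.ne']
    refine Disjoint.closure_left (disjoint_left.2 fun x hx hxF => ?_) (hop _ Subset.rfl hO)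
    obtain ⟨w, ⟨m, hm, hs⟩, hw, a, ha, haw⟩ := hd.exists_mem_open
      (isOpen_ball.inter (hop _ Subset.rfl hO)) ⟨x, hx, hxF⟩
    have h1 : (Om Q ∩ F ⁻¹' {w}).encard ≠ 0 := encard_ne_zero.2 ⟨a, ha, haw⟩
    rw [hm] at h1
    have h3 : m ≠ 0 := by exact_mod_cast h1
    have h4 := Finset.single_le_sum (fun j (_ : j ∈ Finset.univ) => hn w j) (Finset.mem_univ j)
    rw [indicator_of_mem hw, Pi.one_apply] at h4
    omega
  · filter_upwards [key] with w ⟨m, hm, hs⟩ hw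
    rw [Finset.sum_eq_zero fun j _ => indicator_of_notMem (fun h => hw (mem_iUnion.2 ⟨j, h⟩)) _]
      at hs
    have h3 : m ≠ 0 := by omega
    have h1 : (Om Q ∩ F ⁻¹' {w}).encard ≠ 0 := by
      rw [hm]
      exact_mod_cast h3
    obtain ⟨a, ha, haw⟩ := encard_ne_zero.1 h1
    exact ⟨a, ha, haw⟩

end Vale.P116B
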