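import Vale.Agent.P116B.Cutoff
import Vale.Agent.P116B.AF

/-!
# P116B Wind0

Construction of the frame and of the winding functions. `U j = thickening δ (Q j)`, `κ = ∑ κ j`, `A = ⋃ tsupport (κ j)`,
`g = (1 - κ) * F` (`ext0`). `W j = n⁺ - n⁻ - n` where `n⁺`, `n⁻` come from `area_formula` for `g` on `U j ∩ {0 < jac g}` and
`U j ∩ {jac g < 0}`, and `n` from `area_formula` for `F` on `U j \ Q j` (a subset of `Om Q`; `jac_hol`, `Pre.int_sq`).
-/

namespace Vale.P116B

open Set Filter Topology MeasureTheory Metric Complex Vale.P116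
open scoped ContDiff ComplexConjugate Real ENNReal Gradient

variable {ι : Type} [Fintype ι] {Q U E : ι → Set ℂ} {W : ι → ℂ → ℤ} {c : ι → ℂ} {r ρ s : ι → ℝ}
  {f g h k F G Φ Θ θ φ χ η ξ a b V : ℂ → ℂ} {K A O S Z : Set ℂ} {z p q w : ℂ} {j : ι}
  {R M t L ε : ℝ}

theorem exists_frame (hQ : Fam Q) (hF : Pre Q F) :
    ∃ (U : ι → Set ℂ) (A : Set ℂ) (g : ℂ → ℂ), Frame Q F U A g := by
  classical
  obtain ⟨δ, hδ, hd⟩ := hQ.exists_thick
  choose κ hκ _ hs using fun j =>
    hQ.exists_Cut j isOpen_thickening (self_subset_thickening hδ (Q j))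
  refine ⟨fun j => thickening δ (Q j), ⋃ j, tsupport (κ j), fun z => (1 - ∑ j, κ j z) * F z,
    fun _ => isOpen_thickening, fun j => (hQ.cpt j).isBounded.thickening, fun i j h =>
      (hd h).mono (thickening_subset_cthickening _ _) (thickening_subset_cthickening _ _),
    fun j => self_subset_thickening hδ _, isCompact_iUnion fun j => (hκ j).1.2,
    fun j z hz => mem_iUnion.2 ⟨j, subset_tsupport _ ?_⟩, iUnion_mono hs,
    ext0 hQ.isOpen (contDiff_const.sub (Cc.sum fun j => (hκ j).1).1) (supp_of_zero fun j => ?_)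
      (contDiffOn_hol hQ.isOpen hF.hol), fun z hz => ?_⟩
  · rw [Function.mem_support, (hκ j).2.1.self_of_nhdsSet z hz]
    exact one_ne_zero
  · have h : ∀ i, ∀ᶠ z in 𝓝ˢ (Q j), κ i z = if i = j then 1 else 0 := fun i => by
      split_ifs with h
      exacts [h ▸ (hκ i).2.1, (hκ i).2.2 j (Ne.symm h)]
    filter_upwards [eventually_all.2 h] with z hz
    simp [hz]
  · have h : ∀ j, κ j z = 0 := fun j =>
      image_eq_zero_of_notMem_tsupport fun h => hz (mem_iUnion.2 ⟨j, h⟩)
    simp [h]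

theorem wind0_int {n : ℂ → ℕ} (hn : Integrable fun w => (n w : ℝ)) (hθ : Measurable θ)
    (hM : ∀ w, ‖θ w‖ ≤ M) : Integrable fun w => θ w * (n w : ℂ) := by
  simpa only [coe_algebraMap, ofReal_natCast] using
    (hn.ofReal (𝕜 := ℂ)).bdd_mul hθ.aestronglyMeasurable (.of_forall hM)

theorem exists_w0 (hQ : Fam Q) (hF : Pre Q F) (hU : Frame Q F U A g) :
    ∃ W : ι → ℂ → ℤ, W0 Q F U g W := by
  unfold W0
  refine Classical.skolem (p := fun j (V : ℂ → ℤ) => Measurable V ∧
    Integrable (fun w => (V w : ℝ)) ∧ ∀ θ : ℂ → ℂ, Measurable θ → (∃ M : ℝ, ∀ w, ‖θ w‖ ≤ M) →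
      ∫ w, (V w : ℂ) * θ w = (∫ z in U j, θ (g z) * (jac g z : ℂ)) -
        ∫ z in U j \ Q j, θ (F z) * ((‖deriv F z‖ ^ 2 : ℝ) : ℂ)).1 fun j => ?_
  have hm := (hU.op j).measurableSet
  have hT : MeasurableSet {z | 0 ≤ jac g z} := measurableSet_le measurable_const (measurable_jac g)
  have hg := fun z => hU.sm.differentiable (by simp) z
  have hi : IntegrableOn (jac g) (U j) := ((continuous_jac hU.sm).continuousOn.integrableOn_compact
    (hU.bd j).isCompact_closure).mono_set subset_closure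
  have hm' := hm.diff (hQ.cpt j).measurableSet
  have hO : U j \ Q j ⊆ Om Q := fun z hz => mem_Om.2 fun i hi => by
    by_cases h : i = j
    exacts [hz.2 (h ▸ hi), disjoint_left.1 (hU.disj h) (hU.sub i hi) hz.1]
  have hF' := fun z hz => hF.hol_at hQ (z := z) (hO hz)
  obtain ⟨n1, m1, i1, -, e1⟩ := area_formula (hm.inter hT) (fun z _ => hg z)
    (hi.mono_set inter_subset_left)
  obtain ⟨n2, m2, i2, -, e2⟩ := area_formula (hm.diff hT) (fun z _ => hg z)
    (hi.mono_set diff_subset)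
  obtain ⟨n3, m3, i3, -, e3⟩ := area_formula hm' (fun z hz => (hF' z hz).restrictScalars ℝ)
    (((hF.int_sq hQ hm (hU.bd j)).mono_set fun z hz => ⟨hO hz, hz.1⟩).congr_fun
      (fun z hz => (jac_hol (hF' z hz)).symm) hm')
  have hc : Measurable fun n : ℕ => (n : ℤ) := .of_discrete
  refine ⟨fun w => n1 w - n2 w - n3 w, ((hc.comp m1).sub (hc.comp m2)).sub (hc.comp m3), ?_,
    fun θ hθ ⟨M, hM⟩ => ?_⟩
  · push_cast
    exact (i1.sub i2).sub i3
  · have j1 := wind0_int i1 hθ hM
    have j2 := wind0_int i2 hθ hM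
    have h1 := integral_sub (j1.sub j2) (wind0_int i3 hθ hM)
    have h2 : IntegrableOn (fun z => θ (g z) * (jac g z : ℂ)) (U j) :=
      (hi.ofReal (𝕜 := ℂ)).bdd_mul (hθ.comp hU.sm.continuous.measurable).aestronglyMeasurable
        (.of_forall fun z => hM _)
    simp only [Pi.sub_apply] at h1
    rw [integral_sub j1 j2, ← e1 θ hθ ⟨M, hM⟩, ← e2 θ hθ ⟨M, hM⟩, ← e3 θ hθ ⟨M, hM⟩] at h1
    rw [← integral_inter_add_diff hT h2]
    refine (integral_congr_ae (.of_forall fun w => by push_cast; ring)).trans (h1.trans ?_)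
    rw [sub_eq_add_neg (integral _ _), ← integral_neg]
    congr 1
    · congr 1
      · exact setIntegral_congr_fun (hm.inter hT) fun z hz => by
          simp only [abs_of_nonneg (show 0 ≤ jac g z from hz.2)]
      · exact setIntegral_congr_fun (hm.diff hT) fun z hz => by
          simp only [abs_of_neg (show jac g z < 0 from not_le.1 hz.2), ofReal_neg, mul_neg, neg_neg]
    · exact setIntegral_congr_fun hm' fun z hz => by
        simp only [jac_hol (hF' z hz), abs_of_nonneg (sq_nonneg ‖deriv F z‖)]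

end Vale.P116B
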