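import Vale.Agent.P116B.NL2

/-!
# P116B Wind1

Take `χ₀` equal to one near the compact set `A ∩ U j = A \ ⋃ i ≠ j, U i` with support in `U j`. The function `(χ - χ₀) * Θ (F)` is `Cc` with
support in `Om Q`, so `int_hol_db` reduces to `χ₀`. Where `fderiv χ₀ ≠ 0` we are off `A`, where `g = F` nearby; `nl4` gives
`-∫ F' * db χ₀ * Θ (F) = ∫ χ₀ * db Θ (g) * jac g`. Finally on `U j \ A` the integrands `db Θ (g) * jac g` and `db Θ (F) * ‖F'‖ ^ 2` agree and
on `A ∩ U j` we have `χ₀ = 1`.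
-/

namespace Vale.P116B

open Set Filter Topology MeasureTheory Metric Complex Vale.P116
open scoped ContDiff ComplexConjugate Real ENNReal Gradient

variable {ι : Type} [Fintype ι] {Q U E : ι → Set ℂ} {W : ι → ℂ → ℤ} {c : ι → ℂ} {r ρ s : ι → ℝ}
  {f g h k F G Φ Θ θ φ χ η ξ a b V : ℂ → ℂ} {K A O S Z : Set ℂ} {z p q w : ℂ} {j : ι}
  {R M t L ε : ℝ}

theorem wind1_cut (hQ : Fam Q) (hF : Pre Q F) (h1 : Cut Q j χ) (h2 : Cut Q j η)
    (hΘ : ContDiff ℝ ∞ Θ) (hb : ∃ M : ℝ, ∀ w, ‖db Θ w‖ ≤ M) :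
    ∫ z in Om Q, deriv F z * db (fun z => χ z * Θ (F z)) z =
      ∫ z in Om Q, deriv F z * db (fun z => η z * Θ (F z)) z := by
  have hO := hQ.isOpen
  have hs : tsupport (fun z => χ z - η z) ⊆ Om Q := supp_of_zero fun i => by
    by_cases hi : i = j
    · subst hi
      filter_upwards [h1.2.1, h2.2.1] with z e e'
      rw [e, e', sub_self]
    · filter_upwards [h1.2.2 i hi, h2.2.2 i hi] with z e e'
      rw [e, e', sub_self]
  have hc : Cc fun z => (χ z - η z) * Θ (F z) :=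
    (h1.1.sub h2.1).mul_on hO hs (hΘ.comp_contDiffOn (contDiffOn_hol hO hF.hol))
  have hs' : tsupport (fun z => (χ z - η z) * Θ (F z)) ⊆ Om Q :=
    (tsupport_mul_subset_left (f := fun z => χ z - η z) (g := fun z => Θ (F z))).trans hs
  have h0 := int_hol_db hO (hF.hol.deriv hO) hc hs'
  have t1 := test_comp hQ hF h1.locC hΘ hb
  have t2 := test_comp hQ hF h2.locC hΘ hb
  rw [← setIntegral_eq_integral_of_forall_compl_eq_zero (s := Om Q) fun z hz => by
    rw [db_notMem fun e => hz (hs' e), mul_zero]] at h0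
  rw [← sub_eq_zero, ← integral_sub (t1.int_mul hQ hF.l2) (t2.int_mul hQ hF.l2), ← h0]
  refine setIntegral_congr_fun hO.measurableSet fun z hz => ?_
  simp only [sub_mul]
  rw [db_sub (t1.diffAt hQ hz) (t2.diffAt hQ hz), mul_sub]

theorem wind1_off (hQ : Fam Q) (hF : Pre Q F) (hU : Frame Q F U A g) (hz : z ∉ A) :
    g z = F z ∧ db g z = 0 ∧ dz g z = deriv F z ∧ jac g z = ‖deriv F z‖ ^ 2 := by
  have h1 : g =ᶠ[𝓝 z] F := by
    filter_upwards [hU.cA.isClosed.isOpen_compl.mem_nhds hz] with w hw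
    exact hU.eq w hw
  have h2 := hF.hol_at hQ (mem_Om.2 fun i hi => hz (hU.QA i hi))
  exact ⟨hU.eq z hz, (db_congr h1).trans (db_hol h2), (dz_congr h1).trans (dz_hol h2),
    (jac_congr h1).trans (jac_hol h2)⟩

theorem wind1_ex (hU : Frame Q F U A g) (j : ι) :
    ∃ η : ℂ → ℂ, Cut Q j η ∧ Unit01 η ∧ tsupport η ⊆ U j ∧ (∀ z ∈ A, z ∈ U j → η z = 1) ∧
      ∀ z ∈ A, fderiv ℝ η z = 0 := by
  have hc : IsCompact (A \ ⋃ i ∈ {i | i ≠ j}, U i) :=
    hU.cA.diff (isOpen_biUnion fun i _ => hU.op i)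
  have hs : A \ ⋃ i ∈ {i | i ≠ j}, U i ⊆ U j := fun z hz => by
    obtain ⟨i, hi⟩ := mem_iUnion.1 (hU.AU hz.1)
    by_cases e : i = j
    · exact e ▸ hi
    · exact absurd (mem_biUnion e hi) hz.2
  have hm : ∀ z ∈ A, z ∈ U j → z ∈ A \ ⋃ i ∈ {i | i ≠ j}, U i := fun z hz hj =>
    ⟨hz, fun e => by
      obtain ⟨i, hi, e'⟩ := mem_iUnion₂.1 e
      exact Set.disjoint_left.1 (hU.disj hi) e' hj⟩
  obtain ⟨η, h1, h2, h3, h4⟩ := exists_cut hc (hU.op j) hs
  have h5 : ∀ i, i ≠ j → ∀ z ∈ U i, ∀ᶠ w in 𝓝 z, η w = 0 := fun i hi z hz => by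
    filter_upwards [(hU.op i).mem_nhds hz] with w hw
    exact image_eq_zero_of_notMem_tsupport fun e => Set.disjoint_left.1 (hU.disj hi) hw (h3 e)
  refine ⟨η, ⟨h1, h4.filter_mono (nhdsSet_mono fun z hz => hm z (hU.QA j hz) (hU.sub j hz)),
    fun i hi => eventually_nhdsSet_iff_forall.2 fun z hz => h5 i hi z (hU.sub i hz)⟩, h2, h3,
    fun z hz hj => h4.self_of_nhdsSet z (hm z hz hj), fun z hz => ?_⟩
  obtain ⟨i, hi⟩ := mem_iUnion.1 (hU.AU hz)
  by_cases e : i = j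
  · have : η =ᶠ[𝓝 z] fun _ => 1 := eventually_nhdsSet_iff_forall.1 h4 z (hm z hz (e ▸ hi))
    rw [this.fderiv_eq, fderiv_fun_const, Pi.zero_apply]
  · have : η =ᶠ[𝓝 z] fun _ => 0 := h5 i e z hi
    rw [this.fderiv_eq, fderiv_fun_const, Pi.zero_apply]

theorem wind1_split (hQ : Fam Q) (hF : Pre Q F) (hU : Frame Q F U A g) (h2 : Cut Q j η)
    (h0 : ∀ z ∈ A, fderiv ℝ η z = 0) (hΘ : ContDiff ℝ ∞ Θ) (hb : ∃ M : ℝ, ∀ w, ‖db Θ w‖ ≤ M) :
    -∫ z in Om Q, deriv F z * db (fun z => η z * Θ (F z)) z =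
      (∫ z, η z * (db Θ (g z) * (jac g z : ℂ))) -
        ∫ z in Om Q, η z * (db Θ (F z) * ((‖deriv F z‖ ^ 2 : ℝ) : ℂ)) := by
  have hO := hQ.isOpen
  have t2 := test_comp hQ hF h2.locC hΘ hb
  have hi : Integrable fun z => Θ (g z) * (db η z * dz g z - dz η z * db g z) := by
    have := (((h2.1.db.mul (contDiff_dz hU.sm)).sub (h2.1.dz.mul (contDiff_db hU.sm))).mul
      (hΘ.comp hU.sm)).integrable
    exact this.congr (Eventually.of_forall fun z => mul_comm _ _)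
  have e1 : ∫ z in Om Q, Θ (g z) * (db η z * dz g z - dz η z * db g z) =
      -∫ z, η z * (db Θ (g z) * (jac g z : ℂ)) := by
    rw [← nl4 h2.1 hΘ hU.sm]
    refine setIntegral_eq_integral_of_forall_compl_eq_zero fun z hz => ?_
    have hA : z ∈ A := by
      by_contra hn
      exact hz (mem_Om.2 fun i hi => hn (hU.QA i hi))
    rw [db_of_fderiv (h0 z hA), dz_of_fderiv (h0 z hA), zero_mul, zero_mul, sub_zero, mul_zero]
  have e2 : ∫ z in Om Q, η z * (db Θ (F z) * ((‖deriv F z‖ ^ 2 : ℝ) : ℂ)) =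
      (∫ z in Om Q, deriv F z * db (fun z => η z * Θ (F z)) z) -
        ∫ z in Om Q, Θ (g z) * (db η z * dz g z - dz η z * db g z) := by
    rw [← integral_sub (t2.int_mul hQ hF.l2) hi.integrableOn]
    refine setIntegral_congr_fun hO.measurableSet fun z hz => ?_
    have d1 := hF.hol_at hQ hz
    have d2 : DifferentiableAt ℝ Θ (F z) := hΘ.differentiable (by simp) _
    have d3 : DifferentiableAt ℝ (fun z => Θ (F z)) z := d2.comp z (d1.restrictScalars ℝ)
    have d4 : ((‖deriv F z‖ ^ 2 : ℝ) : ℂ) = deriv F z * conj (deriv F z) := by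
      rw [Complex.mul_conj, Complex.normSq_eq_norm_sq]
    rw [db_mul (h2.1.diffAt z) d3, db_comp_hol d2 d1, d4]
    by_cases hA : z ∈ A
    · rw [db_of_fderiv (h0 z hA), dz_of_fderiv (h0 z hA)]
      ring
    · obtain ⟨a1, a2, a3, -⟩ := wind1_off hQ hF hU hA
      rw [a1, a2, a3]
      ring
  rw [e2, e1]
  ring

theorem wind1 (hQ : Fam Q) (hF : Pre Q F) (hU : Frame Q F U A g) (hW : W0 Q F U g W) :
    W1 Q F W := by
  intro j χ Θ hχ hΘ hb
  obtain ⟨η, h1, h2, h3, h4, h5⟩ := wind1_ex hU j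
  rw [wind1_cut hQ hF hχ h1 hΘ hb, wind1_split hQ hF hU h1 h5 hΘ hb,
    (hW j).2.2 _ (measurable_db Θ) hb]
  have hO := hQ.isOpen
  have mU := (hU.op j).measurableSet
  have mQ := (hQ.cpt j).measurableSet
  have hη : ∀ z, z ∉ U j → η z = 0 := fun z hz =>
    image_eq_zero_of_notMem_tsupport fun e => hz (h3 e)
  have eS : Om Q ∩ U j = U j \ Q j := by
    ext z
    refine ⟨fun h => ⟨h.2, mem_Om.1 h.1 j⟩, fun h => ⟨mem_Om.2 fun i hi => ?_, h.1⟩⟩
    by_cases e : i = j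
    · exact h.2 (e ▸ hi)
    · exact Set.disjoint_left.1 (hU.disj e) (hU.sub i hi) h.1
  have sS : U j \ Q j ⊆ Om Q := eS ▸ inter_subset_left
  have cη := h1.1.1.continuous
  have cΘ := (contDiff_db hΘ).continuous
  have ip : IntegrableOn (fun z => db Θ (g z) * (jac g z : ℂ)) (U j) :=
    ((cΘ.comp hU.sm.continuous).mul (continuous_ofReal.comp
      (continuous_jac hU.sm))).continuousOn.integrableOn_compact
      (hU.bd j).isCompact_closure |>.mono_set subset_closure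
  have iq : IntegrableOn (fun z => db Θ (F z) * ((‖deriv F z‖ ^ 2 : ℝ) : ℂ)) (U j \ Q j) := by
    obtain ⟨M, hM⟩ := hb
    have := hF.int_sq hQ mU (hU.bd j)
    rw [eS] at this
    exact Integrable.bdd_mul this.ofReal ((cΘ.comp_continuousOn
      (hF.hol.continuousOn.mono sS)).aestronglyMeasurable (mU.diff mQ))
      (Eventually.of_forall fun z => hM _)
  have ip' := Integrable.bdd_mul ip cη.aestronglyMeasurable
    (Eventually.of_forall fun z => h2.norm_le z)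
  have iq' := Integrable.bdd_mul iq cη.aestronglyMeasurable
    (Eventually.of_forall fun z => h2.norm_le z)
  have e1 : ∫ z, η z * (db Θ (g z) * (jac g z : ℂ)) =
      ∫ z in U j, η z * (db Θ (g z) * (jac g z : ℂ)) :=
    (setIntegral_eq_integral_of_forall_compl_eq_zero fun z hz => by rw [hη z hz, zero_mul]).symm
  have e2 : ∫ z in Om Q, η z * (db Θ (F z) * ((‖deriv F z‖ ^ 2 : ℝ) : ℂ)) =
      ∫ z in U j \ Q j, η z * (db Θ (F z) * ((‖deriv F z‖ ^ 2 : ℝ) : ℂ)) :=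
    setIntegral_eq_of_subset_of_forall_sdiff_eq_zero hO.measurableSet sS fun z hz => by
      rw [hη z fun e => hz.2 ⟨e, mem_Om.1 hz.1 j⟩, zero_mul]
  have e3 : ∫ z in U j, (db Θ (g z) * (jac g z : ℂ) - η z * (db Θ (g z) * (jac g z : ℂ))) =
      ∫ z in U j \ Q j, (db Θ (F z) * ((‖deriv F z‖ ^ 2 : ℝ) : ℂ) -
        η z * (db Θ (F z) * ((‖deriv F z‖ ^ 2 : ℝ) : ℂ))) := by
    rw [setIntegral_eq_of_subset_of_forall_sdiff_eq_zero mU (sdiff_subset (t := Q j)) fun z hz => by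
      rw [h4 z (hU.QA j (not_not.1 fun e => hz.2 ⟨hz.1, e⟩)) hz.1, one_mul, sub_self]]
    refine setIntegral_congr_fun (mU.diff mQ) fun z hz => ?_
    by_cases hA : z ∈ A
    · rw [h4 z hA hz.1, one_mul, one_mul, sub_self, sub_self]
    · obtain ⟨a1, -, -, a4⟩ := wind1_off hQ hF hU hA
      rw [a1, a4]
  rw [integral_sub ip ip', integral_sub iq iq'] at e3
  rw [e1, e2]
  linear_combination -e3

end Vale.P116B
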