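import Vale.Agent.P116B.NL2
import Vale.Agent.P116B.AF

/-!
# P116B Wind2

Fix `T : ℕ`. Take `R ≥ T + 1` with all `U j ⊆ ball 0 R` and `‖F z - z‖ ≤ 1` for `R ≤ ‖z‖`, `η` from `exists_eta`, `G = z + η * (g - z)`, and `n` from
`area_formula` for `F` on `Om Q ∩ ball 0 R`. For a test function `θ` supported in `ball 0 T`, `nl2` for `G` gives
`∫ θ = ∑ j, ∫ W j * θ + ∫ θ * n`. Conclude with `IsOpen.ae_eq_zero_of_integral_contDiff_smul_eq_zero` on `ball 0 T`; preimages of points of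
`ball 0 T` lie in `ball 0 R`. Countable union over `T`.
-/

namespace Vale.P116B

open Set Filter Topology MeasureTheory Metric Complex Vale.P116
open scoped ContDiff ComplexConjugate Real ENNReal Gradient

variable {ι : Type} [Fintype ι] {Q U E : ι → Set ℂ} {W : ι → ℂ → ℤ} {c : ι → ℂ} {r ρ s : ι → ℝ}
  {f g h k F G Φ Θ θ φ χ η ξ a b V : ℂ → ℂ} {K A O S Z : Set ℂ} {z p q w : ℂ} {j : ι}
  {R M t L ε : ℝ}

theorem wind2_split (ho : ∀ j, IsOpen (U j)) (hd : Pairwise (Function.onFun Disjoint U))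
    (hS : MeasurableSet S) (hf : IntegrableOn f S) :
    ∫ z in S, f z = ∑ j, (∫ z in S ∩ U j, f z) + ∫ z in S \ ⋃ j, U j, f z := by
  rw [← integral_inter_add_sdiff (isOpen_iUnion ho).measurableSet hf, inter_iUnion,
    integral_iUnion_fintype (fun j => hS.inter (ho j).measurableSet)
      (hd.mono fun i j h => h.mono inter_subset_right inter_subset_right)
      fun j => hf.mono_set inter_subset_left]

theorem wind2_ball (hU : Frame Q F U A g) (hR : 0 < R) (hB : ∀ j, U j ⊆ ball 0 R)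
    (h1 : ∀ z, R ≤ ‖z‖ → ‖F z - z‖ ≤ 1) (hθ : Cc θ) (h0 : ∀ w, R - 1 ≤ ‖w‖ → θ w = 0) :
    ∫ w, θ w = ∫ z in ball 0 R, θ (g z) * (jac g z : ℂ) := by
  obtain ⟨C, -, hC⟩ := exists_eta
  obtain ⟨η, e1, e2, e3, e4, -⟩ := hC R hR
  have hG : ContDiff ℝ ∞ fun z => z + η z * (g z - z) :=
    contDiff_id.add (e1.1.mul (hU.sm.sub contDiff_id))
  rw [← nl2 hG (R := 2 * R) (fun z hz => by rw [e4 z hz, zero_mul, add_zero]) hθ,
    ← setIntegral_eq_integral_of_forall_compl_eq_zero (s := ball 0 R)]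
  · refine setIntegral_congr_fun measurableSet_ball fun z hz => ?_
    have e : (fun z => z + η z * (g z - z)) =ᶠ[𝓝 z] g :=
      (isOpen_ball.eventually_mem hz).mono fun w hw => by
        simp [e3 w (mem_ball_zero_iff.1 hw).le]
    simp only [jac_congr e, e.self_of_nhds]
  · intro z hz
    have hz' : R ≤ ‖z‖ := not_lt.1 fun h => hz (mem_ball_zero_iff.2 h)
    have h2 : g z = F z := hU.eq z fun h => hz (iUnion_subset hB (hU.AU h))
    have h3 : ‖η z * (g z - z)‖ ≤ 1 := by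
      rw [norm_mul, h2]
      exact mul_le_one₀ (e2.norm_le z) (norm_nonneg _) (h1 z hz')
    have h4 := norm_sub_le (z + η z * (g z - z)) (η z * (g z - z))
    rw [add_sub_cancel_right] at h4
    rw [h0 _ (by linarith), zero_mul]

theorem wind2_eq (hQ : Fam Q) (hF : Pre Q F) (hU : Frame Q F U A g) (hW : W0 Q F U g W)
    (hB : ∀ j, U j ⊆ ball 0 R) (hθ : Cc θ) :
    ∫ z in ball 0 R, θ (g z) * (jac g z : ℂ) = ∑ j, (∫ w, (W j w : ℂ) * θ w) +
      ∫ z in Om Q ∩ ball 0 R, θ (F z) * ((|jac F z| : ℝ) : ℂ) := by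
  have hm : MeasurableSet (Om Q ∩ ball 0 R) := (hQ.isOpen.inter isOpen_ball).measurableSet
  have e1 : ∫ z in Om Q ∩ ball 0 R, θ (F z) * ((|jac F z| : ℝ) : ℂ) =
      ∫ z in Om Q ∩ ball 0 R, θ (F z) * ((‖deriv F z‖ ^ 2 : ℝ) : ℂ) :=
    setIntegral_congr_fun hm fun z hz => by
      simp only [jac_hol (hF.hol_at hQ hz.1), abs_of_nonneg (sq_nonneg ‖deriv F z‖)]
  obtain ⟨M, hM⟩ := hθ.bdd
  have i1 : IntegrableOn (fun z => θ (g z) * (jac g z : ℂ)) (ball 0 R) :=
    (((hθ.1.continuous.comp hU.sm.continuous).mul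
      (continuous_ofReal.comp (continuous_jac hU.sm))).continuousOn.integrableOn_compact
        (isCompact_closedBall 0 R)).mono_set ball_subset_closedBall
  have i2 : IntegrableOn (fun z => θ (F z) * ((‖deriv F z‖ ^ 2 : ℝ) : ℂ)) (Om Q ∩ ball 0 R) :=
    Integrable.bdd_mul (hF.int_sq hQ measurableSet_ball isBounded_ball).ofReal
      ((hθ.1.continuous.comp_continuousOn
        (hF.hol.continuousOn.mono inter_subset_left)).aestronglyMeasurable hm)
      (Eventually.of_forall fun z => hM _)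
  have s1 : ∀ j, ball 0 R ∩ U j = U j := fun j => inter_eq_right.2 (hB j)
  have s2 : ∀ j, Om Q ∩ ball 0 R ∩ U j = U j \ Q j := fun j => by
    refine Subset.antisymm (fun z hz => ⟨hz.2, mem_Om.1 hz.1.1 j⟩) fun z hz =>
      ⟨⟨mem_Om.2 fun i hi => ?_, hB j hz.1⟩, hz.1⟩
    by_cases h : i = j
    · exact hz.2 (h ▸ hi)
    · exact disjoint_left.1 (hU.disj h) (hU.sub i hi) hz.1
  have s3 : ∀ z, z ∉ ⋃ j, U j → z ∈ Om Q := fun z hz =>
    mem_Om.2 fun i hi => hz (mem_iUnion.2 ⟨i, hU.sub i hi⟩)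
  have s4 : (Om Q ∩ ball 0 R) \ ⋃ j, U j = ball 0 R \ ⋃ j, U j :=
    Subset.antisymm (fun z hz => ⟨hz.1.2, hz.2⟩) fun z hz => ⟨⟨s3 z hz.2, hz.1⟩, hz.2⟩
  have e2 : ∫ z in ball 0 R \ ⋃ j, U j, θ (g z) * (jac g z : ℂ) =
      ∫ z in ball 0 R \ ⋃ j, U j, θ (F z) * ((‖deriv F z‖ ^ 2 : ℝ) : ℂ) := by
    refine setIntegral_congr_fun (measurableSet_ball.diff (isOpen_iUnion hU.op).measurableSet)
      fun z hz => ?_
    have e : g =ᶠ[𝓝 z] F :=
      (hU.cA.isClosed.isOpen_compl.eventually_mem fun h => hz.2 (hU.AU h)).mono hU.eq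
    simp only [jac_congr e, e.self_of_nhds, jac_hol (hF.hol_at hQ (s3 z hz.2))]
  rw [e1, wind2_split hU.op hU.disj measurableSet_ball i1, wind2_split hU.op hU.disj hm i2, s4,
    e2, ← add_assoc, ← Finset.sum_add_distrib]
  congr 1
  refine Finset.sum_congr rfl fun j _ => ?_
  rw [s1, s2, (hW j).2.2 θ hθ.1.continuous.measurable ⟨M, hM⟩, sub_add_cancel]

theorem wind2 (hQ : Fam Q) (hF : Pre Q F) (hU : Frame Q F U A g) (hW : W0 Q F U g W) :
    W2 Q F W := by
  obtain ⟨R₁, -, h1⟩ := far_one hF.inf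
  obtain ⟨R₂, h2⟩ := (Bornology.isBounded_iUnion.2 hU.bd).subset_ball 0
  suffices H : ∀ T : ℕ, ∀ᵐ w, w ∈ ball (0 : ℂ) T →
      ∃ m : ℕ, (Om Q ∩ F ⁻¹' {w}).encard = m ∧ (m : ℤ) + ∑ j, W j w = 1 by
    filter_upwards [ae_all_iff.2 H] with w hw
    obtain ⟨T, hT⟩ := exists_nat_gt ‖w‖
    exact hw T (mem_ball_zero_iff.2 hT)
  intro T
  obtain ⟨R, r1, r2, r3⟩ : ∃ R : ℝ, R₁ ≤ R ∧ R₂ ≤ R ∧ T + 1 ≤ R :=
    ⟨max R₁ (max R₂ (T + 1)), le_max_left _ _, le_max_of_le_right (le_max_left _ _),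
      le_max_of_le_right (le_max_right _ _)⟩
  have hR : 0 < R := lt_of_lt_of_le (by positivity) r3
  have hB : ∀ j, U j ⊆ ball 0 R := fun j =>
    (subset_iUnion U j).trans (h2.trans (ball_subset_ball r2))
  have h3 : ∀ z, R ≤ ‖z‖ → ‖F z - z‖ ≤ 1 := fun z hz => h1 z (r1.trans hz)
  have hm : MeasurableSet (Om Q ∩ ball 0 R) := (hQ.isOpen.inter isOpen_ball).measurableSet
  obtain ⟨n, -, n2, n3, n4⟩ := area_formula (g := F) hm
    (fun z hz => (hF.hol_at hQ hz.1).restrictScalars ℝ)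
    ((hF.int_sq hQ measurableSet_ball isBounded_ball).congr_fun
      (fun z hz => (jac_hol (hF.hol_at hQ hz.1)).symm) hm)
  have iW : ∀ j, Integrable fun w => (W j w : ℂ) := fun j => by
    simpa using (hW j).2.1.ofReal (𝕜 := ℂ)
  have iN : Integrable fun w => (n w : ℂ) := by simpa using n2.ofReal (𝕜 := ℂ)
  have key := IsOpen.ae_eq_zero_of_integral_contDiff_smul_eq_zero (μ := volume)
    (f := fun w => 1 - (∑ j, (W j w : ℂ) + (n w : ℂ))) (isOpen_ball (x := (0 : ℂ)) (ε := T))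
    (((locallyIntegrable_const 1).sub
      ((integrable_finsetSum _ fun j _ => iW j).add iN).locallyIntegrable).locallyIntegrableOn _)
    fun ψ p1 p2 p3 => by
      have hθ := cc_ofReal p1 p2
      obtain ⟨M, hM⟩ := hθ.bdd
      have hs := hθ.1.continuous.aestronglyMeasurable (μ := volume)
      have j1 : ∀ j, Integrable fun w => (W j w : ℂ) * (ψ w : ℂ) := fun j =>
        (iW j).mul_bdd hs (Eventually.of_forall hM)
      have j2 : Integrable fun w => (ψ w : ℂ) * (n w : ℂ) :=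
        iN.bdd_mul hs (Eventually.of_forall hM)
      have j3 := integrable_finsetSum Finset.univ fun j _ => j1 j
      have e := wind2_ball hU hR hB h3 hθ fun w hw => by
        have h4 : w ∉ tsupport ψ := fun h => by
          have h5 := mem_ball_zero_iff.1 (p3 h)
          linarith
        simp [image_eq_zero_of_notMem_tsupport h4]
      rw [wind2_eq hQ hF hU hW hB hθ, n4 _ hθ.1.continuous.measurable ⟨M, hM⟩,
        ← integral_finsetSum _ fun j _ => j1 j, ← integral_add j3 j2, ← sub_eq_zero] at e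
      refine Eq.trans (integral_congr_ae (Eventually.of_forall fun w => ?_))
        ((integral_sub hθ.integrable (j3.add j2)).trans e)
      simp only [real_smul, Pi.add_apply, ← Finset.sum_mul]
      ring
  filter_upwards [key, n3] with w k1 k2 hw
  refine ⟨n w, ?_, ?_⟩
  · rw [← k2]
    congr 1
    refine Subset.antisymm (fun z hz => ⟨⟨hz.1, mem_ball_zero_iff.2 (not_le.1 fun h => ?_)⟩, hz.2⟩)
      fun z hz => ⟨hz.1.1, hz.2⟩
    have h4 := h3 z h
    have h5 : F z = w := hz.2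
    have h6 := norm_sub_le (F z) (F z - z)
    have h7 := mem_ball_zero_iff.1 hw
    rw [sub_sub_cancel, h5] at h6
    rw [h5] at h4
    linarith
  · have h4 := sub_eq_zero.1 (k1 hw)
    rw [add_comm] at h4
    exact_mod_cast h4.symm

end Vale.P116B
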