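import Vale.Agent.P116B.NL2

/-!
# P116B Wind3

Take `R₀` with all `U j ⊆ ball 0 R₀`. Let `G = z + η * (g - z)`; `nl3` gives `∫ (jac G - 1) = 0`. On `U j` we have `jac G = jac g`, off `A` we have
`G = z + η * (F - z)` nearby, and on `U j \ Q j` the Jacobian of `z + η * (F - z)` is `‖F'‖ ^ 2`. Use `W0` with `θ = 1` and add up.
-/

namespace Vale.P116B

open Set Filter Topology MeasureTheory Metric Complex Vale.P116
open scoped ContDiff ComplexConjugate Real ENNReal Gradient

variable {ι : Type} [Fintype ι] {Q U E : ι → Set ℂ} {W : ι → ℂ → ℤ} {c : ι → ℂ} {r ρ s : ι → ℝ}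
  {f g h k F G Φ Θ θ φ χ η ξ a b V : ℂ → ℂ} {K A O S Z : Set ℂ} {z p q w : ℂ} {j : ι}
  {R M t L ε : ℝ}

omit [Fintype ι] in
theorem wind3_diff (hU : Frame Q F U A g) (j : ι) : U j \ Q j = Om Q ∩ U j := by
  ext z
  refine ⟨fun h => ⟨mem_Om.2 fun i hi => ?_, h.1⟩, fun h => ⟨h.2, mem_Om.1 h.1 j⟩⟩
  by_cases hij : i = j
  · exact h.2 (hij ▸ hi)
  · exact disjoint_left.1 (hU.disj hij) (hU.sub i hi) h.1

omit [Fintype ι] in
theorem wind3_real (hW : W0 Q F U g W) (j : ι) : ∫ w, (W j w : ℝ) =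
    (∫ z in U j, jac g z) - ∫ z in U j \ Q j, ‖deriv F z‖ ^ 2 := by
  have h := (hW j).2.2 (fun _ => 1) measurable_const ⟨1, fun _ => by simp⟩
  simp only [mul_one, one_mul, ← ofReal_intCast, integral_complex_ofReal] at h
  exact_mod_cast h

theorem wind3_sum (hQ : Fam Q) (hF : Pre Q F) (hU : Frame Q F U A g) (hW : W0 Q F U g W) :
    ∑ j, ∫ w, (W j w : ℝ) =
      (∫ z in ⋃ j, U j, jac g z) - ∫ z in Om Q ∩ ⋃ j, U j, ‖deriv F z‖ ^ 2 := by
  have h1 : ∀ j, IntegrableOn (jac g) (U j) := fun j =>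
    ((continuous_jac hU.sm).continuousOn.integrableOn_compact (hU.bd j).isCompact_closure).mono_set
      subset_closure
  rw [inter_iUnion, integral_iUnion_fintype (fun j => (hU.op j).measurableSet) hU.disj h1,
    integral_iUnion_fintype (fun j => (hQ.isOpen.inter (hU.op j)).measurableSet)
      (fun i j hij => (hU.disj hij).mono inter_subset_right inter_subset_right)
      (fun j => hF.int_sq hQ (hU.op j).measurableSet (hU.bd j)), ← Finset.sum_sub_distrib]
  exact Finset.sum_congr rfl fun j _ => by rw [wind3_real hW, wind3_diff hU]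

theorem wind3 (hQ : Fam Q) (hF : Pre Q F) (hU : Frame Q F U A g) (hW : W0 Q F U g W) :
    W3 Q F W := by
  have hb : Bornology.IsBounded (⋃ j, U j) := Bornology.isBounded_iUnion.2 hU.bd
  have ho : IsOpen (⋃ j, U j) := isOpen_iUnion hU.op
  have hm := ho.measurableSet
  have hQU : (⋃ j, Q j) ⊆ ⋃ j, U j := iUnion_mono hU.sub
  obtain ⟨R₀, hR₀⟩ := hb.subset_ball 0
  refine ⟨R₀, fun η hη h1 => ?_⟩
  have he : ∀ (u : ℂ → ℂ), ∀ z ∈ ⋃ j, U j, jac (fun z => z + η z * (u z - z)) z = jac u z :=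
    fun u z hz => jac_congr (by
      filter_upwards [isOpen_ball.mem_nhds (hR₀ hz)] with w hw
      rw [h1 w (mem_ball_zero_iff.1 hw).le]
      ring)
  have hGH : ∀ z ∈ (⋃ j, U j)ᶜ, jac (fun z => z + η z * (g z - z)) z - 1 =
      jac (fun z => z + η z * (F z - z)) z - 1 := fun z hz => by
    rw [jac_congr (g := fun z => z + η z * (F z - z))]
    filter_upwards [hU.cA.isClosed.isOpen_compl.mem_nhds fun h => hz (hU.AU h)] with w hw
    rw [hU.eq w hw]
  have hH : ∀ z ∈ Om Q ∩ ⋃ j, U j, ‖deriv F z‖ ^ 2 - 1 =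
      jac (fun z => z + η z * (F z - z)) z - 1 := fun z hz => by
    rw [he F z hz.2, jac_hol (hF.hol_at hQ hz.1)]
  obtain ⟨R, hR⟩ := hη.far
  obtain ⟨hi, h0⟩ := nl3 (g := fun z => z + η z * (g z - z)) (R := R)
    (contDiff_id.add (hη.1.mul (hU.sm.sub contDiff_id))) fun z hz => by simp [hR z hz]
  have hfin : volume (⋃ j, U j) ≠ ⊤ := hb.measure_lt_top.ne
  have hfin' : volume (Om Q ∩ ⋃ j, U j) ≠ ⊤ := measure_ne_top_of_subset inter_subset_right hfin
  have hmo : MeasurableSet (Om Q ∩ ⋃ j, U j) := hQ.isOpen.measurableSet.inter hm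
  have i1 : IntegrableOn (jac g) (⋃ j, U j) :=
    ((continuous_jac hU.sm).continuousOn.integrableOn_compact hb.isCompact_closure).mono_set
      subset_closure
  have i2 := hF.int_sq hQ hm hb
  have e1 : ∫ z in ⋃ j, U j, (jac (fun z => z + η z * (g z - z)) z - 1) =
      (∫ z in ⋃ j, U j, jac g z) - volume.real (⋃ j, U j) := by
    rw [setIntegral_congr_fun hm (g := fun z => jac g z - 1) fun z hz => by simp only [he g z hz],
      integral_sub i1 (integrableOn_const hfin)]
    simp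
  have e2 : ∫ z in Om Q ∩ ⋃ j, U j, (jac (fun z => z + η z * (F z - z)) z - 1) =
      (∫ z in Om Q ∩ ⋃ j, U j, ‖deriv F z‖ ^ 2) - volume.real (Om Q ∩ ⋃ j, U j) := by
    rw [← setIntegral_congr_fun hmo hH, integral_sub i2 (integrableOn_const hfin')]
    simp
  have hd : Om Q \ ⋃ j, U j = (⋃ j, U j)ᶜ :=
    inter_eq_right.2 (compl_subset_compl.2 hQU)
  have i3 : IntegrableOn (fun z => jac (fun z => z + η z * (F z - z)) z - 1) (Om Q) := by
    rw [← inter_union_sdiff (Om Q) (⋃ j, U j), hd]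
    exact ((i2.sub (integrableOn_const hfin')).congr_fun hH hmo).union
      (hi.integrableOn.congr_fun hGH hm.compl)
  have e3 := integral_inter_add_sdiff hm i3
  have e4 := integral_add_compl hm hi
  have e5 := measureReal_inter_add_sdiff (μ := volume) (s := ⋃ j, U j)
    hQ.isCompact.measurableSet hfin
  rw [inter_eq_right.2 hQU, sdiff_eq, inter_comm] at e5
  rw [hd, e2, ← setIntegral_congr_fun hm.compl hGH] at e3
  rw [wind3_sum hQ hF hU hW, area]
  change _ + volume.real (Om Q ∩ _) = _ at e5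
  linarith

end Vale.P116B
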