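import Vale.Agent.P116B.SolX
import Vale.Agent.P116B.Wind0
import Vale.Agent.P116B.Wind1
import Vale.Agent.P116B.Wind2
import Vale.Agent.P116B.Wind3
import Vale.Agent.P116B.Discs
import Vale.Agent.P116B.Univ
import Vale.Agent.P116B.EndsN
import Vale.Agent.P116B.Tent2

/-!
# P116B FK

The finitely connected case of the circle-domain theorem, with energy bounds.
-/

namespace Vale.P116B

open Set Filter Topology MeasureTheory Metric Complex Vale.P116
open scoped ContDiff ComplexConjugate Real ENNReal Gradient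

variable {ι : Type} [Fintype ι] {Q U E : ι → Set ℂ} {W : ι → ℂ → ℤ} {c : ι → ℂ} {r ρ s : ι → ℝ}
  {f g h k F G Φ Θ θ φ χ η ξ a b V : ℂ → ℂ} {K A O S Z : Set ℂ} {z p q w : ℂ} {j : ι}
  {R M t L ε : ℝ}

theorem fk (hQ : Fam Q) : ∃ (F : ℂ → ℂ) (c : ι → ℂ) (r : ι → ℝ), Circ Q F c r ∧
    ∀ (e : ι → ℂ) (ρ : ι → ℝ), (∀ j, Q j ⊆ ball (e j) (ρ j)) →
      Bnd Q F r (4 * ∑ j, ρ j ^ 2) := by
  classical
  obtain ⟨F, r, hS⟩ := exists_sol hQ
  obtain ⟨U, A, g, hU⟩ := exists_frame hQ hS.pre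
  obtain ⟨W, hW0⟩ := exists_w0 hQ hS.pre hU
  have hW : Wind Q F W := ⟨fun j => (hW0 j).1, fun j => (hW0 j).2.1, wind1 hQ hS.pre hU hW0,
    wind2 hQ hS.pre hU hW0, wind3 hQ hS.pre hU hW0⟩
  obtain ⟨c, hc⟩ := discs hQ hS hW
  obtain ⟨hinj, hdis, hae⟩ := univalent hQ hS.pre hW.w2 hc
  have hF : NormMap (⋃ j, Q j) F := ⟨hS.pre.hol, hinj, hS.pre.inf⟩
  obtain ⟨E, hE⟩ := exists_ends hQ hF
  choose e he using fun j => (hE.conn j).nonempty
  set c' : ι → ℂ := fun j => if 0 < r j then c j else e j with hc'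
  have hb : ∀ j, ball (c' j) (r j) = ball (c j) (r j) := by
    intro j
    by_cases h : 0 < r j
    · simp [hc', h]
    · rw [ball_eq_empty.2 (not_lt.1 h), ball_eq_empty.2 (not_lt.1 h)]
  have hm : ∀ j, closedBall (c' j) (r j) ⊆ E j := by
    intro j
    by_cases h : 0 < r j
    · have : c' j = c j := by simp [hc', h]
      rw [this]
      exact match_disc hQ hS hW (hc j) hE h (hdis j h)
    · have h0 : r j = 0 := le_antisymm (not_lt.1 h) (hS.r0 j)
      have : c' j = e j := by simp [hc', h]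
      rw [this, h0, closedBall_zero, singleton_subset_iff]
      exact he j
  have hEq : E = fun j => closedBall (c' j) (r j) := by
    funext j
    refine Subset.antisymm (tent2 hQ hS hW (fun j => ?_) hF hE ?_ hm j) (hm j)
    · rw [hb]; exact hc j
    · simpa only [hb] using hae
  refine ⟨F, c', r, ⟨hF, hS.r0, hEq ▸ hE⟩, fun x ρ h => ?_⟩
  exact ⟨hS.pre.l2, (el_bound hQ hS.el h).1, (el_bound hQ hS.el h).2⟩

end Vale.P116B
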