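import Vale.Agent.P116B.Defs

/-!
# P116B Hil

Minimising `‖x‖ ^ 2 + τ` on a convex set. Let `m ≥ u` be the infimum and `(x n, τ n)` a minimising sequence; the parallelogram
law at midpoints makes `x n` Cauchy, with limit `x₀`, and `τ n → m - ‖x₀‖ ^ 2`. For `(x, τ)` in the set and `0 < t ≤ 1` compare with
`(1 - t) • (x n, τ n) + t • (x, τ)`, pass to the limit in `n`, divide by `t` and let `t → 0`.
-/

namespace Vale.P116B

open Set Filter Topology MeasureTheory Metric Complex Vale.P116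
open scoped ContDiff ComplexConjugate Real ENNReal Gradient

variable {ι : Type} [Fintype ι] {Q U E : ι → Set ℂ} {W : ι → ℂ → ℤ} {c : ι → ℂ} {r ρ s : ι → ℝ}
  {f g h k F G Φ Θ θ φ χ η ξ a b V : ℂ → ℂ} {K A O S Z : Set ℂ} {z p q w : ℂ} {j : ι}
  {R M t L ε : ℝ}

theorem hilbert {H : Type*} [NormedAddCommGroup H] [InnerProductSpace ℝ H] [CompleteSpace H]
    {C : Set (H × ℝ)} (hC : Convex ℝ C) (hne : C.Nonempty) {u : ℝ}
    (hu : ∀ x ∈ C, u ≤ ‖x.1‖ ^ 2 + x.2) :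
    ∃ x₀ : H, ∀ x ∈ C, ‖x₀‖ ^ 2 + u ≤ 2 * inner ℝ x₀ x.1 + x.2 := by
  set En : H × ℝ → ℝ := fun x => ‖x.1‖ ^ 2 + x.2 with hEn
  have hbdd : BddBelow (En '' C) := ⟨u, by rintro _ ⟨x, hx, rfl⟩; exact hu x hx⟩
  set m := sInf (En '' C) with hm
  have hum : u ≤ m := le_csInf (hne.image _) (by rintro _ ⟨x, hx, rfl⟩; exact hu x hx)
  have hmle : ∀ x ∈ C, m ≤ En x := fun x hx => csInf_le hbdd ⟨x, hx, rfl⟩
  have hex : ∀ n : ℕ, ∃ x ∈ C, En x < m + 1 / ((n : ℝ) + 1) := by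
    intro n
    have hpos : (0 : ℝ) < 1 / ((n : ℝ) + 1) := Nat.one_div_pos_of_nat
    obtain ⟨_, ⟨x, hx, rfl⟩, hlt⟩ := exists_lt_of_csInf_lt (hne.image En) (lt_add_of_pos_right m hpos)
    exact ⟨x, hx, hlt⟩
  choose y hyC hy using hex
  have hδ : Tendsto (fun n : ℕ => 1 / ((n : ℝ) + 1)) atTop (𝓝 0) := tendsto_one_div_add_atTop_nhds_zero_nat
  -- the convex combinations
  have hcomb : ∀ x ∈ C, ∀ x' ∈ C, ∀ t : ℝ, 0 ≤ t → t ≤ 1 →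
      m ≤ ‖(1 - t) • x.1 + t • x'.1‖ ^ 2 + ((1 - t) * x.2 + t * x'.2) := by
    intro x hx x' hx' t h0 h1
    have := hmle _ (hC hx hx' (sub_nonneg.2 h1) h0 (by ring))
    simpa [hEn] using this
  have hexp : ∀ (v v' : H) (t : ℝ), ‖(1 - t) • v + t • v'‖ ^ 2 =
      (1 - t) ^ 2 * ‖v‖ ^ 2 + 2 * ((1 - t) * t) * inner ℝ v v' + t ^ 2 * ‖v'‖ ^ 2 := by
    intro v v' t
    rw [norm_add_sq_real, norm_smul, norm_smul, real_inner_smul_left, real_inner_smul_right,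
      mul_pow, mul_pow, Real.norm_eq_abs, Real.norm_eq_abs, sq_abs, sq_abs]
    ring
  have hd : ∀ n k : ℕ, ‖(y n).1 - (y k).1‖ ^ 2 ≤ 2 * (1 / ((n : ℝ) + 1)) + 2 * (1 / ((k : ℝ) + 1)) := by
    intro n k
    have h1 := hcomb _ (hyC n) _ (hyC k) (1 / 2) (by norm_num) (by norm_num)
    rw [hexp] at h1
    have h2 := hy n
    have h3 := hy k
    simp only [hEn] at h2 h3
    rw [norm_sub_sq_real]
    linarith
  have hcau : CauchySeq fun n => (y n).1 := by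
    rw [Metric.cauchySeq_iff]
    intro e he
    have : ∀ᶠ n : ℕ in atTop, 1 / ((n : ℝ) + 1) < e ^ 2 / 4 := hδ.eventually (gt_mem_nhds (by positivity))
    obtain ⟨N, hN⟩ := eventually_atTop.1 this
    refine ⟨N, fun n hn k hk => ?_⟩
    rw [dist_eq_norm]
    have := hd n k
    have h1 := hN n hn
    have h2 := hN k hk
    exact lt_of_pow_lt_pow_left₀ 2 he.le (by linarith)
  obtain ⟨x₀, hx₀⟩ := cauchySeq_tendsto_of_complete hcau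
  refine ⟨x₀, fun x hx => ?_⟩
  have hstep : ∀ t : ℝ, 0 < t → t ≤ 1 →
      m ≤ -(1 - t) * ‖x₀‖ ^ 2 + 2 * (1 - t) * inner ℝ x₀ x.1 + t * ‖x.1‖ ^ 2 + x.2 := by
    intro t h0 h1
    have hn : ∀ n : ℕ, m ≤ (1 - t) ^ 2 * ‖(y n).1‖ ^ 2 + 2 * ((1 - t) * t) * inner ℝ (y n).1 x.1 + t ^ 2 * ‖x.1‖ ^ 2 +
        ((1 - t) * (m + 1 / ((n : ℝ) + 1) - ‖(y n).1‖ ^ 2) + t * x.2) := by
      intro n
      have h2 := hcomb _ (hyC n) _ hx t h0.le h1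
      rw [hexp] at h2
      have h3 := hy n
      simp only [hEn] at h3
      have h4 : (1 - t) * (y n).2 ≤ (1 - t) * (m + 1 / ((n : ℝ) + 1) - ‖(y n).1‖ ^ 2) :=
        mul_le_mul_of_nonneg_left (by linarith) (sub_nonneg.2 h1)
      linarith
    have hlim : Tendsto (fun n : ℕ => (1 - t) ^ 2 * ‖(y n).1‖ ^ 2 + 2 * ((1 - t) * t) * inner ℝ (y n).1 x.1 +
        t ^ 2 * ‖x.1‖ ^ 2 + ((1 - t) * (m + 1 / ((n : ℝ) + 1) - ‖(y n).1‖ ^ 2) + t * x.2)) atTop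
        (𝓝 ((1 - t) ^ 2 * ‖x₀‖ ^ 2 + 2 * ((1 - t) * t) * inner ℝ x₀ x.1 + t ^ 2 * ‖x.1‖ ^ 2 +
        ((1 - t) * (m + 0 - ‖x₀‖ ^ 2) + t * x.2))) := by
      have hN : Tendsto (fun n => ‖(y n).1‖ ^ 2) atTop (𝓝 (‖x₀‖ ^ 2)) := hx₀.norm.pow 2
      have hI : Tendsto (fun n => inner ℝ (y n).1 x.1) atTop (𝓝 (inner ℝ x₀ x.1)) :=
        hx₀.inner tendsto_const_nhds
      exact (((hN.const_mul _).add (hI.const_mul _)).add tendsto_const_nhds).add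
        ((((hδ.const_add m).sub hN).const_mul _).add tendsto_const_nhds)
    have h5 := ge_of_tendsto' hlim hn
    have h6 : t * m ≤ t * (-(1 - t) * ‖x₀‖ ^ 2 + 2 * (1 - t) * inner ℝ x₀ x.1 + t * ‖x.1‖ ^ 2 + x.2) := by
      nlinarith
    exact le_of_mul_le_mul_left h6 h0
  have hlim : Tendsto (fun n : ℕ => -(1 - 1 / ((n : ℝ) + 1)) * ‖x₀‖ ^ 2 + 2 * (1 - 1 / ((n : ℝ) + 1)) * inner ℝ x₀ x.1 +
      1 / ((n : ℝ) + 1) * ‖x.1‖ ^ 2 + x.2) atTop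
      (𝓝 (-(1 - 0) * ‖x₀‖ ^ 2 + 2 * (1 - 0) * inner ℝ x₀ x.1 + 0 * ‖x.1‖ ^ 2 + x.2)) :=
    ((((hδ.const_sub 1).neg.mul_const _).add (((hδ.const_sub 1).const_mul 2).mul_const _)).add
      (hδ.mul_const _)).add_const _
  have h7 := ge_of_tendsto' hlim fun n => hstep _ Nat.one_div_pos_of_nat (by
    rw [div_le_one (by positivity)]; linarith [(Nat.cast_nonneg n : (0 : ℝ) ≤ n)])
  linarith

end Vale.P116B
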