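import Vale.Agent.P116B.Polar
import Vale.Agent.P116B.Sq

/-!
# P116B Len

One short circle in an annulus. Integrate `trL` over `Icc (R / 2) R`: `polar` and Cauchy-Schwarz (`ENNReal.lintegral_mul_le_Lp_mul_Lq`, the annulus has
area at most `π R ^ 2`) for the first part; for the sum use `fat` and the finite Cauchy-Schwarz inequality. The average is at most
`(2 √π + 4 √(18 π)) √e ≤ 40 √e`; `exists_le_setLAverage`.
-/

namespace Vale.P116B

open Set Filter Topology MeasureTheory Metric Complex Vale.P116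
open scoped ContDiff ComplexConjugate Real ENNReal Gradient

variable {ι : Type} [Fintype ι] {Q U E : ι → Set ℂ} {W : ι → ℂ → ℤ} {c : ι → ℂ} {r ρ s : ι → ℝ}
  {f g h k F G Φ Θ θ φ χ η ξ a b V : ℂ → ℂ} {K A O S Z : Set ℂ} {z p q w : ℂ} {j : ι}
  {R M t L ε : ℝ}

theorem len_vol (p : ℂ) (hR : 0 < R) : volume (ann p R) ≤ ENNReal.ofReal ((2 * R) ^ 2) := by
  have h1 : ann p R ⊆ closedBall p R := fun z hz => by
    rw [mem_closedBall, dist_eq_norm]; exact hz.2
  refine (measure_mono h1).trans ?_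
  rw [Complex.volume_closedBall, ← ENNReal.ofReal_pow hR.le, ← ENNReal.ofReal_coe_nnreal,
    ← ENNReal.ofReal_mul (by positivity)]
  refine ENNReal.ofReal_le_ofReal ?_
  rw [NNReal.coe_real_pi]
  nlinarith [Real.pi_le_four, sq_nonneg R]

theorem len_half {x : ℝ} (hx : 0 ≤ x) :
    ENNReal.ofReal (x ^ 2) ^ (1 / 2 : ℝ) = ENNReal.ofReal x := by
  rw [ENNReal.ofReal_rpow_of_nonneg (by positivity) (by norm_num), ← Real.sqrt_eq_rpow,
    Real.sqrt_sq hx]

theorem len_cs {e : ℝ} (he : 0 ≤ e) (hR : 0 < R) (hS : volume S ≤ ENNReal.ofReal (R ^ 2))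
    (hE : ∫⁻ z in S, ‖deriv F z‖ₑ ^ 2 ≤ ENNReal.ofReal e) :
    ∫⁻ z in S, ‖deriv F z‖ₑ ≤ ENNReal.ofReal (√e * R) := by
  have h := ENNReal.lintegral_mul_le_Lp_mul_Lq (volume.restrict S) Real.HolderConjugate.two_two
    (f := fun z => ‖deriv F z‖ₑ) (g := fun _ => 1)
    (measurable_deriv F).enorm.aemeasurable aemeasurable_const
  simp only [Pi.mul_apply, mul_one, ENNReal.rpow_two, one_pow, lintegral_const, one_mul,
    MeasurableSet.univ, Measure.restrict_apply, univ_inter] at h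
  refine h.trans ?_
  rw [ENNReal.ofReal_mul (Real.sqrt_nonneg e), ← len_half (Real.sqrt_nonneg e), ← len_half hR.le,
    Real.sq_sqrt he]
  gcongr

theorem len_fin {e : ℝ} {α : ι → ℝ} {v : ι → ℝ≥0∞} (hR : 0 < R) (hα : ∀ j, 0 ≤ α j)
    (h1 : ∑ j, α j ^ 2 ≤ e) (h2 : ∑ j, v j ^ 2 ≤ ENNReal.ofReal (18 * π * R ^ 2)) :
    ∑ j, ENNReal.ofReal (2 * α j) * v j ≤ ENNReal.ofReal (16 * (√e * R)) := by
  have hv : ∀ j, v j ≠ ⊤ := fun j hj => by
    have h3 : v j ^ 2 ≤ ∑ j, v j ^ 2 :=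
      Finset.single_le_sum (f := fun j => v j ^ 2) (fun _ _ => zero_le) (Finset.mem_univ j)
    have h4 := h3.trans h2
    rw [hj] at h4
    simp at h4
  obtain ⟨u, hu0, hu⟩ : ∃ u : ι → ℝ, (∀ j, 0 ≤ u j) ∧ ∀ j, v j = ENNReal.ofReal (u j) :=
    ⟨fun j => (v j).toReal, fun _ => ENNReal.toReal_nonneg,
      fun j => (ENNReal.ofReal_toReal (hv j)).symm⟩
  have e1 : ∑ j, v j ^ 2 = ENNReal.ofReal (∑ j, u j ^ 2) := by
    rw [ENNReal.ofReal_sum_of_nonneg fun j _ => by positivity]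
    exact Finset.sum_congr rfl fun j _ => by rw [hu, ENNReal.ofReal_pow (hu0 j)]
  rw [e1, ENNReal.ofReal_le_ofReal_iff (by positivity)] at h2
  have e2 : ∑ j, ENNReal.ofReal (2 * α j) * v j = ENNReal.ofReal (∑ j, 2 * (α j * u j)) := by
    rw [ENNReal.ofReal_sum_of_nonneg fun j _ => by have := hα j; have := hu0 j; positivity]
    refine Finset.sum_congr rfl fun j _ => ?_
    rw [hu, ← ENNReal.ofReal_mul (by have := hα j; positivity), mul_assoc]
  rw [e2, ← Finset.mul_sum]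
  refine ENNReal.ofReal_le_ofReal ?_
  have h5 := Real.sum_mul_le_sqrt_mul_sqrt Finset.univ α u
  have h6 : √(∑ j, u j ^ 2) ≤ 8 * R := by
    refine Real.sqrt_le_iff.2 ⟨by positivity, h2.trans ?_⟩
    nlinarith [Real.pi_lt_d2, sq_nonneg R]
  have h7 : √(∑ j, α j ^ 2) * √(∑ j, u j ^ 2) ≤ √e * (8 * R) :=
    mul_le_mul (Real.sqrt_le_sqrt h1) h6 (Real.sqrt_nonneg _) (Real.sqrt_nonneg _)
  nlinarith

open Classical in
theorem len {X : Set ι} {e : ℝ} (hQ : Fam Q) (hsq : ∀ j, ∃ (x : ℂ) (t : ℝ), 0 < t ∧ Q j = sq x t)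
    (hr : ∀ j, 0 ≤ r j) (hR : 0 < R) (he : 0 ≤ e)
    (hE : ∫⁻ z in ann p R ∩ Om Q, ‖deriv F z‖ₑ ^ 2 ≤ ENNReal.ofReal e)
    (hσ : ∑ j, (if j ∉ X ∧ (Q j ∩ ann p R).Nonempty then r j ^ 2 else 0) ≤ e) :
    ∃ t ∈ Icc (R / 2) R, trL Q F r X p t ≤ ENNReal.ofReal (40 * √e) := by
  choose x σ hσ0 hx using hsq
  have hH : ∀ j, MeasurableSet {t : ℝ | (Q j ∩ sphere p t).Nonempty} := fun j =>
    (hit_closed (hQ.cpt j) p).measurableSet
  have hm : ∀ j, Measurable fun t : ℝ =>
      if j ∉ X ∧ (Q j ∩ sphere p t).Nonempty then ENNReal.ofReal (2 * r j) else 0 := fun j =>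
    Measurable.ite (MeasurableSet.inter (MeasurableSet.const (j ∉ X)) (hH j)) measurable_const
      measurable_const
  have hmt : Measurable (trL Q F r X p) :=
    (measurable_arcL hQ F p).add (Finset.measurable_sum _ fun j _ => hm j)
  have hvol : volume (Icc (R / 2) R) = ENNReal.ofReal (R / 2) := by
    rw [Real.volume_Icc]; congr 1; ring
  have hpos : ENNReal.ofReal (R / 2) ≠ 0 := (ENNReal.ofReal_pos.2 (by positivity)).ne'
  have h1 : ∫⁻ t in Icc (R / 2) R, arcL Q F p t ≤ ENNReal.ofReal (√e * (2 * R)) := by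
    rw [polar hQ F p hR]
    exact len_cs he (by positivity) ((measure_mono inter_subset_left).trans (len_vol p hR)) hE
  have h2 : ∀ j, ∫⁻ t in Icc (R / 2) R,
      (if j ∉ X ∧ (Q j ∩ sphere p t).Nonempty then ENNReal.ofReal (2 * r j) else 0) ≤
      ENNReal.ofReal (2 * if j ∉ X ∧ (Q j ∩ ann p R).Nonempty then r j else 0) *
        volume (Icc (R / 2) R ∩ {t : ℝ | (Q j ∩ sphere p t).Nonempty}) := by
    intro j
    rw [inter_comm (Icc _ _), ← Measure.restrict_apply (hH j), ← lintegral_indicator_const (hH j)]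
    refine setLIntegral_mono' measurableSet_Icc fun t ht => ?_
    by_cases h : j ∉ X ∧ (Q j ∩ sphere p t).Nonempty
    · have h' : (Q j ∩ ann p R).Nonempty := by
        obtain ⟨z, hz, hz'⟩ := h.2
        rw [mem_sphere, dist_eq_norm] at hz'
        exact ⟨z, hz, by rw [hz']; exact ht.1, by rw [hz']; exact ht.2⟩
      rw [if_pos h, if_pos ⟨h.1, h'⟩, indicator_of_mem (by exact h.2)]
    · rw [if_neg h]; exact zero_le
  have h3 := len_fin (e := e) (α := fun j => if j ∉ X ∧ (Q j ∩ ann p R).Nonempty then r j else 0)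
    (v := fun j => volume (Icc (R / 2) R ∩ {t : ℝ | (Q j ∩ sphere p t).Nonempty})) hR
    (fun j => by
      split_ifs
      · exact hr j
      · exact le_rfl)
    (le_trans (le_of_eq (Finset.sum_congr rfl fun j _ => by split_ifs <;> simp)) hσ)
    (by
      have hd := hQ.disj
      have hQe : Q = fun j => sq (x j) (σ j) := funext hx
      rw [hQe] at hd
      have := fat hσ0 hd hR p
      simpa only [hx] using this)
  have h4 : ∫⁻ t in Icc (R / 2) R, trL Q F r X p t ≤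
      ENNReal.ofReal (40 * √e) * ENNReal.ofReal (R / 2) := by
    unfold trL
    rw [lintegral_add_left (measurable_arcL hQ F p), lintegral_finsetSum _ fun j _ => hm j]
    refine (add_le_add h1 ((Finset.sum_le_sum fun j _ => h2 j).trans h3)).trans ?_
    have hs := Real.sqrt_nonneg e
    rw [← ENNReal.ofReal_add (by positivity) (by positivity),
      ← ENNReal.ofReal_mul (by positivity)]
    refine ENNReal.ofReal_le_ofReal ?_
    nlinarith [mul_nonneg hs hR.le]
  obtain ⟨t, ht, h5⟩ := exists_le_setLAverage (μ := volume) (s := Icc (R / 2) R)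
    (f := trL Q F r X p) (by rw [hvol]; exact hpos) (by rw [hvol]; exact ENNReal.ofReal_ne_top)
    hmt.aemeasurable
  refine ⟨t, ht, h5.trans ?_⟩
  rw [setLAverage_eq, hvol]
  exact ENNReal.div_le_of_le_mul h4

end Vale.P116B
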