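import Vale.Agent.P116B.Lim1
import Vale.Agent.P116B.Sq

/-!
# P116B Lim

Passing to the limit. Index type `σ = {𝓕 : Finset (Set ℂ) // ↑𝓕 ⊆ Cmp K}` (a directed order with bottom), `𝒰 = Ultrafilter.of atTop`. For a component
`S ∈ Cmp K` extend centres and radii by zero to the indices that miss `S`; they are bounded, so they converge along `𝒰` to `x`, `R`; a point `x + R u`, `‖u‖ ≤ 1`, is the
limit of `c + r u`, which is omitted (`Ends.img`). For a point component two values of `f` on `ball p ρ` differ by at most `2 ε`.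
-/

namespace Vale.P116B

open Set Filter Topology MeasureTheory Metric Complex Vale.P116
open scoped ContDiff ComplexConjugate Real ENNReal Gradient

variable {ι : Type} [Fintype ι] {Q U E : ι → Set ℂ} {W : ι → ℂ → ℤ} {c : ι → ℂ} {r ρ s : ι → ℝ}
  {f g h k F G Φ Θ θ φ χ η ξ a b V : ℂ → ℂ} {K A O S Z : Set ℂ} {z p q w : ℂ} {j : ι}
  {R M t L ε : ℝ}

theorem lim_sq {σ : Type} (𝒰 : Ultrafilter σ) {T : σ → Finset (Set ℂ)} {P : σ → ℂ → ℂ}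
    {c : ∀ n, T n → ℂ} {r : ∀ n, T n → ℝ} (hT : ∀ n, (T n : Set (Set ℂ)) ⊆ Cmp K)
    (hM : 0 < M) (hP : ∀ n, Unif (T n) (P n) (c n) (r n) M) (hU : UClu K M) (hS : S ∈ Cmp K)
    (hev : ∀ᶠ n in (𝒰 : Filter σ), S ∈ T n)
    (h1 : ∀ z, z ∉ K → Tendsto (fun n => P n z) 𝒰 (𝓝 (f z)))
    (h2 : ∀ (y : σ → ℂ) (w : ℂ), Tendsto y 𝒰 (𝓝 w) → (∀ᶠ n in 𝒰, y n ∉ P n '' Kᶜ) →
      w ∉ f '' Kᶜ) :
    ∃ (x : ℂ) (R : ℝ), 0 ≤ R ∧ Disjoint (closedBall x R) (f '' Kᶜ) ∧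
      ∀ q ∈ S, ∀ ε > 0, ∀ᶠ z in 𝓝 q, z ∉ K → f z ∈ closedBall x (R + ε) := by
  classical
  let cr : σ → ℂ × ℝ := fun n => if h : S ∈ T n then (c n ⟨S, h⟩, r n ⟨S, h⟩) else (0, 0)
  have hcr : ∀ n (h : S ∈ T n), cr n = (c n ⟨S, h⟩, r n ⟨S, h⟩) := fun n h => dif_pos h
  have hmem : ∀ n, cr n ∈ closedBall (0 : ℂ) M ×ˢ Icc (0 : ℝ) M := fun n => by
    by_cases h : S ∈ T n
    · rw [hcr n h]
      exact ⟨mem_closedBall_zero_iff.2 ((hP n).cen _).1, (hP n).circ.r0 _, ((hP n).cen _).2⟩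
    · rw [show cr n = (0, 0) from dif_neg h]
      exact ⟨mem_closedBall_self hM.le, le_rfl, hM.le⟩
  obtain ⟨⟨x, R⟩, hx, hlim⟩ := ((isCompact_closedBall (0 : ℂ) M).prod
    (isCompact_Icc (a := (0 : ℝ)) (b := M))).ultrafilter_le_nhds' (𝒰.map cr)
      (Ultrafilter.mem_map.2 (univ_mem' hmem))
  have hl : Tendsto cr 𝒰 (𝓝 (x, R)) := hlim
  have hl1 : Tendsto (fun n => (cr n).1) 𝒰 (𝓝 x) := (continuous_fst.tendsto _).comp hl
  have hl2 : Tendsto (fun n => (cr n).2) 𝒰 (𝓝 R) := (continuous_snd.tendsto _).comp hl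
  have R0 : 0 ≤ R := hx.2.1
  refine ⟨x, R, R0, Set.disjoint_left.2 fun w hw => ?_, fun q hq ε hε => ?_⟩
  · obtain ⟨u, hu, rfl⟩ : ∃ u : ℂ, ‖u‖ ≤ 1 ∧ w = x + R * u := by
      rw [mem_closedBall_iff_norm] at hw
      rcases R0.eq_or_lt with h | h
      · refine ⟨0, by simp, ?_⟩
        rw [← h] at hw
        rw [mul_zero, add_zero, sub_eq_zero.1 (norm_le_zero_iff.1 hw)]
      · refine ⟨(w - x) / R, ?_, ?_⟩
        · rw [norm_div, Complex.norm_real, Real.norm_of_nonneg R0, div_le_one h]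
          exact hw
        · rw [mul_div_cancel₀ _ (by exact_mod_cast h.ne'), add_sub_cancel]
    refine h2 (fun n => (cr n).1 + (cr n).2 * u) _
      (hl1.add (((continuous_ofReal.tendsto _).comp hl2).mul_const u)) ?_
    filter_upwards [hev] with n hn hy
    have h3 := image_mono (compl_subset_om (hT n)) hy
    rw [(hP n).circ.ends.img] at h3
    refine h3 (mem_iUnion.2 ⟨⟨S, hn⟩, ?_⟩)
    rw [hcr n hn, mem_closedBall_iff_norm, add_sub_cancel_left, norm_mul, Complex.norm_real,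
      Real.norm_of_nonneg ((hP n).circ.r0 _)]
    exact mul_le_of_le_one_right ((hP n).circ.r0 _) hu
  · obtain ⟨ρ, hρ, h3⟩ := hU q (cmp_subset hS hq) ε hε
    filter_upwards [ball_mem_nhds q hρ] with z hz hzK
    refine le_of_tendsto_of_tendsto ((h1 z hzK).dist hl1) (hl2.add_const ε) ?_
    filter_upwards [hev] with n hn
    rw [hcr n hn]
    exact (h3 (T n) (P n) (c n) (r n) (hT n) (hP n)).1 ⟨S, hn⟩ hq
      ⟨z, ⟨hz, compl_subset_om (hT n) hzK⟩, rfl⟩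

theorem lim_pt {σ : Type} (𝒰 : Ultrafilter σ) {T : σ → Finset (Set ℂ)} {P : σ → ℂ → ℂ}
    {c : ∀ n, T n → ℂ} {r : ∀ n, T n → ℝ} (hT : ∀ n, (T n : Set (Set ℂ)) ⊆ Cmp K)
    (hP : ∀ n, Unif (T n) (P n) (c n) (r n) M) (hU : UClu K M) (hp : p ∈ K)
    (h0 : connectedComponentIn K p = {p})
    (h1 : ∀ z, z ∉ K → Tendsto (fun n => P n z) 𝒰 (𝓝 (f z))) (hε : 0 < ε) :
    ∃ ρ > 0, ∃ x : ℂ, f '' (ball p ρ ∩ Kᶜ) ⊆ closedBall x ε := by
  obtain ⟨ρ, hρ, h3⟩ := hU p hp (ε / 2) (half_pos hε)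
  refine ⟨ρ, hρ, ?_⟩
  rcases (ball p ρ ∩ Kᶜ).eq_empty_or_nonempty with h | ⟨z₀, hz₀⟩
  · exact ⟨0, by rw [h, image_empty]; exact empty_subset _⟩
  refine ⟨f z₀, ?_⟩
  rintro _ ⟨z, hz, rfl⟩
  refine le_of_tendsto' ((h1 z hz.2).dist (h1 z₀ hz₀.2)) fun n => ?_
  obtain ⟨x, hx⟩ := (h3 (T n) (P n) (c n) (r n) (hT n) (hP n)).2 h0
  have h4 : dist (P n z) x ≤ ε / 2 := hx ⟨z, ⟨hz.1, compl_subset_om (hT n) hz.2⟩, rfl⟩
  have h5 : dist (P n z₀) x ≤ ε / 2 := hx ⟨z₀, ⟨hz₀.1, compl_subset_om (hT n) hz₀.2⟩, rfl⟩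
  linarith [dist_triangle_right (P n z) (P n z₀) x]

theorem lim (hK : IsCompact K) (hc : IsConnected Kᶜ) (hM : 0 < M)
    (hA : ∀ 𝓕 : Finset (Set ℂ), (𝓕 : Set (Set ℂ)) ⊆ Cmp K →
      ∃ (F : ℂ → ℂ) (c : 𝓕 → ℂ) (r : 𝓕 → ℝ), Unif 𝓕 F c r M) (hU : UClu K M) :
    ∃ f : ℂ → ℂ, NormMap K f ∧ Clus K f := by
  classical
  let T : Finset (Cmp K) → Finset (Set ℂ) := fun n => n.map (Function.Embedding.subtype _)
  have hT : ∀ n, (T n : Set (Set ℂ)) ⊆ Cmp K := fun n S hS => by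
    obtain ⟨S', -, rfl⟩ := Finset.mem_map.1 hS
    exact S'.2
  choose P c r hP using fun n => hA (T n) (hT n)
  let 𝒰 : Ultrafilter (Finset (Cmp K)) := Ultrafilter.of atTop
  have h𝒰 : (𝒰 : Filter (Finset (Cmp K))) ≤ atTop := Ultrafilter.of_le _
  obtain ⟨f, hf, h1, h2⟩ := lim1 𝒰 (P := P) hK hc hM
    (fun n => (hP n).circ.nm.1.mono (compl_subset_om (hT n)))
    (fun n => (hP n).circ.nm.2.1.mono (compl_subset_om (hT n)))
    (fun n z hz => (hP n).sup z (compl_subset_om (hT n) hz)) fun n => (hP n).dec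
  refine ⟨f, hf, fun p hp => ?_⟩
  rcases cmp_or hp with hS | h0
  · refine lim_sq 𝒰 hT hM hP hU hS (h𝒰 ?_) h1 h2
    filter_upwards [eventually_ge_atTop ({⟨_, hS⟩} : Finset (Cmp K))] with n hn
    exact Finset.mem_map.2 ⟨⟨_, hS⟩, hn (Finset.mem_singleton_self _), rfl⟩
  · obtain ⟨x, hx, h3⟩ := lim_point hK hf hp h0 fun ε hε => lim_pt 𝒰 hT hP hU hp h0 h1 hε
    refine ⟨x, 0, le_rfl, ?_, fun q hq ε hε => ?_⟩
    · rw [closedBall_zero]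
      exact disjoint_singleton_left.2 hx
    · rw [h0, mem_singleton_iff] at hq
      rw [hq, zero_add]
      exact h3 ε hε

end Vale.P116B
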