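import Vale.Agent.P116B.Ends2

/-!
# P116B Lim1

The limit map. `Vale.Agent.Lib.RMT.montel` for `(F n - z) / M`; `hurwitz` of the same file (it wants nonvanishing for all indices: restrict the filter to the
subtype, or replace the bad indices by the constant one). The limit is not constant because `f z - z → 0`; identity theorem on the connected `Kᶜ`.
`lim_point`: `p` is in the closure of `Kᶜ` (otherwise a ball lies in the component); Cauchy filter; if the limit were `f z₀`, openness and injectivity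
(`normMap_open`) give a contradiction.
-/

namespace Vale.P116B

open Set Filter Topology MeasureTheory Metric Complex Vale.P116
open scoped ContDiff ComplexConjugate Real ENNReal Gradient

variable {ι : Type} [Fintype ι] {Q U E : ι → Set ℂ} {W : ι → ℂ → ℤ} {c : ι → ℂ} {r ρ s : ι → ℝ}
  {f g h k F G Φ Θ θ φ χ η ξ a b V : ℂ → ℂ} {K A O S Z : Set ℂ} {z p q w : ℂ} {j : ι}
  {R M t L ε : ℝ}

theorem lim1_montel {σ : Type} (𝒰 : Ultrafilter σ) {P : σ → ℂ → ℂ} (hO : IsOpen O) (hM : 0 < M)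
    (hd : ∀ n, DifferentiableOn ℂ (P n) O) (hsup : ∀ n, ∀ z ∈ O, ‖P n z - z‖ ≤ M) :
    ∃ f : ℂ → ℂ, TendstoLocallyUniformlyOn P f 𝒰 O := by
  have hM' : (M : ℂ) ≠ 0 := ofReal_ne_zero.2 hM.ne'
  obtain ⟨g, hg⟩ := Vale.Agent.Lib.RMT.montel hO 𝒰 (F := fun n z => (P n z - z) / M)
    (fun n => ((hd n).sub differentiableOn_id).div_const _) fun n z hz => by
      rw [mem_closedBall_zero_iff, norm_div, norm_real, Real.norm_of_nonneg hM.le]
      exact (div_le_one hM).2 (hsup n z hz)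
  refine ⟨fun z => M * g z + z, ?_⟩
  rw [Metric.tendstoLocallyUniformlyOn_iff] at hg ⊢
  intro ε hε x hx
  obtain ⟨t, ht, h⟩ := hg (ε / M) (div_pos hε hM) x hx
  refine ⟨t, ht, h.mono fun n hn y hy => ?_⟩
  have h1 := hn y hy
  rw [dist_eq_norm, lt_div_iff₀ hM] at h1
  have h2 : M * g y + y - P n y = (g y - (P n y - y) / M) * M := by field_simp; ring
  rw [dist_eq_norm, h2, norm_mul, norm_real, Real.norm_of_nonneg hM.le]
  exact h1

theorem lim1_hurwitz {σ : Type} {l : Filter σ} [l.NeBot] {P : σ → ℂ → ℂ} (hO : IsOpen O)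
    (hlim : TendstoLocallyUniformlyOn P f l O) (hd : ∀ n, DifferentiableOn ℂ (P n) O)
    {y : σ → ℂ} (hy : Tendsto y l (𝓝 w)) (hne : ∀ᶠ n in l, y n ∉ P n '' O) (hz : z ∈ O)
    (hfz : f z = w) : ∀ᶠ x in 𝓝 z, f x = w := by
  classical
  have h := Vale.Agent.Lib.RMT.hurwitz (l := l) hO (f := fun x => f x - w)
    (F := fun n x => if y n ∉ P n '' O then P n x - y n else 1) ?_ ?_ ?_ hz (sub_eq_zero.2 hfz)
  · exact h.mono fun x hx => sub_eq_zero.1 hx
  · rw [Metric.tendstoLocallyUniformlyOn_iff] at hlim ⊢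
    intro ε hε x hx
    obtain ⟨t, ht, h⟩ := hlim (ε / 2) (half_pos hε) x hx
    refine ⟨t, ht, ?_⟩
    filter_upwards [h, hne, Metric.tendsto_nhds.1 hy (ε / 2) (half_pos hε)] with n h1 h2 h3 u hu
    rw [if_pos h2]
    refine (dist_sub_sub_le _ _ _ _).trans_lt ?_
    rw [dist_comm w]
    linarith [h1 u hu]
  · intro n
    by_cases h : y n ∉ P n '' O
    · simp only [if_pos h]; exact (hd n).sub_const _
    · simp only [if_neg h]; exact differentiableOn_const _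
  · intro n x hx
    by_cases h : y n ∉ P n '' O
    · simp only [if_pos h]
      exact fun h0 => h ⟨x, hx, sub_eq_zero.1 h0⟩
    · simp only [if_neg h]; exact one_ne_zero

theorem lim1_nonconst (hK : IsCompact K) (hc : IsConnected Kᶜ) (hd : DifferentiableOn ℂ f Kᶜ)
    (hsup : ∀ z, z ∉ K → ‖f z - z‖ ≤ M) (hz : z ∉ K) : ¬∀ᶠ x in 𝓝 z, f x = w := by
  intro h
  have h1 : EqOn f (fun _ => w) Kᶜ :=
    (hd.analyticOnNhd hK.isClosed.isOpen_compl).eqOn_of_preconnected_of_eventuallyEq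
      analyticOnNhd_const hc.isPreconnected hz h
  refine NormedSpace.unbounded_univ ℝ ℂ
    ((hK.isBounded.union (isBounded_closedBall (x := w) (r := M))).subset fun x _ => ?_)
  by_cases hx : x ∈ K
  · exact Or.inl hx
  · have h2 := hsup x hx
    rw [h1 hx] at h2
    exact Or.inr (by rwa [mem_closedBall', dist_eq_norm])

theorem lim1 {σ : Type} (𝒰 : Ultrafilter σ) {P : σ → ℂ → ℂ} (hK : IsCompact K)
    (hc : IsConnected Kᶜ) (hM : 0 < M) (hd : ∀ n, DifferentiableOn ℂ (P n) Kᶜ)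
    (hi : ∀ n, InjOn (P n) Kᶜ) (hsup : ∀ n z, z ∉ K → ‖P n z - z‖ ≤ M)
    (hdec : ∀ n z, M ≤ ‖z‖ → ‖P n z - z‖ ≤ M / ‖z‖) :
    ∃ f : ℂ → ℂ, NormMap K f ∧ (∀ z, z ∉ K → Tendsto (fun n => P n z) 𝒰 (𝓝 (f z))) ∧
      ∀ (y : σ → ℂ) (w : ℂ), Tendsto y 𝒰 (𝓝 w) → (∀ᶠ n in 𝒰, y n ∉ P n '' Kᶜ) →
        w ∉ f '' Kᶜ := by
  have hO : IsOpen Kᶜ := hK.isClosed.isOpen_compl
  obtain ⟨f, hf⟩ := lim1_montel 𝒰 hO hM hd hsup
  have h1 : ∀ z, z ∉ K → Tendsto (fun n => P n z) 𝒰 (𝓝 (f z)) := fun z hz => hf.tendsto_at hz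
  have h2 : DifferentiableOn ℂ f Kᶜ := hf.differentiableOn (Eventually.of_forall hd) hO
  have h3 : ∀ z, z ∉ K → ‖f z - z‖ ≤ M := fun z hz =>
    le_of_tendsto' ((h1 z hz).sub_const z).norm fun n => hsup n z hz
  refine ⟨f, ⟨h2, fun u hu v hv huv => ?_, ?_⟩, h1, ?_⟩
  · by_contra hne
    refine lim1_nonconst hK hc h2 h3 hu (lim1_hurwitz (O := Kᶜ \ {v}) (hO.sdiff isClosed_singleton)
      (hf.mono sdiff_subset) (fun n => (hd n).mono sdiff_subset) (h1 v hv)
      (Eventually.of_forall fun n => ?_) ⟨hu, hne⟩ huv)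
    rintro ⟨x, hx, hxv⟩
    exact hx.2 (hi n hx.1 hv hxv)
  · have h4 := tendsto_norm_cocompact_atTop (E := ℂ)
    refine squeeze_zero_norm' ?_ ((tendsto_const_nhds (x := M)).div_atTop h4)
    filter_upwards [hK.compl_mem_cocompact, h4.eventually_ge_atTop M] with z hz hz'
    exact le_of_tendsto' ((h1 z hz).sub_const z).norm fun n => hdec n z hz'
  · rintro y w hy hne ⟨x, hx, hxw⟩
    exact lim1_nonconst hK hc h2 h3 hx (lim1_hurwitz hO hf hd hy hne hx hxw)

theorem lim_point (hK : IsCompact K) (hf : NormMap K f) (hp : p ∈ K)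
    (h1 : connectedComponentIn K p = {p})
    (h : ∀ ε > 0, ∃ ρ > 0, ∃ x : ℂ, f '' (ball p ρ ∩ Kᶜ) ⊆ closedBall x ε) :
    ∃ x : ℂ, x ∉ f '' Kᶜ ∧ ∀ ε > 0, ∀ᶠ z in 𝓝 p, z ∉ K → f z ∈ closedBall x ε := by
  have hne : (𝓝[Kᶜ] p).NeBot := by
    rw [← mem_closure_iff_nhdsWithin_neBot, Metric.mem_closure_iff]
    intro δ hδ
    by_contra hcon
    have h2 : ball p δ ⊆ K := fun x hx => by
      by_contra hx'
      exact hcon ⟨x, hx', mem_ball'.1 hx⟩
    have h3 := (convex_ball p δ).isPreconnected.subset_connectedComponentIn (mem_ball_self hδ) h2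
    rw [h1] at h3
    have h4 : p + ((δ / 2 : ℝ) : ℂ) ∈ ball p δ := by
      rw [mem_ball_iff_norm, add_sub_cancel_left, norm_real, Real.norm_of_nonneg (by linarith)]
      linarith
    have h5 : p + ((δ / 2 : ℝ) : ℂ) = p := h3 h4
    rw [add_eq_left, ofReal_eq_zero] at h5
    linarith
  have hC : Cauchy (map f (𝓝[Kᶜ] p)) := by
    refine Metric.cauchy_iff.2 ⟨hne.map f, fun ε hε => ?_⟩
    obtain ⟨ρ, hρ, x, hx⟩ := h (ε / 3) (by linarith)
    refine ⟨closedBall x (ε / 3), mem_of_superset (image_mem_map ?_) hx, fun u hu v hv => ?_⟩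
    · exact inter_mem (mem_nhdsWithin_of_mem_nhds (ball_mem_nhds p hρ)) self_mem_nhdsWithin
    · have := dist_triangle_right u v x
      rw [mem_closedBall] at hu hv
      linarith
  obtain ⟨x, hx⟩ := CompleteSpace.complete hC
  have hx' : Tendsto f (𝓝[Kᶜ] p) (𝓝 x) := hx
  refine ⟨x, ?_, fun ε hε =>
    eventually_nhdsWithin_iff.1 (hx'.eventually (closedBall_mem_nhds x hε))⟩
  rintro ⟨u, hu, rfl⟩
  have hup : 0 < dist u p := dist_pos.2 fun h0 => hu (h0 ▸ hp)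
  have hO : IsOpen (ball u (dist u p / 2) ∩ Kᶜ) := isOpen_ball.inter hK.isClosed.isOpen_compl
  have h2 := hx'.eventually ((normMap_open hK hf hO inter_subset_right).mem_nhds
    ⟨u, ⟨mem_ball_self (half_pos hup), hu⟩, rfl⟩)
  have h3 : ∀ᶠ z in 𝓝[Kᶜ] p, z ∈ ball p (dist u p / 2) :=
    mem_nhdsWithin_of_mem_nhds (ball_mem_nhds p (half_pos hup))
  obtain ⟨z, ⟨⟨v, hv, hvz⟩, hz2⟩, hz3⟩ := ((h2.and h3).and self_mem_nhdsWithin).exists
  have h4 : v = z := hf.2.1 hv.2 hz3 hvz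
  have h5 := dist_triangle_left u p z
  have h6 := mem_ball.1 hv.1
  rw [h4] at h6
  linarith [mem_ball.1 hz2]

end Vale.P116B
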