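import Vale.Agent.P116B.Back

/-!
# P116B Top

The components of the complement of the image. `sep_comp`: `connectedComponent_eq_iInter_isClopen` in the compact space `K`. Let `Z` be a component of
`E = (f '' Kᶜ)ᶜ` (compact by `NormMap.image_props`). A frontier point `w` of `Z` is in the closure of the image, so `exists_pre` gives `x ∈ K` with `w` a cluster value at `x`.
All such `x` lie in one component of `K` (`sep_comp`, `ends2`, `mem_of_cluster`, connectedness of `Z`). With the disc of `Clus` for one of them, the frontier of `Z`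
lies in the disc, so `Z` does (`frontier_hull`); the disc is connected, lies in `E` and meets `Z`.
-/

namespace Vale.P116B

open Set Filter Topology MeasureTheory Metric Complex Vale.P116
open scoped ContDiff ComplexConjugate Real ENNReal Gradient

variable {ι : Type} [Fintype ι] {Q U E : ι → Set ℂ} {W : ι → ℂ → ℤ} {c : ι → ℂ} {r ρ s : ι → ℝ}
  {f g h k F G Φ Θ θ φ χ η ξ a b V : ℂ → ℂ} {K A O S Z : Set ℂ} {z p q w : ℂ} {j : ι}
  {R M t L ε : ℝ}

theorem sep_comp (hK : IsCompact K) (hp : p ∈ K) (hq : q ∈ K) (h : q ∉ connectedComponentIn K p) :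
    ∃ K₁ K₂ : Set ℂ, IsCompact K₁ ∧ IsCompact K₂ ∧ Disjoint K₁ K₂ ∧ K₁ ∪ K₂ = K ∧ p ∈ K₁ ∧
      q ∈ K₂ := by
  have := isCompact_iff_compactSpace.1 hK
  rw [connectedComponentIn_eq_image hp, connectedComponent_eq_iInter_isClopen] at h
  have h1 : ¬∀ s : {s : Set K // IsClopen s ∧ (⟨p, hp⟩ : K) ∈ s}, (⟨q, hq⟩ : K) ∈ s.1 :=
    fun h1 => h ⟨⟨q, hq⟩, mem_iInter.2 h1, rfl⟩
  obtain ⟨⟨s, h2, h3⟩, h4⟩ := not_forall.1 h1
  refine ⟨(↑) '' s, (↑) '' sᶜ, h2.1.isCompact.image continuous_subtype_val,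
    h2.compl.1.isCompact.image continuous_subtype_val,
    disjoint_image_of_injective Subtype.val_injective disjoint_compl_right, ?_, ⟨_, h3, rfl⟩,
    ⟨_, h4, rfl⟩⟩
  rw [← image_union, union_compl_self, image_univ, Subtype.range_coe]

theorem top_same (hK : IsCompact K) (hc : IsConnected Kᶜ) (hf : NormMap K f)
    (hZ : IsPreconnected Z) (hZE : Z ⊆ (f '' Kᶜ)ᶜ) (hz : z ∈ Z) (hw : w ∈ Z) (hp : p ∈ K)
    (hq : q ∈ K) (h1 : ClusterPt z (map f (𝓝 p ⊓ 𝓟 Kᶜ)))
    (h2 : ClusterPt w (map f (𝓝 q ⊓ 𝓟 Kᶜ))) : q ∈ connectedComponentIn K p := by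
  by_contra h
  obtain ⟨K₁, K₂, k1, k2, hd, rfl, hp', hq'⟩ := sep_comp hK hp hq h
  obtain ⟨E₁, E₂, e1, e2, hd', hu, t1, t2⟩ := ends2 k1 k2 hd hc hf
  have h3 : z ∈ E₁ := mem_of_cluster e1
    (t1.mono_left (inf_le_inf_right _ (nhds_le_nhdsSet hp'))) h1
  have h4 : w ∈ E₂ := mem_of_cluster e2
    (t2.mono_left (inf_le_inf_right _ (nhds_le_nhdsSet hq'))) h2
  rcases isPreconnected_iff_subset_of_disjoint_closed.1 hZ E₁ E₂ e1.isClosed e2.isClosed
    (hu ▸ hZE) (by rw [hd'.inter_eq, inter_empty]) with h5 | h5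
  · exact disjoint_left.1 hd' (h5 hw) h4
  · exact disjoint_left.1 hd' h3 (h5 hz)

theorem top (hK : IsCompact K) (hc : IsConnected Kᶜ) (hf : NormMap K f) (h : Clus K f) :
    DiscComps (f '' Kᶜ)ᶜ := by
  intro w₀ hw₀
  obtain ⟨hE, -, -⟩ := hf.image_props hK hc
  have hZE := connectedComponentIn_subset (f '' Kᶜ)ᶜ w₀
  have hZc : IsPreconnected (connectedComponentIn (f '' Kᶜ)ᶜ w₀) :=
    isPreconnected_connectedComponentIn
  have hZ0 := mem_connectedComponentIn hw₀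
  have hZb := hE.isBounded.subset hZE
  have hcl : closure (connectedComponentIn (f '' Kᶜ)ᶜ w₀) ⊆ connectedComponentIn (f '' Kᶜ)ᶜ w₀ :=
    hZc.closure.subset_connectedComponentIn (subset_closure hZ0) (closure_minimal hZE hE.isClosed)
  have hfr : ∀ w ∈ frontier (connectedComponentIn (f '' Kᶜ)ᶜ w₀),
      ∃ x ∈ K, ClusterPt w (map f (𝓝 x ⊓ 𝓟 Kᶜ)) := fun w hw => by
    have h1 := hcl hw.1
    have h2 : w ∈ closure (f '' Kᶜ) := by
      by_contra h2
      obtain ⟨ε, hε, h3⟩ := Metric.isOpen_iff.1 isClosed_closure.isOpen_compl w h2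
      refine hw.2 (mem_interior.2 ⟨ball w ε, ?_, isOpen_ball, mem_ball_self hε⟩)
      rw [connectedComponentIn_eq h1]
      exact (convex_ball w ε).isPreconnected.subset_connectedComponentIn (mem_ball_self hε)
        (h3.trans (compl_subset_compl.2 subset_closure))
    obtain ⟨x, hx, -, h3⟩ := exists_pre hK hf subset_rfl h2 (hZE h1)
    exact ⟨x, hx, h3⟩
  obtain ⟨w₁, hw₁⟩ := nonempty_frontier_iff.2 ⟨⟨w₀, hZ0⟩, fun h1 =>
    NormedSpace.unbounded_univ ℝ ℂ (h1 ▸ hZb)⟩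
  obtain ⟨x₁, hx₁, hc₁⟩ := hfr w₁ hw₁
  obtain ⟨c, r, hr, hd, hlim⟩ := h x₁ hx₁
  have hsub : connectedComponentIn (f '' Kᶜ)ᶜ w₀ ⊆ closedBall c r := by
    refine frontier_hull hZb fun w hw => ?_
    obtain ⟨x, hx, hcx⟩ := hfr w hw
    have h1 := top_same hK hc hf hZc hZE (hcl hw₁.1) (hcl hw.1) hx₁ hx hc₁ hcx
    refine mem_closedBall.2 (le_of_forall_pos_le_add fun ε hε => ?_)
    exact isClosed_iff_clusterPt.1 (isClosed_closedBall (x := c) (ε := r + ε)) w
      (hcx.mono (le_principal_iff.2 (eventually_inf_principal.2 (hlim x h1 ε hε))))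
  exact ⟨c, r, hr, hsub.antisymm ((convex_closedBall c r).isPreconnected.subset_connectedComponentIn
    (hsub hZ0) hd.subset_compl_right)⟩

end Vale.P116B
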