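import Vale.Agent.P116B.Approx
import Vale.Agent.P116B.Clu
import Vale.Agent.P116B.Lim
import Vale.Agent.P116B.Top

/-!
# P116B Main

Part B.
-/

namespace Vale.P116B

open Set Filter Topology MeasureTheory Metric Complex Vale.P116
open scoped ContDiff ComplexConjugate Real ENNReal Gradient

variable {ι : Type} [Fintype ι] {Q U E : ι → Set ℂ} {W : ι → ℂ → ℤ} {c : ι → ℂ} {r ρ s : ι → ℝ}
  {f g h k F G Φ Θ θ φ χ η ξ a b V : ℂ → ℂ} {K A O S Z : Set ℂ} {z p q w : ℂ} {j : ι}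
  {R M t L ε : ℝ}

theorem partB : PartB := by
  intro K hK hc hs
  obtain ⟨M, hM, hA⟩ := approx hK hs
  obtain ⟨f, hf, h⟩ := lim hK hc hM hA (clu hK hs hM)
  exact ⟨f, hf, top hK hc hf h⟩

end Vale.P116B
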