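import Vale.Agent.P116B.Cutoff

/-!
# P116B NL

Null Lagrangian identity. `nl1`: the integrand is `-(I / 2) * (a_x g_y - a_y g_x)`; integrate by parts twice
(`integral_bilinear_hasFDerivAt_right_eq_neg_left_of_integrable` or `integral_mul_fderiv_eq_neg_fderiv_mul_of_integrable`)
and use the symmetry of the second derivative (`ContDiffAt.isSymmSndFDerivAt`); or split in real and imaginary parts and
use `integral_det_eq_zero` of Lib.Degree. `nl1_on`: take a cutoff `κ` equal to one near the compact set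
`tsupport (fderiv ℝ a)` with support in `O` and apply `nl1` to `κ * b`.
-/

namespace Vale.P116B

open Set Filter Topology MeasureTheory Metric Complex Vale.P116
open scoped ContDiff ComplexConjugate Real ENNReal Gradient

variable {ι : Type} [Fintype ι] {Q U E : ι → Set ℂ} {W : ι → ℂ → ℤ} {c : ι → ℂ} {r ρ s : ι → ℝ}
  {f g h k F G Φ Θ θ φ χ η ξ a b V : ℂ → ℂ} {K A O S Z : Set ℂ} {z p q w : ℂ} {j : ι}
  {R M t L ε : ℝ}

theorem NL_int_fd (ha : Cc a) (v : ℂ) : ∫ z, fderiv ℝ a z v = 0 := by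
  have hc : Continuous fun z => fderiv ℝ a z v :=
    (ha.1.continuous_fderiv (by simp)).clm_apply continuous_const
  have hs : HasCompactSupport fun z => fderiv ℝ a z v := ha.2.fderiv_apply ℝ v
  have h := integral_mul_fderiv_eq_neg_fderiv_mul_of_integrable (μ := (volume : Measure ℂ))
    (f := fun _ : ℂ => (1 : ℂ)) (g := a) (v := v) (by simp)
    (by simpa using hc.integrable_of_hasCompactSupport hs) (by simpa using ha.integrable)
    (fun x _ => differentiableAt_const _) (fun x _ => ha.diffAt x)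
  simpa using h

theorem NL_intg_fd (ha : Cc a) (v : ℂ) : Integrable fun z => fderiv ℝ a z v :=
  ((ha.1.continuous_fderiv (by simp)).clm_apply continuous_const).integrable_of_hasCompactSupport
    (ha.2.fderiv_apply ℝ v)

theorem NL_int_db (ha : Cc a) : ∫ z, db a z = 0 := by
  unfold db
  rw [integral_div, integral_add (NL_intg_fd ha 1) ((NL_intg_fd ha I).const_mul I),
    integral_const_mul, NL_int_fd ha, NL_int_fd ha]
  simp

theorem NL_int_dz (ha : Cc a) : ∫ z, dz a z = 0 := by
  unfold dz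
  rw [integral_div, integral_sub (NL_intg_fd ha 1) ((NL_intg_fd ha I).const_mul I),
    integral_const_mul, NL_int_fd ha, NL_int_fd ha]
  simp

theorem NL_fd (hg : ContDiff ℝ ∞ g) (z u v : ℂ) :
    fderiv ℝ (fun x => (fderiv ℝ g x 1 + u * fderiv ℝ g x I) / 2) z v =
      (fderiv ℝ (fderiv ℝ g) z v 1 + u * fderiv ℝ (fderiv ℝ g) z v I) / 2 := by
  have h0 : DifferentiableAt ℝ (fderiv ℝ g) z :=
    ((hg.fderiv_right (m := 1) (by norm_cast)).differentiable (by simp)) z
  have h1 : ∀ y : ℂ, HasFDerivAt (fun x => fderiv ℝ g x y)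
      ((ContinuousLinearMap.apply ℝ ℂ y).comp (fderiv ℝ (fderiv ℝ g) z)) z := fun y =>
    (ContinuousLinearMap.apply ℝ ℂ y).hasFDerivAt.comp z h0.hasFDerivAt
  have h2 := (((h1 1).add ((h1 I).const_mul u)).mul_const (2⁻¹ : ℂ)).fderiv
  have h3 : (fun x => (fderiv ℝ g x 1 + u * fderiv ℝ g x I) / 2) =
      fun x => ((fun x => fderiv ℝ g x 1) + fun x => u * fderiv ℝ g x I) x * (2⁻¹ : ℂ) := by
    funext x
    simp [div_eq_mul_inv]
  rw [h3, h2]
  simp
  ring

theorem NL_symm (hg : ContDiff ℝ ∞ g) (z : ℂ) : db (dz g) z = dz (db g) z := by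
  have hs : IsSymmSndFDerivAt ℝ g z := hg.contDiffAt.isSymmSndFDerivAt (by simp; norm_cast)
  have e1 : dz g = fun x => (fderiv ℝ g x 1 + (-I) * fderiv ℝ g x I) / 2 := by
    funext x
    unfold dz
    ring
  have e2 : db g = fun x => (fderiv ℝ g x 1 + I * fderiv ℝ g x I) / 2 := rfl
  have e3 : db (dz g) z = (fderiv ℝ (dz g) z 1 + I * fderiv ℝ (dz g) z I) / 2 := rfl
  have e4 : dz (db g) z = (fderiv ℝ (db g) z 1 - I * fderiv ℝ (db g) z I) / 2 := rfl
  rw [e3, e4, e1, e2, NL_fd hg, NL_fd hg, NL_fd hg, NL_fd hg, hs.eq 1 I]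
  ring

theorem nl1 (ha : Cc a) (hg : ContDiff ℝ ∞ g) :
    ∫ z, (db a z * dz g z - dz a z * db g z) = 0 := by
  have h1 := NL_int_db (ha.mul (contDiff_dz hg))
  have h2 := NL_int_dz (ha.mul (contDiff_db hg))
  have i1 := (ha.mul (contDiff_dz hg)).db.integrable
  have i2 := (ha.mul (contDiff_db hg)).dz.integrable
  have h3 := integral_sub i1 i2
  rw [h1, h2, sub_zero] at h3
  rw [← h3]
  refine integral_congr_ae (Eventually.of_forall fun z => ?_)
  have d1 : DifferentiableAt ℝ (dz g) z := ((contDiff_dz hg).differentiable (by simp)) z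
  have d2 : DifferentiableAt ℝ (db g) z := ((contDiff_db hg).differentiable (by simp)) z
  change _ = db (fun z => a z * dz g z) z - dz (fun z => a z * db g z) z
  rw [db_mul (ha.diffAt z) d1, dz_mul (ha.diffAt z) d2, NL_symm hg]
  ring

theorem nl1_on (ha : Cc a) (hO : IsOpen O) (hs : tsupport (fderiv ℝ a) ⊆ O)
    (hb : ContDiffOn ℝ ∞ b O) : ∫ z, (db a z * dz b z - dz a z * db b z) = 0 := by
  have hA : IsCompact (tsupport (fderiv ℝ a)) := ha.2.fderiv ℝ
  obtain ⟨κ, hκ, -, hκO, hκ1⟩ := exists_cut hA hO hs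
  have h := nl1 ha (ext0 hO hκ.1 hκO hb)
  rw [← h]
  refine integral_congr_ae (Eventually.of_forall fun z => ?_)
  change db a z * dz b z - dz a z * db b z =
    db a z * dz (fun z => κ z * b z) z - dz a z * db (fun z => κ z * b z) z
  by_cases hz : z ∈ tsupport (fderiv ℝ a)
  · have he : (fun z => κ z * b z) =ᶠ[𝓝 z] b := by
      filter_upwards [hκ1.filter_mono (nhds_le_nhdsSet hz)] with x hx
      rw [hx, one_mul]
    rw [db_congr he, dz_congr he]
  · have h0 : fderiv ℝ a z = 0 := image_eq_zero_of_notMem_tsupport hz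
    rw [db_of_fderiv h0, dz_of_fderiv h0]
    simp

theorem int_db (ha : Cc a) : ∫ z, db a z = 0 := NL_int_db ha

theorem int_dz (ha : Cc a) : ∫ z, dz a z = 0 := NL_int_dz ha

theorem int_hol_db (hO : IsOpen O) (hG : DifferentiableOn ℂ G O) (hφ : Cc φ)
    (hs : tsupport φ ⊆ O) : ∫ z, G z * db φ z = 0 := by
  have h := int_db (hφ.mul_on hO hs (contDiffOn_hol hO hG))
  rw [← h]
  refine integral_congr_ae (Eventually.of_forall fun z => ?_)
  change G z * db φ z = db (fun z => φ z * G z) z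
  by_cases hz : z ∈ O
  · have hd : DifferentiableAt ℂ G z := hG.differentiableAt (hO.mem_nhds hz)
    rw [db_mul (hφ.diffAt z) (hd.restrictScalars ℝ), db_hol hd]
    ring
  · have h1 : z ∉ tsupport φ := fun h => hz (hs h)
    have h2 : z ∉ tsupport fun z => φ z * G z := fun h => h1 (tsupport_mul_subset_left h)
    rw [db_notMem h1, db_notMem h2, mul_zero]

theorem int_deriv_db (hO : IsOpen O) (hG : DifferentiableOn ℂ G O) (hχ : Cc χ)
    (hs : tsupport (fderiv ℝ χ) ⊆ O) : ∫ z, deriv G z * db χ z = 0 := by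
  have h := nl1_on hχ hO hs (contDiffOn_hol hO hG)
  rw [← h]
  refine integral_congr_ae (Eventually.of_forall fun z => ?_)
  change deriv G z * db χ z = db χ z * dz G z - dz χ z * db G z
  by_cases hz : z ∈ O
  · have hd : DifferentiableAt ℂ G z := hG.differentiableAt (hO.mem_nhds hz)
    rw [dz_hol hd, db_hol hd]
    ring
  · have h0 : fderiv ℝ χ z = 0 := image_eq_zero_of_notMem_tsupport fun h => hz (hs h)
    rw [db_of_fderiv h0, dz_of_fderiv h0]
    simp

end Vale.P116B
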