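import Vale.Agent.P116B.NL
import Vale.Agent.P116B.CT

/-!
# P116B NL2

Degree one identities. `nl4`: `nl1` for `a = χ * Θ ∘ g` and the chain rule. `nl2`: `Θ = cauchyT θ`, `χ = η` equal to one
on a ball that contains the support of `θ`, of `θ ∘ g` and of `g - id`; apply `nl4` to `g` and to the identity; where
`fderiv η ≠ 0` the map `g` is the identity nearby. `nl3`: write `g = id + u` with `Cc u`; then
`jac g - 1 = 2 re (dz u) + (db (conj u) * dz u - dz (conj u) * db u)`; use `int_dz` and `nl1`.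
-/

namespace Vale.P116B

open Set Filter Topology MeasureTheory Metric Complex Vale.P116
open scoped ContDiff ComplexConjugate Real ENNReal Gradient

variable {ι : Type} [Fintype ι] {Q U E : ι → Set ℂ} {W : ι → ℂ → ℤ} {c : ι → ℂ} {r ρ s : ι → ℝ}
  {f g h k F G Φ Θ θ φ χ η ξ a b V : ℂ → ℂ} {K A O S Z : Set ℂ} {z p q w : ℂ} {j : ι}
  {R M t L ε : ℝ}

lemma nl2_jac (g : ℂ → ℂ) (z : ℂ) :
    (jac g z : ℂ) = conj (dz g z) * dz g z - conj (db g z) * db g z := by
  rw [jac, Complex.conj_mul', Complex.conj_mul']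
  push_cast
  ring

theorem nl4 (hχ : Cc χ) (hΘ : ContDiff ℝ ∞ Θ) (hg : ContDiff ℝ ∞ g) :
    ∫ z, Θ (g z) * (db χ z * dz g z - dz χ z * db g z) =
      -∫ z, χ z * (db Θ (g z) * (jac g z : ℂ)) := by
  have hc : ContDiff ℝ ∞ fun z => Θ (g z) := hΘ.comp hg
  have h0 := nl1 (hχ.mul hc) hg
  have dg : ∀ z, DifferentiableAt ℝ g z := fun z => hg.differentiable (by simp) z
  have dΘ : ∀ z, DifferentiableAt ℝ Θ z := fun z => hΘ.differentiable (by simp) z
  have dc : ∀ z, DifferentiableAt ℝ (fun z => Θ (g z)) z := fun z => hc.differentiable (by simp) z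
  have h1 : ∀ z, db (fun z => χ z * Θ (g z)) z * dz g z - dz (fun z => χ z * Θ (g z)) z * db g z =
      Θ (g z) * (db χ z * dz g z - dz χ z * db g z) +
        χ z * (db Θ (g z) * (jac g z : ℂ)) := by
    intro z
    rw [db_mul (hχ.diffAt z) (dc z), dz_mul (hχ.diffAt z) (dc z), db_comp (dΘ _) (dg z),
      dz_comp (dΘ _) (dg z), nl2_jac]
    ring
  have i1 : Integrable fun z => Θ (g z) * (db χ z * dz g z - dz χ z * db g z) := by
    have := (((hχ.db.mul (contDiff_dz hg)).sub (hχ.dz.mul (contDiff_db hg))).mul hc).integrable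
    simpa only [mul_comm (Θ (g _))] using this
  have i2 : Integrable fun z => χ z * (db Θ (g z) * (jac g z : ℂ)) := by
    refine Continuous.integrable_of_hasCompactSupport ?_ hχ.2.mul_right
    exact hχ.1.continuous.mul (((contDiff_db hΘ).continuous.comp hg.continuous).mul
      (continuous_ofReal.comp (continuous_jac hg)))
  simp only [h1] at h0
  rw [integral_add i1 i2] at h0
  exact eq_neg_of_add_eq_zero_left h0

lemma nl2_near (hR : ∀ z, R ≤ ‖z‖ → g z = z) (hz : R < ‖z‖) : g =ᶠ[𝓝 z] fun w => w := by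
  have : ∀ᶠ w in 𝓝 z, R < ‖w‖ := (isOpen_lt continuous_const continuous_norm).mem_nhds hz
  exact this.mono fun w hw => hR w hw.le

theorem nl2 (hg : ContDiff ℝ ∞ g) (hR : ∀ z, R ≤ ‖z‖ → g z = z) (hθ : Cc θ) :
    ∫ z, θ (g z) * (jac g z : ℂ) = ∫ w, θ w := by
  obtain ⟨R1, hR1⟩ := hθ.far
  obtain ⟨C, -, hC⟩ := exists_eta
  obtain ⟨η, hη, -, h1, -, h2, -⟩ := hC (max (max R R1) 0 + 1) (by positivity)
  have hRR : R < max (max R R1) 0 + 1 :=
    lt_of_le_of_lt ((le_max_left R R1).trans (le_max_left _ 0)) (lt_add_one _)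
  have hR1R : R1 < max (max R R1) 0 + 1 :=
    lt_of_le_of_lt ((le_max_right R R1).trans (le_max_left _ 0)) (lt_add_one _)
  have a1 := nl4 hη (cauchyT_smooth hθ) hg
  have a2 := nl4 (g := fun w => w) hη (cauchyT_smooth hθ) contDiff_id
  have e1 : ∀ z, cauchyT θ (g z) * (db η z * dz g z - dz η z * db g z) =
      cauchyT θ z * (db η z * dz (fun w => w) z - dz η z * db (fun w => w) z) := by
    intro z
    rcases lt_or_ge ‖z‖ (max (max R R1) 0 + 1) with hz | hz
    · rw [db_of_fderiv (h2 z (Or.inl hz)), dz_of_fderiv (h2 z (Or.inl hz))]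
      simp
    · have hn := nl2_near hR (hRR.trans_le hz)
      rw [db_congr hn, dz_congr hn, hR z (hRR.trans_le hz).le]
  have e2 : ∀ z, η z * (db (cauchyT θ) (g z) * (jac g z : ℂ)) = θ (g z) * (jac g z : ℂ) := by
    intro z
    rw [db_cauchyT hθ]
    rcases le_total ‖z‖ (max (max R R1) 0 + 1) with hz | hz
    · rw [h1 z hz, one_mul]
    · rw [hR z (hRR.le.trans hz), hR1 z (hR1R.le.trans hz)]
      simp
  have e3 : ∀ z, η z * (db (cauchyT θ) z * (jac (fun w => w) z : ℂ)) = θ z := by
    intro z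
    rw [db_cauchyT hθ, nl2_jac, db_id, dz_id]
    rcases le_total ‖z‖ (max (max R R1) 0 + 1) with hz | hz
    · rw [h1 z hz]
      simp
    · rw [hR1 z (hR1R.le.trans hz)]
      simp
  simp only [e1, e2] at a1
  simp only [e3] at a2
  exact neg_injective (a1.symm.trans a2)

theorem nl3 (hg : ContDiff ℝ ∞ g) (hR : ∀ z, R ≤ ‖z‖ → g z = z) :
    Integrable (fun z => jac g z - 1) ∧ ∫ z, (jac g z - 1) = 0 := by
  have hu : Cc fun z => g z - z := by
    refine ⟨hg.sub contDiff_id, HasCompactSupport.intro (isCompact_closedBall (0 : ℂ) R) ?_⟩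
    intro z hz
    rw [mem_closedBall_zero_iff, not_le] at hz
    rw [hR z hz.le, sub_self]
  have hv : Cc fun z => conj (g z - z) :=
    ⟨Complex.conjCLE.contDiff.comp hu.1, hu.2.comp_left (g := conj) (map_zero _)⟩
  have dg : ∀ z, DifferentiableAt ℝ g z := fun z => hg.differentiable (by simp) z
  have e : ∀ z, ((jac g z - 1 : ℝ) : ℂ) =
      (dz (fun z => g z - z) z + db (fun z => conj (g z - z)) z) +
        (db (fun z => conj (g z - z)) z * dz (fun z => g z - z) z -
          dz (fun z => conj (g z - z)) z * db (fun z => g z - z) z) := by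
    intro z
    rw [db_conj (fun z => g z - z), dz_conj (fun z => g z - z),
      db_sub (g := fun w => w) (dg z) differentiableAt_id,
      dz_sub (g := fun w => w) (dg z) differentiableAt_id, db_id, dz_id]
    push_cast
    rw [nl2_jac]
    simp only [map_sub, map_one, map_zero]
    ring
  have i1 := hu.dz.integrable
  have i2 := hv.db.integrable
  have i3 := ((hv.db.mul hu.dz.1).sub (hv.dz.mul hu.db.1)).integrable
  have i12 : Integrable fun z =>
      dz (fun z => g z - z) z + db (fun z => conj (g z - z)) z := i1.add i2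
  have i4 : Integrable fun z => ((jac g z - 1 : ℝ) : ℂ) := by
    simp only [e]
    exact i12.add i3
  refine ⟨by simpa using i4.re, ?_⟩
  have h0 : ∫ z, ((jac g z - 1 : ℝ) : ℂ) = 0 := by
    simp only [e]
    rw [integral_add i12 i3, integral_add i1 i2, int_dz hu, int_db hv, nl1 hv hu.1]
    simp
  rw [integral_complex_ofReal] at h0
  exact_mod_cast h0

end Vale.P116B
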