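import Vale.Agent.P116B.Cutoff

/-!
# P116B Polar

Polar coordinates (`Complex.lintegral_comp_polarCoord_symm`, translation by `p`, `lintegral_prod`). Write `arcL` as the integral over `Ioo (-π) π` of an
indicator; `measurable_deriv`; `Measurable.lintegral_prod_right`.
-/

namespace Vale.P116B

open Set Filter Topology MeasureTheory Metric Complex Vale.P116
open scoped ContDiff ComplexConjugate Real ENNReal Gradient

variable {ι : Type} [Fintype ι] {Q U E : ι → Set ℂ} {W : ι → ℂ → ℤ} {c : ι → ℂ} {r ρ s : ι → ℝ}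
  {f g h k F G Φ Θ θ φ χ η ξ a b V : ℂ → ℂ} {K A O S Z : Set ℂ} {z p q w : ℂ} {j : ι}
  {R M t L ε : ℝ}

theorem polar_cm (p : ℂ) : Continuous fun x : ℝ × ℝ => circleMap p x.1 x.2 := by
  unfold circleMap
  fun_prop

theorem polar_meas (hQ : Fam Q) (F : ℂ → ℂ) (p : ℂ) : Measurable fun x : ℝ × ℝ =>
    ENNReal.ofReal x.1 * (Om Q).indicator (fun z => ‖deriv F z‖ₑ) (circleMap p x.1 x.2) :=
  (ENNReal.measurable_ofReal.comp measurable_fst).mul
    (((measurable_deriv F).enorm.indicator hQ.isOpen.measurableSet).comp (polar_cm p).measurable)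

theorem polar_arc (hQ : Fam Q) (F : ℂ → ℂ) (p : ℂ) (t : ℝ) :
    arcL Q F p t = ∫⁻ θ in Ioo (-π) π, ENNReal.ofReal t *
      (Om Q).indicator (fun z => ‖deriv F z‖ₑ) (circleMap p t θ) := by
  unfold arcL
  have hm : MeasurableSet {θ : ℝ | circleMap p t θ ∈ Om Q} :=
    (hQ.isOpen.preimage (continuous_circleMap p t)).measurableSet
  rw [inter_comm, ← Measure.restrict_restrict hm, ← lintegral_indicator hm]
  refine lintegral_congr fun θ => ?_
  by_cases h : circleMap p t θ ∈ Om Q
  · rw [indicator_of_mem (show θ ∈ {θ : ℝ | circleMap p t θ ∈ Om Q} from h), indicator_of_mem h]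
  · rw [indicator_of_notMem (show θ ∉ {θ : ℝ | circleMap p t θ ∈ Om Q} from h),
      indicator_of_notMem h, mul_zero]

theorem measurable_arcL (hQ : Fam Q) (F : ℂ → ℂ) (p : ℂ) : Measurable (arcL Q F p) := by
  have : arcL Q F p = fun t => ∫⁻ θ in Ioo (-π) π, ENNReal.ofReal t *
      (Om Q).indicator (fun z => ‖deriv F z‖ₑ) (circleMap p t θ) := funext (polar_arc hQ F p)
  rw [this]
  exact (polar_meas hQ F p).lintegral_prod_right'

theorem polar (hQ : Fam Q) (F : ℂ → ℂ) (p : ℂ) (hR : 0 < R) :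
    ∫⁻ t in Icc (R / 2) R, arcL Q F p t = ∫⁻ z in ann p R ∩ Om Q, ‖deriv F z‖ₑ := by
  have hann : MeasurableSet (ann p R) := by
    have hc : Continuous fun z : ℂ => ‖z - p‖ := by fun_prop
    exact (isClosed_le (continuous_const (y := R / 2)) hc).measurableSet.inter
      (isClosed_le hc (continuous_const (y := R))).measurableSet
  have hmS : MeasurableSet (ann p R ∩ Om Q) := hann.inter hQ.isOpen.measurableSet
  rw [← lintegral_indicator hmS, ← lintegral_add_left_eq_self _ p,
    ← Complex.lintegral_comp_polarCoord_symm]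
  have hsub : Icc (R / 2) R ⊆ Ioi (0 : ℝ) := fun t ht => lt_of_lt_of_le (half_pos hR) ht.1
  have hL : ∫⁻ t in Icc (R / 2) R, arcL Q F p t =
      ∫⁻ x in Icc (R / 2) R ×ˢ Ioo (-π) π, ENNReal.ofReal x.1 *
        (Om Q).indicator (fun z => ‖deriv F z‖ₑ) (circleMap p x.1 x.2) := by
    rw [Measure.volume_eq_prod, ← Measure.prod_restrict,
      lintegral_prod _ (polar_meas hQ F p).aemeasurable]
    exact lintegral_congr fun t => polar_arc hQ F p t
  have hmI : MeasurableSet (Icc (R / 2) R ×ˢ (univ : Set ℝ)) :=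
    measurableSet_Icc.prod MeasurableSet.univ
  have hset : Icc (R / 2) R ×ˢ Ioo (-π) π =
      (Icc (R / 2) R ×ˢ (univ : Set ℝ)) ∩ polarCoord.target := by
    rw [polarCoord_target, prod_inter_prod, univ_inter, inter_eq_left.2 hsub]
  rw [hL, hset, ← Measure.restrict_restrict hmI, ← lintegral_indicator hmI]
  refine setLIntegral_congr_fun polarCoord.open_target.measurableSet fun x hx => ?_
  have hx0 : 0 < x.1 := by
    rw [polarCoord_target] at hx
    exact hx.1
  have hcm : p + Complex.polarCoord.symm x = circleMap p x.1 x.2 := by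
    rw [Complex.polarCoord_symm_apply, circleMap, Complex.exp_mul_I, Complex.ofReal_cos,
      Complex.ofReal_sin]
  have hn : ‖circleMap p x.1 x.2 - p‖ = x.1 := by
    rw [circleMap_sub_center, norm_circleMap_zero, abs_of_pos hx0]
  simp only [hcm, smul_eq_mul]
  by_cases h : x.1 ∈ Icc (R / 2) R
  · rw [indicator_of_mem (show x ∈ Icc (R / 2) R ×ˢ (univ : Set ℝ) from ⟨h, mem_univ _⟩)]
    have ha : circleMap p x.1 x.2 ∈ ann p R := by
      unfold ann
      rw [mem_ofPred_eq, hn]
      exact h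
    by_cases h2 : circleMap p x.1 x.2 ∈ Om Q
    · rw [indicator_of_mem h2, indicator_of_mem (show _ ∈ ann p R ∩ Om Q from ⟨ha, h2⟩)]
    · rw [indicator_of_notMem h2, indicator_of_notMem (fun h' => h2 h'.2)]
  · rw [indicator_of_notMem (show x ∉ Icc (R / 2) R ×ˢ (univ : Set ℝ) from fun h' => h h'.1)]
    have ha : circleMap p x.1 x.2 ∉ ann p R ∩ Om Q := by
      intro h'
      have := h'.1
      unfold ann at this
      rw [mem_ofPred_eq, hn] at this
      exact h this
    rw [indicator_of_notMem ha, mul_zero]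

end Vale.P116B
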