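import Vale.Agent.P116B.Cutoff
import Vale.Agent.P116B.CT

/-!
# P116B Prim1

Cauchy representation off a compact set. Apply `pompeiu` to `(η - χ) * ξ` with `η` from `exists_eta` and `R` large
(`Cc.mul_on` with `O = Kᶜ`); `db` of it is `ξ * (db η - db χ)`. The term with `η` is at most
`sup_{R ≤ ‖ζ‖} ‖ξ‖ * (C / R) * (2 / R) * (4 π R ^ 2)`, which tends to zero.
-/

namespace Vale.P116B

open Set Filter Topology MeasureTheory Metric Complex Vale.P116
open scoped ContDiff ComplexConjugate Real ENNReal Gradient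

variable {ι : Type} [Fintype ι] {Q U E : ι → Set ℂ} {W : ι → ℂ → ℤ} {c : ι → ℂ} {r ρ s : ι → ℝ}
  {f g h k F G Φ Θ θ φ χ η ξ a b V : ℂ → ℂ} {K A O S Z : Set ℂ} {z p q w : ℂ} {j : ι}
  {R M t L ε : ℝ}

theorem Prim1_db (h1 : ∀ᶠ z in 𝓝ˢ K, χ z = 1) (hw : w ∈ K) : db χ =ᶠ[𝓝 w] 0 := by
  have h : ∀ᶠ z in 𝓝 w, χ z = 1 := h1.filter_mono (nhds_le_nhdsSet hw)
  filter_upwards [h.eventually_nhds] with u hu
  rw [db_congr (g := fun _ => 1) hu, db_const]
  rfl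

theorem Prim1_cc (hK : IsCompact K) (hd : DifferentiableOn ℂ ξ Kᶜ) (hχ : Cc χ)
    (h1 : ∀ᶠ z in 𝓝ˢ K, χ z = 1) : Cc fun w => db χ w * ξ w :=
  hχ.db.mul_on hK.isClosed.isOpen_compl
    (fun _ hw hK' => notMem_tsupport_iff_eventuallyEq.2 (Prim1_db h1 hK') hw)
    (contDiffOn_hol hK.isClosed.isOpen_compl hd)

theorem Prim1_two (hK : IsCompact K) (hd : DifferentiableOn ℂ ξ Kᶜ) (hχ : Cc χ)
    (h1 : ∀ᶠ z in 𝓝ˢ K, χ z = 1) (hη : Cc η) (h2 : ∀ᶠ z in 𝓝ˢ K, η z = 1) (z : ℂ) :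
    (∫ w, db η w * ξ w / (w - z)) - ∫ w, db χ w * ξ w / (w - z) =
      -(π : ℂ) * ((η z - χ z) * ξ z) := by
  have hO := hK.isClosed.isOpen_compl
  have h0 : ∀ w ∈ K, (fun u => η u - χ u) =ᶠ[𝓝 w] 0 := fun w hw => by
    filter_upwards [h1.filter_mono (nhds_le_nhdsSet hw), h2.filter_mono (nhds_le_nhdsSet hw)]
      with u a b
    simp [a, b]
  have hφ : Cc fun u => (η u - χ u) * ξ u := (hη.sub hχ).mul_on hO
    (fun w hw hK' => notMem_tsupport_iff_eventuallyEq.2 (h0 w hK') hw) (contDiffOn_hol hO hd)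
  have c1 := Prim1_cc hK hd hχ h1
  have c2 := Prim1_cc hK hd hη h2
  rw [← pompeiu hφ z, ← integral_sub (int_div c2.1.continuous c2.2 z)
    (int_div c1.1.continuous c1.2 z)]
  refine integral_congr_ae (Eventually.of_forall fun w => ?_)
  by_cases hw : w ∈ K
  · have e : (fun u => (η u - χ u) * ξ u) =ᶠ[𝓝 w] fun _ => 0 := by
      filter_upwards [h0 w hw] with u hu
      simp only [Pi.zero_apply] at hu
      rw [hu, zero_mul]
    simp only [db_congr e, db_const, (Prim1_db h1 hw).eq_of_nhds, (Prim1_db h2 hw).eq_of_nhds,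
      Pi.zero_apply, zero_mul, zero_div, sub_zero]
  · have hx : DifferentiableAt ℂ ξ w := hd.differentiableAt (hO.mem_nhds hw)
    simp only []
    rw [db_mul ((hη.sub hχ).diffAt w) (hx.restrictScalars ℝ), db_hol hx,
      db_sub (hη.diffAt w) (hχ.diffAt w)]
    ring

theorem Prim1_bd {C : ℝ} (hR : 0 < R) (hC : 0 < C) (hε : 0 < ε) (hz : 2 * ‖z‖ ≤ R)
    (hξ : ∀ w, R ≤ ‖w‖ → ‖ξ w‖ ≤ ε) (h1 : ∀ z, ‖z‖ < R ∨ 2 * R < ‖z‖ → fderiv ℝ η z = 0)
    (h2 : ∀ z, ‖fderiv ℝ η z‖ ≤ C / R) : ‖∫ w, db η w * ξ w / (w - z)‖ ≤ 8 * π * C * ε := by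
  rw [← setIntegral_eq_integral_of_forall_compl_eq_zero (s := closedBall 0 (2 * R)) fun w hw => by
    rw [db_of_fderiv (h1 w (Or.inr (by simpa using hw))), zero_mul, zero_div]]
  refine (norm_setIntegral_le_of_norm_le_const (C := C / R * ε / (R / 2))
    measure_closedBall_lt_top fun w _ => ?_).trans (le_of_eq ?_)
  · rcases lt_or_ge ‖w‖ R with hw | hw
    · rw [db_of_fderiv (h1 w (Or.inl hw)), zero_mul, zero_div, norm_zero]
      positivity
    · have h3 : R / 2 ≤ ‖w - z‖ := by linarith [norm_sub_norm_le w z]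
      rw [norm_div, norm_mul]
      gcongr
      · exact (norm_db_le η w).trans (h2 w)
      · exact hξ w hw
  · rw [Measure.real, Complex.volume_closedBall, ENNReal.toReal_mul, ENNReal.toReal_pow,
      ENNReal.toReal_ofReal (by positivity)]
    simp only [ENNReal.coe_toReal, NNReal.coe_real_pi]
    field_simp
    norm_num

theorem cauchy_repr (hK : IsCompact K) (hd : DifferentiableOn ℂ ξ Kᶜ)
    (h0 : Tendsto ξ (cocompact ℂ) (𝓝 0)) (hχ : Cc χ) (h1 : ∀ᶠ z in 𝓝ˢ K, χ z = 1)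
    (hz : z ∉ tsupport χ) : ξ z = (π : ℂ)⁻¹ * ∫ ζ, ξ ζ * db χ ζ / (ζ - z) := by
  obtain ⟨C, hC, hη⟩ := exists_eta
  have hπ : (π : ℂ) ≠ 0 := ofReal_ne_zero.2 Real.pi_ne_zero
  have key : ∀ ε : ℝ, 0 < ε →
      ‖(∫ w, db χ w * ξ w / (w - z)) - π * ξ z‖ ≤ 8 * π * C * ε := by
    intro ε hε
    have h := h0.eventually (closedBall_mem_nhds (0 : ℂ) hε)
    rw [← cobounded_eq_cocompact, ← comap_norm_atTop, eventually_comap, eventually_atTop] at h
    obtain ⟨R₁, hR₁⟩ := h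
    obtain ⟨R₂, hR₂, hKR⟩ := hK.isBounded.subset_ball_lt 0 0
    obtain ⟨R, hR, a1, a2, a3⟩ : ∃ R : ℝ, 0 < R ∧ R₁ ≤ R ∧ R₂ ≤ R ∧ 2 * ‖z‖ ≤ R :=
      ⟨max (max R₁ R₂) (2 * ‖z‖), hR₂.trans_le ((le_max_right _ _).trans (le_max_left _ _)),
        (le_max_left _ _).trans (le_max_left _ _), (le_max_right _ _).trans (le_max_left _ _),
        le_max_right _ _⟩
    obtain ⟨η, b1, -, b3, -, b5, b6⟩ := hη R hR
    have h2 : ∀ᶠ u in 𝓝ˢ K, η u = 1 := by
      filter_upwards [isOpen_ball.mem_nhdsSet.2 hKR] with u hu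
      exact b3 u ((mem_ball_zero_iff.1 hu).le.trans a2)
    have e := Prim1_two hK hd hχ h1 b1 h2 z
    rw [b3 z (by linarith [norm_nonneg z]), image_eq_zero_of_notMem_tsupport hz] at e
    have e' : (∫ w, db χ w * ξ w / (w - z)) - π * ξ z = ∫ w, db η w * ξ w / (w - z) := by
      linear_combination -e
    rw [e']
    exact Prim1_bd hR hC hε a3
      (fun w hw => mem_closedBall_zero_iff.1 (hR₁ _ (a1.trans hw) w rfl)) b5 b6
  have h : ‖(∫ w, db χ w * ξ w / (w - z)) - π * ξ z‖ ≤ 0 := by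
    refine le_of_forall_pos_le_add fun δ hδ => ?_
    have := Real.pi_pos
    have h := key (δ / (8 * π * C)) (by positivity)
    rwa [mul_div_cancel₀ _ (by positivity), ← zero_add δ] at h
  simp only [mul_comm (ξ _) (db χ _)]
  rw [sub_eq_zero.1 (norm_le_zero_iff.1 h), inv_mul_cancel_left₀ hπ]

end Vale.P116B
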