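import Vale.Agent.P116B.Basic

/-!
# P116B Prim2

The logarithmic potential of a density of total mass zero on a convex set. `slit`: if the quotient is a real number
`-t ≤ 0` then `z` lies on the segment from `ζ` to `p`. Differentiate under the integral with
`hasDerivAt_integral_of_dominated_loc_of_deriv_le` (on a small ball around `z` the derivative
`(z - ζ)⁻¹ - (z - p)⁻¹` is bounded); limit at infinity by dominated convergence or `‖log (1 + u)‖ ≤ 3 / 2 * ‖u‖`.
-/

namespace Vale.P116B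

open Set Filter Topology MeasureTheory Metric Complex Vale.P116
open scoped ContDiff ComplexConjugate Real ENNReal Gradient

variable {ι : Type} [Fintype ι] {Q U E : ι → Set ℂ} {W : ι → ℂ → ℤ} {c : ι → ℂ} {r ρ s : ι → ℝ}
  {f g h k F G Φ Θ θ φ χ η ξ a b V : ℂ → ℂ} {K A O S Z : Set ℂ} {z p q w : ℂ} {j : ι}
  {R M t L ε : ℝ}

/-- The logarithmic potential. -/
noncomputable def logI (μ : ℂ → ℂ) (p z : ℂ) : ℂ := -∫ ζ, μ ζ * log ((z - ζ) / (z - p))

theorem slit {ζ : ℂ} (hS : Convex ℝ S) (hp : p ∈ S) (hζ : ζ ∈ S) (hz : z ∉ S) :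
    (z - ζ) / (z - p) ∈ slitPlane := by
  by_contra hc
  rw [mem_slitPlane_iff, not_or, not_lt, not_not] at hc
  obtain ⟨t, ht⟩ : ∃ t : ℝ, (z - ζ) / (z - p) = t := ⟨_, Complex.ext rfl hc.2⟩
  have t0 : t ≤ 0 := by simpa [ht] using hc.1
  have hp' : z - p ≠ 0 := sub_ne_zero.2 fun e => hz (e ▸ hp)
  have t1 : (0 : ℝ) < 1 - t := by linarith
  have t2 : (1 : ℂ) - t ≠ 0 := by exact_mod_cast t1.ne'
  rw [div_eq_iff hp'] at ht
  have h := hS hζ hp (a := 1 / (1 - t)) (b := -t / (1 - t)) (by positivity)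
    (div_nonneg (by linarith) t1.le) (by field_simp; ring)
  refine hz ((show (1 / (1 - t)) • ζ + (-t / (1 - t)) • p = z from ?_) ▸ h)
  simp only [real_smul]
  push_cast
  field_simp
  linear_combination -ht

theorem prim2_int {μ : ℂ → ℂ} (hc : IsCompact S) (hμ : Continuous μ)
    (hs : ∀ ζ, ζ ∉ S → μ ζ = 0) (hg : ContinuousOn g S) : Integrable fun ζ => μ ζ * g ζ :=
  ((hμ.continuousOn.mul hg).integrableOn_compact hc).integrable_of_forall_notMem_eq_zero
    fun ζ hζ => by rw [Pi.mul_apply, hs ζ hζ, zero_mul]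

theorem logI_deriv {μ : ℂ → ℂ} (hS : Convex ℝ S) (hc : IsCompact S) (hp : p ∈ S)
    (hμ : Continuous μ) (hs : ∀ ζ, ζ ∉ S → μ ζ = 0) (h0 : ∫ ζ, μ ζ = 0) (hz : z ∉ S) :
    HasDerivAt (logI μ p) (∫ ζ, μ ζ / (ζ - z)) z := by
  obtain ⟨δ, δ0, hδ⟩ := Metric.mem_nhds_iff.1 (hc.isClosed.isOpen_compl.mem_nhds hz)
  have far : ∀ x ∈ ball z (δ / 2), ∀ ζ ∈ S, δ / 2 ≤ ‖x - ζ‖ := fun x hx ζ hζ => by
    have h1 : δ ≤ dist ζ z := not_lt.1 fun h => hδ h hζ
    have h2 := dist_triangle ζ x z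
    rw [mem_ball] at hx
    rw [← dist_eq_norm, dist_comm]
    linarith
  have ne : ∀ x ∈ ball z (δ / 2), ∀ ζ ∈ S, x - ζ ≠ 0 := fun x hx ζ hζ =>
    norm_pos_iff.1 ((half_pos δ0).trans_le (far x hx ζ hζ))
  have hz0 := mem_ball_self (x := z) (half_pos δ0)
  have iμ : Integrable μ := by simpa using prim2_int hc hμ hs (g := fun _ => 1) continuousOn_const
  have i1 : Integrable fun ζ => μ ζ * (z - ζ)⁻¹ := prim2_int hc hμ hs
    ((continuousOn_const.sub continuousOn_id).inv₀ (ne z hz0))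
  have H := (hasDerivAt_integral_of_dominated_loc_of_deriv_le (μ := volume)
    (F := fun x ζ => μ ζ * log ((x - ζ) / (x - p)))
    (F' := fun x ζ => μ ζ * (x - ζ)⁻¹ - μ ζ * (x - p)⁻¹) (bound := fun ζ => ‖μ ζ‖ * (4 / δ))
    (ball_mem_nhds z (half_pos δ0))
    (Eventually.of_forall fun x => (hμ.measurable.mul (measurable_log.comp
      ((measurable_const.sub measurable_id).div_const _))).aestronglyMeasurable)
    (prim2_int hc hμ hs (((continuousOn_const.sub continuousOn_id).div_const _).clog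
      fun ζ hζ => slit hS hp hζ hz))
    (i1.sub (iμ.mul_const _)).1 (ae_of_all _ fun ζ x hx => ?_) (iμ.norm.mul_const _)
    (ae_of_all _ fun ζ x hx => ?_)).2
  · refine H.neg.congr_deriv ?_
    rw [integral_sub i1 (iμ.mul_const _), integral_mul_const, h0, zero_mul, sub_zero,
      ← integral_neg]
    refine integral_congr_ae (ae_of_all _ fun ζ => ?_)
    simp only [div_eq_mul_inv, ← mul_neg, ← inv_neg, neg_sub]
  · by_cases hζ : ζ ∈ S
    · have a : ∀ w ∈ S, ‖(x - w)⁻¹‖ ≤ 2 / δ := fun w hw => by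
        rw [norm_inv, ← inv_div]
        exact inv_anti₀ (half_pos δ0) (far x hx w hw)
      rw [← mul_sub, norm_mul]
      refine mul_le_mul_of_nonneg_left ((norm_sub_le _ _).trans ?_) (norm_nonneg _)
      linarith [a ζ hζ, a p hp, show 4 / δ = 2 / δ + 2 / δ by ring]
    · simp [hs ζ hζ]
  · by_cases hζ : ζ ∈ S
    · have hx' : x ∉ S := fun h => ne x hx x h (sub_self x)
      have d := ((((hasDerivAt_id x).sub_const ζ).div ((hasDerivAt_id x).sub_const p)
        (ne x hx p hp)).clog (slit hS hp hζ hx')).const_mul (μ ζ)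
      refine d.congr_deriv ?_
      have n1 := ne x hx ζ hζ
      have n2 := ne x hx p hp
      simp only [id, Pi.div_apply]
      field_simp
    · simpa [hs ζ hζ] using hasDerivAt_const x (0 : ℂ)

theorem logI_tendsto {μ : ℂ → ℂ} (hS : Convex ℝ S) (hc : IsCompact S) (hp : p ∈ S)
    (hμ : Continuous μ) (hs : ∀ ζ, ζ ∉ S → μ ζ = 0) :
    Tendsto (logI μ p) (cocompact ℂ) (𝓝 0) := by
  obtain ⟨D, hD⟩ := hc.isBounded.subset_closedBall p
  have iμ : Integrable μ := by simpa using prim2_int hc hμ hs (g := fun _ => 1) continuousOn_const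
  have hT : Tendsto (fun z : ℂ => ‖z - p‖) (cocompact ℂ) atTop := by
    simpa only [dist_eq_norm] using tendsto_dist_right_cocompact_atTop p
  have hU : Tendsto (fun z : ℂ => D / ‖z - p‖) (cocompact ℂ) (𝓝 0) := hT.const_div_atTop D
  have hV := (hU.const_mul (3 / 2)).const_mul (∫ ζ, ‖μ ζ‖)
  rw [mul_zero, mul_zero] at hV
  refine squeeze_zero_norm' ?_ hV
  filter_upwards [hU.eventually_le_const (show (0 : ℝ) < 1 / 2 by norm_num),
    hT.eventually_gt_atTop 0] with z h1 h2
  rw [logI, norm_neg, ← integral_mul_const]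
  refine norm_integral_le_of_norm_le (iμ.norm.mul_const _) (ae_of_all _ fun ζ => ?_)
  by_cases hζ : ζ ∈ S
  · have e : (z - ζ) / (z - p) = 1 + (p - ζ) / (z - p) := by
      have := norm_pos_iff.1 h2
      field_simp
      ring
    have b : ‖(p - ζ) / (z - p)‖ ≤ D / ‖z - p‖ := by
      rw [norm_div, norm_sub_rev]
      exact div_le_div_of_nonneg_right (mem_closedBall_iff_norm.1 (hD hζ)) h2.le
    rw [norm_mul, e]
    refine mul_le_mul_of_nonneg_left ((norm_log_one_add_half_le_self (b.trans h1)).trans ?_)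
      (norm_nonneg _)
    linarith
  · simp [hs ζ hζ]

end Vale.P116B
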