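import Vale.Agent.P116B.NL
import Vale.Agent.P116B.Prim1
import Vale.Agent.P116B.Prim2

/-!
# P116B Prim

Primitives when the periods vanish. Fix points `p j ∈ Q j`. For small `δ > 0` choose cutoffs `χ δ j` (`Fam.exists_Cut`) supported
in `thickening δ (Q j)` and put `h δ = π⁻¹ * ∑ j, logI (ξ * db (χ δ j)) (p j)` off the sets `cthickening δ (Q j)` (compact, convex).
`cauchy_repr` with `∑ j, χ δ j` gives the derivative. For `δ' ≤ δ` and `z` off the `δ` thickenings the two values agree, by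
`int_hol_db` for `ζ ↦ ξ ζ * log ((z - ζ) / (z - p j))` on `thickening δ (Q j) ∩ Om Q` and `χ δ j - χ δ' j`. Glue:
`h z = h (δ z) z`, which is locally equal to one `h δ`.
-/

namespace Vale.P116B

open Set Filter Topology MeasureTheory Metric Complex Vale.P116
open scoped ContDiff ComplexConjugate Real ENNReal Gradient

variable {ι : Type} [Fintype ι] {Q U E : ι → Set ℂ} {W : ι → ℂ → ℤ} {c : ι → ℂ} {r ρ s : ι → ℝ}
  {f g h k F G Φ Θ θ φ χ η ξ a b V : ℂ → ℂ} {K A O S Z : Set ℂ} {z p q w : ℂ} {j : ι}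
  {R M t L ε : ℝ}

theorem prim_cc (hQ : Fam Q) (hχ : Cut Q j χ) (hO : IsOpen O) (hs : tsupport χ ⊆ O)
    (hG : DifferentiableOn ℂ G (O ∩ Om Q)) : Cc fun ζ => G ζ * db χ ζ := by
  have h1 : tsupport (db χ) ⊆ tsupport (fderiv ℝ χ) :=
    closure_mono fun z hz h => hz (db_of_fderiv h)
  have h2 := hχ.1.db.mul_on (hO.inter hQ.isOpen) (subset_inter
    (h1.trans ((tsupport_fderiv_subset ℝ).trans hs)) (h1.trans hχ.locC.supp))
    (contDiffOn_hol (hO.inter hQ.isOpen) hG)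
  simpa only [mul_comm] using h2

theorem prim_agree (hQ : Fam Q) (hd : DifferentiableOn ℂ ξ (Om Q)) (hχ : Cut Q j χ)
    (hη : Cut Q j η) (hO : IsOpen O) (hc : Convex ℝ O) (h1 : tsupport χ ⊆ O) (h2 : tsupport η ⊆ O)
    (hp : p ∈ O) (hz : z ∉ O) :
    logI (fun ζ => ξ ζ * db χ ζ) p z = logI (fun ζ => ξ ζ * db η ζ) p z := by
  have hG : DifferentiableOn ℂ (fun ζ => ξ ζ * log ((z - ζ) / (z - p))) (O ∩ Om Q) :=
    (hd.mono inter_subset_right).mul fun ζ hζ => (((differentiableAt_id.const_sub z).div_const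
      (z - p)).clog (slit hc hp hζ.1 hz)).differentiableWithinAt
  have h3 : tsupport (fun ζ => χ ζ - η ζ) ⊆ Om Q := supp_of_zero fun i => by
    rcases eq_or_ne i j with rfl | hi
    · filter_upwards [hχ.2.1, hη.2.1] with ζ a1 a2
      rw [a1, a2, sub_self]
    · filter_upwards [hχ.2.2 i hi, hη.2.2 i hi] with ζ a1 a2
      rw [a1, a2, sub_self]
  have h4 := int_hol_db (hO.inter hQ.isOpen) hG (hχ.1.sub hη.1)
    (subset_inter ((tsupport_sub χ η).trans (union_subset h1 h2)) h3)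
  simp only [db_sub (hχ.1.diffAt _) (hη.1.diffAt _), mul_sub] at h4
  rw [integral_sub (prim_cc hQ hχ hO h1 hG).integrable (prim_cc hQ hη hO h2 hG).integrable,
    sub_eq_zero] at h4
  simp only [logI, mul_right_comm (ξ _) (db _ _), h4]

theorem prim_repr (hQ : Fam Q) (hd : DifferentiableOn ℂ ξ (Om Q))
    (h0 : Tendsto ξ (cocompact ℂ) (𝓝 0)) {u : ι → ℂ → ℂ} (hu : ∀ j, Cut Q j (u j))
    (hz : ∀ j, z ∉ tsupport (u j)) :
    ξ z = (π : ℂ)⁻¹ * ∑ j, ∫ ζ, ξ ζ * db (u j) ζ / (ζ - z) := by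
  have h1 : ∀ᶠ ζ in 𝓝ˢ (⋃ j, Q j), ∑ j, u j ζ = 1 := by
    rw [nhdsSet_iUnion, eventually_iSup]
    intro i
    have h2 : ∀ᶠ ζ in 𝓝ˢ (Q i), ∀ j, i ≠ j → u j ζ = 0 := eventually_all.2 fun j => by
      by_cases h : i = j
      · exact .of_forall fun _ h' => (h' h).elim
      · exact ((hu j).2.2 i h).mono fun _ a _ => a
    filter_upwards [h2, (hu i).2.1] with ζ a1 a2
    rw [Finset.sum_eq_single i (fun j _ hj => a1 j hj.symm) (by simp), a2]
  have h2 : z ∉ tsupport fun ζ => ∑ j, u j ζ := by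
    rw [notMem_tsupport_iff_eventuallyEq]
    filter_upwards [eventually_all.2 fun j => notMem_tsupport_iff_eventuallyEq.1 (hz j)] with ζ a
    exact Finset.sum_eq_zero fun j _ => a j
  rw [cauchy_repr hQ.isCompact hd h0 (Cc.sum fun j => (hu j).1) h1 h2, ← integral_finsetSum]
  · simp only [db_sum fun j => (hu j).1.diffAt _, Finset.mul_sum, Finset.sum_div]
  · intro j _
    have h3 := (prim_cc (G := fun ζ => ξ ζ / (ζ - z)) hQ (hu j) isOpen_compl_singleton
      (subset_compl_singleton_iff.2 (hz j)) ((hd.mono inter_subset_right).div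
        (differentiableOn_id.sub_const z) fun ζ hζ => sub_ne_zero.2 hζ.1)).integrable
    simpa only [div_mul_eq_mul_div] using h3

theorem prim_glue {H : ℝ → ℂ → ℂ} {N : ℝ → Set ℂ}
    (hA : ∀ δ δ' z, 0 < δ → δ ≤ δ' → z ∉ N δ' → H δ z = H δ' z) :
    ∃ h : ℂ → ℂ, ∀ δ z, 0 < δ → z ∉ N δ → h z = H δ z := by
  classical
  refine ⟨fun z => if a : ∃ δ, 0 < δ ∧ z ∉ N δ then H a.choose z else 0, fun δ z a1 a2 => ?_⟩
  have a : ∃ δ, 0 < δ ∧ z ∉ N δ := ⟨δ, a1, a2⟩
  beta_reduce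
  rw [dif_pos a]
  rcases le_total a.choose δ with b | b
  · exact hA _ _ z a.choose_spec.1 b a2
  · exact (hA _ _ z a1 b a.choose_spec.2).symm

theorem prim (hQ : Fam Q) (hd : DifferentiableOn ℂ ξ (Om Q)) (h0 : Tendsto ξ (cocompact ℂ) (𝓝 0))
    (hper : ∀ j χ, Cut Q j χ → ∫ z in Om Q, ξ z * db χ z = 0) :
    ∃ h : ℂ → ℂ, (∀ z ∈ Om Q, HasDerivAt h (ξ z) z) ∧ Tendsto h (cocompact ℂ) (𝓝 0) := by
  choose p hp using hQ.ne
  have hex : ∀ (δ : ℝ) (j : ι), ∃ χ, 0 < δ → Cut Q j χ ∧ tsupport χ ⊆ thickening δ (Q j) :=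
    fun δ j => by
      by_cases h : 0 < δ
      · obtain ⟨χ, a1, -, a2⟩ := hQ.exists_Cut j isOpen_thickening (self_subset_thickening h _)
        exact ⟨χ, fun _ => ⟨a1, a2⟩⟩
      · exact ⟨0, fun h' => (h h').elim⟩
  choose u hu using hex
  have hN : ∀ δ, IsCompact (⋃ j, cthickening δ (Q j)) := fun δ =>
    isCompact_iUnion fun j => (hQ.cpt j).cthickening
  have hN' : ∀ {δ : ℝ} {z : ℂ}, z ∉ ⋃ j, cthickening δ (Q j) → ∀ j, z ∉ cthickening δ (Q j) :=
    fun h j a => h (mem_iUnion.2 ⟨j, a⟩)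
  obtain ⟨h, hh⟩ := prim_glue (N := fun δ => ⋃ j, cthickening δ (Q j))
    (H := fun δ z => (π : ℂ)⁻¹ * ∑ j, logI (fun ζ => ξ ζ * db (u δ j) ζ) (p j) z)
    fun δ δ' z a1 a2 a3 => by
      rw [Finset.sum_congr rfl fun j _ => prim_agree hQ hd (hu δ j a1).1
        (hu δ' j (a1.trans_le a2)).1 isOpen_thickening ((hQ.cvx j).thickening δ')
        ((hu δ j a1).2.trans (thickening_mono a2 _)) (hu δ' j (a1.trans_le a2)).2
        (self_subset_thickening (a1.trans_le a2) _ (hp j))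
        fun a => hN' a3 j (thickening_subset_cthickening _ _ a)]
  have hc : ∀ δ j, 0 < δ → Continuous fun ζ => ξ ζ * db (u δ j) ζ := fun δ j a =>
    (prim_cc hQ (hu δ j a).1 isOpen_univ (subset_univ _) (hd.mono inter_subset_right)).1.continuous
  have hs : ∀ δ j, 0 < δ → ∀ ζ, ζ ∉ cthickening δ (Q j) → ξ ζ * db (u δ j) ζ = 0 :=
    fun δ j a ζ b => by
      rw [db_notMem fun b' => b (thickening_subset_cthickening _ _ ((hu δ j a).2 b')), mul_zero]
  refine ⟨h, fun z hz => ?_, ?_⟩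
  · obtain ⟨δ, d0, d1⟩ := hQ.isCompact.exists_cthickening_subset_open isOpen_compl_singleton
      (subset_compl_singleton_iff.2 hz)
    have d2 : z ∉ ⋃ j, cthickening δ (Q j) := fun a => by
      obtain ⟨j, b⟩ := mem_iUnion.1 a
      exact d1 (cthickening_subset_of_subset δ (subset_iUnion Q j) b) rfl
    have h1 := (HasDerivAt.fun_sum (u := Finset.univ) fun j _ => logI_deriv
      ((hQ.cvx j).cthickening δ) (hQ.cpt j).cthickening (self_subset_cthickening _ (hp j))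
      (hc δ j d0) (hs δ j d0) (((hu δ j d0).1.locC.int_eq hQ ξ).symm.trans (hper j _ (hu δ j d0).1))
      (hN' d2 j)).const_mul (π : ℂ)⁻¹
    rw [prim_repr hQ hd h0 (fun j => (hu δ j d0).1)
      fun j a => hN' d2 j (thickening_subset_cthickening _ _ ((hu δ j d0).2 a))]
    refine h1.congr_of_eventuallyEq ?_
    filter_upwards [(hN δ).isClosed.isOpen_compl.mem_nhds d2] with w hw using hh δ w d0 hw
  · have h1 := (tendsto_finsetSum Finset.univ fun j _ => logI_tendsto ((hQ.cvx j).cthickening 1)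
      (hQ.cpt j).cthickening (self_subset_cthickening _ (hp j)) (hc 1 j one_pos)
      (hs 1 j one_pos)).const_mul (π : ℂ)⁻¹
    rw [Finset.sum_const_zero, mul_zero] at h1
    refine h1.congr' ?_
    filter_upwards [(hN 1).compl_mem_cocompact] with w hw using (hh 1 w one_pos hw).symm

end Vale.P116B
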