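import Vale.Agent.P116B.NL
import Vale.Agent.P116B.CT
import Vale.Agent.P116B.Prim2

/-!
# P116B PrimG

A smooth closed one-form on the complement of a compact set whose pairing with all wired cutoffs
vanishes has a primitive.
-/

namespace Vale.P116B

open Set Filter Topology MeasureTheory Metric Complex Vale.P116
open scoped ContDiff ComplexConjugate Real ENNReal Gradient

variable {K S T C A : Set ℂ} {μ P Q χ : ℂ → ℂ} {z p x y : ℂ}

/-- Smooth, compactly supported and locally constant near `K`. -/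
def Wired (K : Set ℂ) (χ : ℂ → ℂ) : Prop := Cc χ ∧ tsupport (fderiv ℝ χ) ⊆ Kᶜ

/-- The real linear map `v ↦ a * v + b * conj v`. -/
noncomputable def frm (a b : ℂ) : ℂ →L[ℝ] ℂ :=
  a • ContinuousLinearMap.id ℝ ℂ + b • (conjCLE : ℂ →L[ℝ] ℂ)

theorem frm_apply (a b v : ℂ) : frm a b v = a * v + b * conj v := by simp [frm]

theorem pg_log (hS : Convex ℝ S) (hp : p ∈ S) (hx : x ∈ S) (hz : z ∉ S) :
    HasDerivAt (fun z => -log ((z - x) / (z - p))) ((x - z)⁻¹ - (p - z)⁻¹) z := by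
  have h1 : z - p ≠ 0 := sub_ne_zero.2 fun h => hz (h ▸ hp)
  have h2 : z - x ≠ 0 := sub_ne_zero.2 fun h => hz (h ▸ hx)
  have h3 : p - z ≠ 0 := fun h => h1 (by linear_combination -h)
  have h4 : x - z ≠ 0 := fun h => h2 (by linear_combination -h)
  have h := ((((hasDerivAt_id z).sub_const x).div ((hasDerivAt_id z).sub_const p) h1).clog
    (slit hS hp hx hz)).neg
  refine h.congr_deriv ?_
  simp only [id, Pi.div_apply]
  field_simp
  ring

theorem pg_pair (hC : IsOpen C) (hc : IsPreconnected C) (hx : x ∈ C) (hy : y ∈ C) :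
    ∃ g : ℂ → ℂ, ∀ z, z ∉ C → HasDerivAt g ((x - z)⁻¹ - (y - z)⁻¹) z := by
  refine hc.induction₂' (fun x y => ∃ g : ℂ → ℂ, ∀ z, z ∉ C →
    HasDerivAt g ((x - z)⁻¹ - (y - z)⁻¹) z) (fun x hx => ?_) ?_ hx hy
  · obtain ⟨r, hr, hB⟩ := Metric.isOpen_iff.1 hC x hx
    filter_upwards [mem_nhdsWithin_of_mem_nhds (ball_mem_nhds x hr)] with y hy
    exact ⟨⟨_, fun z hz => pg_log (convex_ball x r) hy (mem_ball_self hr) fun h => hz (hB h)⟩,
      ⟨_, fun z hz => pg_log (convex_ball x r) (mem_ball_self hr) hy fun h => hz (hB h)⟩⟩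
  · rintro a b c - - - ⟨g, hg⟩ ⟨h, hh⟩
    refine ⟨g + h, fun z hz => ((hg z hz).add (hh z hz)).congr_deriv (by ring)⟩

theorem pg_int (hμ : Continuous μ) (hS : IsCompact S) (hA : A ⊆ S) {G : ℂ → ℂ}
    (hG : ContinuousOn G S) : IntegrableOn (fun ζ => μ ζ * G ζ) A :=
  ((hμ.continuousOn.mul hG).integrableOn_compact hS).mono_set hA

theorem pg_cont_inv (hz : z ∉ S) : ContinuousOn (fun ζ : ℂ => (ζ - z)⁻¹) S :=
  (continuousOn_id.sub continuousOn_const).inv₀ fun ζ h h0 =>
    hz ((sub_eq_zero.1 h0 : ζ = z) ▸ h)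

theorem pg_ball (hμ : Continuous μ) (hS : Convex ℝ S) (hc : IsCompact S) (hp : p ∈ S)
    (hA : MeasurableSet A) (hAS : A ⊆ S) (hz : z ∉ S) :
    HasDerivAt (fun z => ∫ ζ in A, μ ζ * -log ((z - ζ) / (z - p)))
      ((∫ ζ in A, μ ζ * (ζ - z)⁻¹) - (∫ ζ in A, μ ζ) * (p - z)⁻¹) z := by
  obtain ⟨δ, hδ, hB⟩ := Metric.isOpen_iff.1 hc.isClosed.isOpen_compl z hz
  have far : ∀ w ∈ ball z (δ / 2), ∀ ζ ∈ S, ‖(ζ - w)⁻¹‖ ≤ 2 / δ := by
    intro w hw ζ hζ
    have h1 : δ ≤ dist ζ z := not_lt.1 fun h => hB h hζ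
    have h2 : δ / 2 ≤ ‖ζ - w‖ := by
      have := dist_triangle ζ w z
      rw [mem_ball] at hw
      rw [← dist_eq_norm]; linarith
    rw [norm_inv, ← inv_div]
    exact inv_anti₀ (by positivity) h2
  have out : ∀ w ∈ ball z (δ / 2), w ∉ S := fun w hw => hB (ball_subset_ball (by linarith) hw)
  have lc : ∀ w, w ∉ S → ContinuousOn (fun ζ => -log ((w - ζ) / (w - p))) S := fun w hw =>
    (((continuousOn_const.sub continuousOn_id).div_const _).clog fun ζ hζ => slit hS hp hζ hw).neg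
  have i0 : IntegrableOn μ A := (hμ.continuousOn.integrableOn_compact hc).mono_set hAS
  have i1 := pg_int hμ hc hAS (pg_cont_inv hz)
  have h := hasDerivAt_integral_of_dominated_loc_of_deriv_le (μ := volume.restrict A)
    (F := fun w ζ => μ ζ * -log ((w - ζ) / (w - p)))
    (F' := fun w ζ => μ ζ * ((ζ - w)⁻¹ - (p - w)⁻¹)) (bound := fun ζ => ‖μ ζ‖ * (2 / δ + 2 / δ))
    (ball_mem_nhds z (half_pos hδ)) ?_ (pg_int hμ hc hAS (lc z hz)) ?_ ?_ (i0.norm.mul_const _) ?_
  · refine h.2.congr_deriv ?_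
    simp only [mul_sub]
    rw [integral_sub i1 (i0.mul_const _), integral_mul_const]
  · filter_upwards [ball_mem_nhds z (half_pos hδ)] with w hw
    exact (pg_int hμ hc hAS (lc w (out w hw))).aestronglyMeasurable
  · exact (pg_int hμ hc hAS ((pg_cont_inv hz).sub continuousOn_const)).aestronglyMeasurable
  · filter_upwards [ae_restrict_mem hA] with ζ hζ w hw
    rw [norm_mul]
    exact mul_le_mul_of_nonneg_left ((norm_sub_le _ _).trans
      (add_le_add (far w hw ζ (hAS hζ)) (far w hw p hp))) (norm_nonneg _)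
  · filter_upwards [ae_restrict_mem hA] with ζ hζ w hw
    exact (pg_log hS hp (hAS hζ) (out w hw)).const_mul _

theorem pg_conn (hμ : Continuous μ) (hC : IsOpen C) (hc : IsPreconnected C) (hp : p ∈ C)
    (hS : IsCompact S) (hSC : S ⊆ C) : ∃ V : ℂ → ℂ, ∀ z, z ∉ C →
      HasDerivAt V ((∫ ζ in S, μ ζ * (ζ - z)⁻¹) - (∫ ζ in S, μ ζ) * (p - z)⁻¹) z := by
  have key : ∃ O, IsOpen O ∧ S ⊆ O ∧ ∀ A, MeasurableSet A → A ⊆ O → A ⊆ S →
      ∃ V : ℂ → ℂ, ∀ z, z ∉ C →
        HasDerivAt V ((∫ ζ in A, μ ζ * (ζ - z)⁻¹) - (∫ ζ in A, μ ζ) * (p - z)⁻¹) z := by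
    refine hS.induction_on (p := fun s => ∃ O, IsOpen O ∧ s ⊆ O ∧ ∀ A, MeasurableSet A → A ⊆ O →
      A ⊆ S → ∃ V : ℂ → ℂ, ∀ z, z ∉ C → HasDerivAt V
        ((∫ ζ in A, μ ζ * (ζ - z)⁻¹) - (∫ ζ in A, μ ζ) * (p - z)⁻¹) z) ?_ ?_ ?_ ?_
    · refine ⟨∅, isOpen_empty, Subset.rfl, fun A _ hA _ => ⟨fun _ => 0, fun z _ => ?_⟩⟩
      rw [subset_empty_iff.1 hA]
      simpa using hasDerivAt_const z (0 : ℂ)
    · rintro s t hst ⟨O, h1, h2, h3⟩
      exact ⟨O, h1, hst.trans h2, h3⟩
    · rintro s t ⟨O, h1, h2, h3⟩ ⟨O', h1', h2', h3'⟩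
      refine ⟨O ∪ O', h1.union h1', union_subset_union h2 h2', fun A hA hAO hAS => ?_⟩
      obtain ⟨V, hV⟩ := h3 (A ∩ O) (hA.inter h1.measurableSet) inter_subset_right
        (inter_subset_left.trans hAS)
      obtain ⟨V', hV'⟩ := h3' (A \ O) (hA.diff h1.measurableSet)
        (fun w hw => (hAO hw.1).resolve_left hw.2) (sdiff_subset.trans hAS)
      refine ⟨V + V', fun z hz => ((hV z hz).add (hV' z hz)).congr_deriv ?_⟩
      rw [← integral_inter_add_sdiff h1.measurableSet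
        (pg_int hμ hS hAS (pg_cont_inv fun h => hz (hSC h))), ← integral_inter_add_sdiff
        h1.measurableSet ((hμ.continuousOn.integrableOn_compact hS).mono_set hAS)]
      ring
    · intro x hx
      obtain ⟨r, hr, hB⟩ := nhds_basis_closedBall.mem_iff.1 (hC.mem_nhds (hSC hx))
      refine ⟨ball x r, mem_nhdsWithin_of_mem_nhds (ball_mem_nhds x hr), ball x r, isOpen_ball,
        Subset.rfl, fun A hA hAO _ => ?_⟩
      obtain ⟨g, hg⟩ := pg_pair hC hc (hSC hx) hp
      refine ⟨_, fun z hz => ((pg_ball hμ (convex_closedBall x r) (isCompact_closedBall x r)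
        (mem_closedBall_self hr.le) hA (hAO.trans ball_subset_closedBall)
        fun h => hz (hB h)).add ((hg z hz).const_mul (∫ ζ in A, μ ζ))).congr_deriv ?_⟩
      ring
  obtain ⟨O, -, h2, h3⟩ := key
  exact h3 S hS.measurableSet h2 Subset.rfl

theorem pg_comp_compact (hT : IsOpen T) (hS : IsCompact S) (hST : S ⊆ T) (x : ℂ) :
    IsCompact (S ∩ connectedComponentIn T x) := by
  have : S ∩ connectedComponentIn T x =
      S \ ⋃ y ∈ T \ connectedComponentIn T x, connectedComponentIn T y := by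
    ext w
    simp only [mem_inter_iff, Set.mem_sdiff, mem_iUnion, not_exists]
    refine and_congr_right fun hw => ⟨fun h y hy hwy => hy.2 ?_, fun h => by_contra fun h' =>
      h w ⟨hST hw, h'⟩ (mem_connectedComponentIn (hST hw))⟩
    rw [connectedComponentIn_eq h, ← connectedComponentIn_eq hwy]
    exact mem_connectedComponentIn hy.1
  rw [this]
  exact hS.diff (isOpen_biUnion fun y _ => hT.connectedComponentIn)

theorem pg_open (hμ : Continuous μ) (hT : IsOpen T) (hS : IsCompact S) (hST : S ⊆ T)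
    (h0 : ∀ x ∈ S, ∫ ζ in S ∩ connectedComponentIn T x, μ ζ = 0) :
    ∃ V : ℂ → ℂ, ∀ z, z ∉ T → HasDerivAt V (∫ ζ in S, μ ζ * (ζ - z)⁻¹) z := by
  classical
  obtain ⟨t, ht, hcov⟩ := hS.elim_nhds_subcover (fun x => connectedComponentIn T x) fun x hx =>
    hT.connectedComponentIn.mem_nhds (mem_connectedComponentIn (hST hx))
  have key : ∀ D ∈ t.image (connectedComponentIn T), IsCompact (S ∩ D) ∧ ∃ V : ℂ → ℂ,
      ∀ z, z ∉ T → HasDerivAt V (∫ ζ in S ∩ D, μ ζ * (ζ - z)⁻¹) z := by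
    intro D hD
    obtain ⟨x, hx, rfl⟩ := Finset.mem_image.1 hD
    have hc := pg_comp_compact hT hS hST x
    obtain ⟨V, hV⟩ := pg_conn hμ hT.connectedComponentIn isPreconnected_connectedComponentIn
      (mem_connectedComponentIn (hST (ht x hx))) hc inter_subset_right
    refine ⟨hc, V, fun z hz => ?_⟩
    simpa [h0 x (ht x hx)] using hV z fun h => hz (connectedComponentIn_subset _ _ h)
  choose! hc V hV using key
  refine ⟨∑ D ∈ t.image (connectedComponentIn T), V D, fun z hz => ?_⟩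
  have e : S = ⋃ D ∈ t.image (connectedComponentIn T), S ∩ D := by
    refine Subset.antisymm (fun w hw => ?_) (iUnion₂_subset fun _ _ => inter_subset_left)
    obtain ⟨x, hx, hwx⟩ := mem_iUnion₂.1 (hcov hw)
    exact mem_iUnion₂.2 ⟨_, Finset.mem_image_of_mem _ hx, hw, hwx⟩
  refine (HasDerivAt.sum fun D hD => hV D hD z hz).congr_deriv ?_
  conv_rhs => rw [e]
  refine (integral_biUnion_finset _ (fun D hD => (hc D hD).measurableSet) ?_ fun D _ =>
    pg_int hμ hS inter_subset_left (pg_cont_inv fun h => hz (hST h))).symm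
  intro D hD D' hD' hne
  obtain ⟨x, -, rfl⟩ := Finset.mem_image.1 hD
  obtain ⟨y, -, rfl⟩ := Finset.mem_image.1 hD'
  refine disjoint_left.2 fun w h1 h2 => hne ?_
  rw [connectedComponentIn_eq h1.2, connectedComponentIn_eq h2.2]

theorem pg_patch {β : ℂ → ℂ →L[ℝ] ℂ} (hK : IsCompact K) (hc : IsPreconnected Kᶜ)
    (h : ∀ δ > 0, ∃ k : ℂ → ℂ, ∀ z, z ∉ thickening δ K → HasFDerivAt k (β z) z) :
    ∃ k : ℂ → ℂ, ∀ z, z ∉ K → HasFDerivAt k (β z) z := by
  rcases Kᶜ.eq_empty_or_nonempty with he | ⟨p, hp⟩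
  · exact ⟨0, fun z hz => absurd (he ▸ hz : z ∈ (∅ : Set ℂ)) (notMem_empty z)⟩
  choose! k hk using h
  set Ω : ℝ → Set ℂ := fun δ => connectedComponentIn (cthickening δ K)ᶜ p with hΩ
  have op : ∀ δ, IsOpen (Ω δ) := fun δ => isClosed_cthickening.isOpen_compl.connectedComponentIn
  have der : ∀ δ > 0, ∀ z ∈ Ω δ, HasFDerivAt (fun w => k δ w - k δ p) (β z) z := fun δ hδ z hz =>
    (hk δ hδ z fun h => connectedComponentIn_subset _ _ hz
      (thickening_subset_cthickening _ _ h)).sub_const _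
  have mono : ∀ δ δ', δ' ≤ δ → Ω δ ⊆ Ω δ' := fun δ δ' h =>
    connectedComponentIn_mono _ (compl_subset_compl.2 (cthickening_mono h K))
  have agree : ∀ δ δ', 0 < δ' → δ' ≤ δ → ∀ z ∈ Ω δ, k δ z - k δ p = k δ' z - k δ' p := by
    intro δ δ' h1 h2 z hz
    have hpΩ : p ∈ Ω δ := mem_connectedComponentIn (connectedComponentIn_nonempty_iff.1 ⟨z, hz⟩)
    exact (op δ).eqOn_of_fderiv_eq (𝕜 := ℝ) isPreconnected_connectedComponentIn
      (fun w hw => (der δ (h1.trans_le h2) w hw).differentiableAt.differentiableWithinAt)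
      (fun w hw => (der δ' h1 w (mono _ _ h2 hw)).differentiableAt.differentiableWithinAt)
      (fun w hw => by
        rw [(der δ (h1.trans_le h2) w hw).fderiv, (der δ' h1 w (mono _ _ h2 hw)).fderiv])
      hpΩ (by simp) hz
  have ex : ∀ z, z ∉ K → ∃ δ > 0, z ∈ Ω δ := by
    intro z hz
    have hpc := (hK.isClosed.isOpen_compl.isConnected_iff_isPathConnected.1 ⟨⟨p, hp⟩, hc⟩)
    obtain ⟨γ, hγ⟩ := hpc.joinedIn p hp z hz
    have hr : IsCompact (range γ) := isCompact_range γ.continuous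
    obtain ⟨δ, hδ, hd⟩ := hK.exists_cthickening_subset_open hr.isClosed.isOpen_compl
      (fun w hw => by rintro ⟨t, rfl⟩; exact hγ t hw)
    exact ⟨δ, hδ, (isPreconnected_range γ.continuous).subset_connectedComponentIn
      ⟨0, γ.source⟩ (subset_compl_comm.1 hd) ⟨1, γ.target⟩⟩
  choose! d hd hd' using ex
  refine ⟨fun z => k (d z) z - k (d z) p, fun z hz => ?_⟩
  refine (der (d z) (hd z hz) z (hd' z hz)).congr_of_eventuallyEq ?_
  filter_upwards [(op _).mem_nhds (hd' z hz)] with w hw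
  have hwK : w ∉ K := fun h => connectedComponentIn_subset _ _ hw (self_subset_cthickening _ h)
  have hm : 0 < min (d z) (d w) := lt_min (hd z hz) (hd w hwK)
  rw [agree _ _ hm (min_le_left _ _) w hw, agree _ _ hm (min_le_right _ _) w (hd' w hwK)]

theorem fderiv_eq_frm (g : ℂ → ℂ) (z : ℂ) : fderiv ℝ g z = frm (dz g z) (db g z) := by
  ext v
  have e : v = v.re • (1 : ℂ) + v.im • I := by simp [re_add_im]
  rw [frm_apply, dz, db]
  conv_lhs => rw [e, map_add, map_smul, map_smul]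
  conv_rhs => rw [← re_add_im v]
  simp only [real_smul, map_add, map_mul, conj_ofReal, conj_I]
  linear_combination (fderiv ℝ g z I * v.im) * I_mul_I

theorem dz_of_frm {k : ℂ → ℂ} {a b : ℂ} (h : HasFDerivAt k (frm a b) z) :
    dz k z = a ∧ db k z = b := by
  rw [dz, db, h.fderiv, frm_apply, frm_apply, map_one, conj_I]
  exact ⟨by linear_combination (b - a) / 2 * I_mul_I, by linear_combination (a - b) / 2 * I_mul_I⟩

theorem contDiffOn_frm (hP : ContDiffOn ℝ ∞ P S) (hQ : ContDiffOn ℝ ∞ Q S) :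
    ContDiffOn ℝ ∞ (fun z => frm (P z) (Q z)) S :=
  (hP.smul contDiffOn_const).add (hQ.smul contDiffOn_const)

theorem pg_poincare (hP : ContDiff ℝ ∞ P) (hQ : ContDiff ℝ ∞ Q) (h : ∀ z, db P z = dz Q z) :
    ∃ k : ℂ → ℂ, ∀ z, HasFDerivAt k (frm (P z) (Q z)) z := by
  have hd : Differentiable ℝ fun z => frm (P z) (Q z) :=
    (contDiffOn_univ.1 (contDiffOn_frm hP.contDiffOn hQ.contDiffOn)).differentiable (by simp)
  have key : ∀ a x y : ℂ, fderiv ℝ (fun z => frm (P z) (Q z)) a x y =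
      fderiv ℝ P a x * y + fderiv ℝ Q a x * conj y := by
    intro a x y
    have h1 := ((hP.differentiable (by simp) a).hasFDerivAt.smul_const
      (ContinuousLinearMap.id ℝ ℂ)).add
      ((hQ.differentiable (by simp) a).hasFDerivAt.smul_const (conjCLE : ℂ →L[ℝ] ℂ))
    have h2 : HasFDerivAt (fun z => frm (P z) (Q z)) _ a := h1
    rw [h2.fderiv]
    simp
  obtain ⟨k, hk⟩ := convex_univ.exists_forall_hasFDerivAt_of_fderiv_symmetric isOpen_univ
    hd.differentiableOn fun a _ x y => by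
      rw [key, key, fderiv_eq_frm P, fderiv_eq_frm Q, h a]
      simp only [frm_apply]
      ring
  exact ⟨k, fun z => hk z (mem_univ z)⟩

theorem pg_local (hK : IsCompact K) (hP : ContDiffOn ℝ ∞ P Kᶜ) (hQ : ContDiffOn ℝ ∞ Q Kᶜ)
    (hcl : ∀ z, z ∉ K → db P z = dz Q z)
    (hw : ∀ χ, Wired K χ → ∫ z, (P z * db χ z - Q z * dz χ z) = 0) (hT : IsOpen T) (hKT : K ⊆ T) :
    ∃ k : ℂ → ℂ, ∀ z, z ∉ T → HasFDerivAt k (frm (P z) (Q z)) z := by
  obtain ⟨χ, hχ, -, hs, h1⟩ := exists_cut hK hT hKT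
  have hO := hK.isClosed.isOpen_compl
  have h1' : ∀ z ∈ K, χ =ᶠ[𝓝 z] fun _ => 1 := fun z hz => h1.filter_mono (nhds_le_nhdsSet hz)
  have ha : ContDiff ℝ ∞ fun z => 1 - χ z := contDiff_const.sub hχ.1
  have hsa : tsupport (fun z => 1 - χ z) ⊆ Kᶜ := fun z hz hzK =>
    notMem_tsupport_iff_eventuallyEq.2 ((h1' z hzK).mono fun w hw => by simp [hw]) hz
  have sA := ext0 hO ha hsa hP
  have sB := ext0 hO ha hsa hQ
  set μ : ℂ → ℂ := fun z => db (fun z => (1 - χ z) * P z) z - dz (fun z => (1 - χ z) * Q z) z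
    with hμ
  have eμ : ∀ z, μ z = -(P z * db χ z - Q z * dz χ z) := by
    intro z
    by_cases hz : z ∈ K
    · have e1 : ∀ G : ℂ → ℂ, (fun z => (1 - χ z) * G z) =ᶠ[𝓝 z] fun _ => 0 := fun G =>
        (h1' z hz).mono fun w hw => by simp [hw]
      simp only [hμ]
      rw [db_congr (e1 P), dz_congr (e1 Q), db_congr (h1' z hz), dz_congr (h1' z hz), db_const,
        dz_const, db_const, dz_const]
      ring
    · have da := ha.differentiable (by simp) z
      simp only [hμ]
      rw [db_mul da (diffAt_of_on hO hP hz), dz_mul da (diffAt_of_on hO hQ hz),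
        db_sub (differentiableAt_const _) (hχ.diffAt z),
        dz_sub (differentiableAt_const _) (hχ.diffAt z), db_const, dz_const, hcl z hz]
      ring
  have μ0 : ∀ z, z ∉ tsupport χ → μ z = 0 := fun z hz => by
    rw [eμ, db_notMem hz, dz_notMem hz]; ring
  have cμ : Cc μ := ⟨(contDiff_db sA).sub (contDiff_dz sB), HasCompactSupport.intro hχ.2 μ0⟩
  have sv := cauchyT_smooth cμ
  obtain ⟨k₀, hk₀⟩ := pg_poincare (sA.sub sv) sB fun z => by
    rw [db_sub (sA.differentiable (by simp) z) (sv.differentiable (by simp) z), db_cauchyT cμ]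
    simp [hμ]
  obtain ⟨V, hV⟩ := pg_open cμ.1.continuous hT hχ.2.isCompact hs fun x _ => by
    have hD := pg_comp_compact hT hχ.2.isCompact hs x
    have hC : IsOpen (connectedComponentIn T x) := hT.connectedComponentIn
    obtain ⟨κ, hκ, -, hκs, hκ1⟩ := exists_cut hD hC inter_subset_right
    have loc : ∀ z, ((fun w => χ w * κ w) =ᶠ[𝓝 z] χ ∧ z ∈ tsupport χ ∩ connectedComponentIn T x) ∨
        ((fun w => χ w * κ w) =ᶠ[𝓝 z] (fun _ => 0) ∧
          z ∉ tsupport χ ∩ connectedComponentIn T x) := by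
      intro z
      by_cases hz : z ∈ tsupport χ ∩ connectedComponentIn T x
      · exact Or.inl ⟨(hκ1.filter_mono (nhds_le_nhdsSet hz)).mono fun w hw => by simp [hw], hz⟩
      · refine Or.inr ⟨?_, hz⟩
        by_cases h : z ∈ tsupport χ
        · exact (notMem_tsupport_iff_eventuallyEq.1 fun h' => hz ⟨h, hκs h'⟩).mono fun w hw => by
            simp [hw]
        · exact (notMem_tsupport_iff_eventuallyEq.1 h).mono fun w hw => by simp [hw]
    have wi : Wired K fun w => χ w * κ w := by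
      refine ⟨hχ.mul hκ.1, fun z hz hzK => notMem_tsupport_iff_eventuallyEq.2 ?_ hz⟩
      rcases loc z with h | h
      · exact (h.1.trans (h1' z hzK)).fderiv.trans (by simp [Pi.zero_def])
      · exact h.1.fderiv.trans (by simp [Pi.zero_def])
    rw [← integral_indicator hD.measurableSet, ← neg_eq_zero.2 (hw _ wi), ← integral_neg]
    refine integral_congr_ae (Eventually.of_forall fun z => ?_)
    rcases loc z with h | h
    · simp only [indicator_of_mem h.2, db_congr h.1, dz_congr h.1, eμ]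
    · simp [indicator_of_notMem h.2, db_congr h.1, dz_congr h.1, db_const, dz_const]
  refine ⟨fun z => k₀ z + -(π : ℂ)⁻¹ * V z, fun z hz => ?_⟩
  have hz' : χ z = 0 := image_eq_zero_of_notMem_tsupport fun h => hz (hs h)
  have e : cauchyT μ z = -(π : ℂ)⁻¹ * ∫ ζ in tsupport χ, μ ζ * (ζ - z)⁻¹ := by
    rw [cauchyT, setIntegral_eq_integral_of_forall_compl_eq_zero fun w hw => by simp [μ0 w hw]]
    simp only [div_eq_mul_inv]
  refine ((hk₀ z).add
    (((hV z hz).const_mul _).hasFDerivAt.restrictScalars ℝ)).congr_fderiv ?_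
  ext v
  simp [frm_apply, hz', e]
  ring

/-- A smooth form `P dz + Q d(conj z)` that pairs to zero with all compactly supported test
functions is closed. -/
theorem closed_of_pair (hT : IsOpen T) (hP : ContDiffOn ℝ ∞ P T) (hQ : ContDiffOn ℝ ∞ Q T)
    (hw : ∀ χ, Cc χ → tsupport χ ⊆ T → ∫ z, (P z * db χ z - Q z * dz χ z) = 0) (hz : z ∈ T) :
    db P z = dz Q z := by
  have hc : ContinuousOn (fun z => db P z - dz Q z) T := (contOn_db hT hP).sub (contOn_dz hT hQ)
  have h := hT.ae_eq_zero_of_integral_contDiff_smul_eq_zero (μ := volume)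
    (hc.locallyIntegrableOn hT.measurableSet) fun ψ hψ hψc hψs => by
      have c := cc_ofReal hψ hψc
      have s : tsupport (fun z => (ψ z : ℂ)) ⊆ T := by rwa [tsupport_ofReal]
      have c1 := c.mul_on hT s hP
      have c2 := c.mul_on hT s hQ
      have e : ∀ z, ψ z • (db P z - dz Q z) = (db (fun z => (ψ z : ℂ) * P z) z -
          dz (fun z => (ψ z : ℂ) * Q z) z) -
          (P z * db (fun z => (ψ z : ℂ)) z - Q z * dz (fun z => (ψ z : ℂ)) z) := by
        intro z
        by_cases hz : z ∈ T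
        · rw [db_mul (c.diffAt z) (diffAt_of_on hT hP hz),
            dz_mul (c.diffAt z) (diffAt_of_on hT hQ hz), real_smul]
          ring
        · have n : z ∉ tsupport fun z => (ψ z : ℂ) := fun h => hz (s h)
          have n0 : (ψ z : ℂ) = 0 := image_eq_zero_of_notMem_tsupport (f := fun z => (ψ z : ℂ)) n
          rw [db_notMem n, dz_notMem n, db_notMem fun h => n (tsupport_mul_subset_left h),
            dz_notMem fun h => n (tsupport_mul_subset_left h), real_smul, n0]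
          ring
      have s' : ∀ u : ℂ → ℂ, (∀ z, z ∉ tsupport (fun z => (ψ z : ℂ)) → u z = 0) →
          tsupport u ⊆ T := fun u hu =>
        (closure_minimal (fun z (hz : u z ≠ 0) => by_contra fun h => hz (hu z h))
          (isClosed_tsupport _)).trans s
      have i1 := (c.db.mul_on hT (s' _ fun z => db_notMem) hP).integrable
      have i2 := (c.dz.mul_on hT (s' _ fun z => dz_notMem) hQ).integrable
      simp only [mul_comm (db _ _), mul_comm (dz _ _)] at i1 i2
      simp only [e]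
      rw [integral_sub (by exact c1.db.integrable.sub c2.dz.integrable) (by exact i1.sub i2),
        integral_sub c1.db.integrable c2.dz.integrable, int_db c1, int_dz c2, hw _ c s]
      ring
  have h2 : EqOn (fun z => db P z - dz Q z) (fun _ => 0) T :=
    Measure.eqOn_open_of_ae_eq ((ae_restrict_iff' hT.measurableSet).2 h) hT hc continuousOn_const
  exact sub_eq_zero.1 (h2 hz)

theorem Cc.wired (h : Cc χ) (hs : tsupport χ ⊆ Kᶜ) : Wired K χ :=
  ⟨h, (tsupport_fderiv_subset ℝ).trans hs⟩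

/-- The primitive of a smooth form without wired periods. -/
theorem primG (hK : IsCompact K) (hc : IsPreconnected Kᶜ) (hP : ContDiffOn ℝ ∞ P Kᶜ)
    (hQ : ContDiffOn ℝ ∞ Q Kᶜ)
    (hw : ∀ χ, Wired K χ → ∫ z, (P z * db χ z - Q z * dz χ z) = 0) :
    ∃ k : ℂ → ℂ, ContDiffOn ℝ ∞ k Kᶜ ∧ ∀ z, z ∉ K → dz k z = P z ∧ db k z = Q z := by
  have hO := hK.isClosed.isOpen_compl
  obtain ⟨k, hk⟩ := pg_patch (β := fun z => frm (P z) (Q z)) hK hc fun δ hδ =>
    pg_local hK hP hQ (fun z hz => closed_of_pair hO hP hQ (fun χ h hs => hw χ (h.wired hs)) hz)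
      hw isOpen_thickening (self_subset_thickening hδ K)
  refine ⟨k, (contDiffOn_infty_iff_fderiv_of_isOpen hO).2 ⟨fun z hz =>
    (hk z hz).differentiableAt.differentiableWithinAt, (contDiffOn_frm hP hQ).congr fun z hz =>
      (hk z hz).fderiv⟩, fun z hz => dz_of_frm (hk z hz)⟩

/-- The primitive of a holomorphic function without wired periods. -/
theorem primG_hol (hK : IsCompact K) (hc : IsPreconnected Kᶜ) (hP : DifferentiableOn ℂ P Kᶜ)
    (hw : ∀ χ, Wired K χ → ∫ z, P z * db χ z = 0) :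
    ∃ k : ℂ → ℂ, ∀ z, z ∉ K → HasDerivAt k (P z) z := by
  have hO := hK.isClosed.isOpen_compl
  obtain ⟨k, h1, h2⟩ := primG (Q := fun _ => 0) hK hc (contDiffOn_hol hO hP) contDiffOn_const
    fun χ h => by simpa using hw χ h
  refine ⟨k, fun z hz => ?_⟩
  have hd := hol_of_db (diffAt_of_on hO h1 hz) (h2 z hz).2
  rw [← (h2 z hz).1, dz_hol hd]
  exact hd.hasDerivAt

end Vale.P116B
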