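import Vale.Agent.P116B.ElX
import Vale.Agent.P116B.Star
import Vale.Agent.P116B.Prim
import Vale.Agent.P116B.Mean
import Vale.Agent.P116B.NL

/-!
# P116B SolX

The holomorphic solution. `Star` with `s = 0` shows that `Φ` is weakly holomorphic: `Vale.Agent.P128.wey` and `grad_eq_db`
give a holomorphic representative `G`; `ξ = G - 1` tends to zero (`tendsto_of_l2`) and has zero periods (`Star` with `s = 0` for a
cutoff, `LocC.int_eq`, `int_db`), so `prim` gives `h`; `F z = z + h z`.
-/

namespace Vale.P116B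

open Set Filter Topology MeasureTheory Metric Complex Vale.P116
open scoped ContDiff ComplexConjugate Real ENNReal Gradient

variable {ι : Type} [Fintype ι] {Q U E : ι → Set ℂ} {W : ι → ℂ → ℤ} {c : ι → ℂ} {r ρ s : ι → ℝ}
  {f g h k F G Φ Θ θ φ χ η ξ a b V : ℂ → ℂ} {K A O S Z : Set ℂ} {z p q w : ℂ} {j : ι}
  {R M t L ε : ℝ}

theorem exists_sol (hQ : Fam Q) : ∃ (F : ℂ → ℂ) (r : ι → ℝ), Sol Q F r := by
  obtain ⟨Φ, r, hΦ, hel⟩ := exists_el hQ
  have hm := hQ.isOpen.measurableSet
  have h1 : ∀ χ, LocC Q χ → ∫ z in Om Q, Φ z * db χ z = 0 := fun χ hχ => by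
    have a := el_star hQ hΦ hel χ 0 hχ.1.test fun j => ⟨le_rfl, (hχ.2 j).imp fun c hc =>
      hc.mono fun z hz _ => by simp [hz]⟩
    simpa using a
  have h2 : LocallyIntegrableOn Φ (Om Q) := by
    have a := (locallyIntegrableOn_of_locallyIntegrable_restrict
      (hΦ.locallyIntegrable one_le_two)).add (locallyIntegrableOn_const 1)
    simpa [Pi.add_def] using a
  obtain ⟨G, hG, hG'⟩ := Vale.Agent.P128.wey hQ.isOpen h2 fun φ a1 a2 a3 => by
    have a4 := h1 _ ⟨cc_ofReal a1 a2, fun j => ⟨0, ?_⟩⟩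
    · simp only [grad_eq_db (a1.differentiable (by simp) _), mul_left_comm _ (2 : ℂ)]
      rw [integral_const_mul, a4, mul_zero]
    · filter_upwards [(isClosed_tsupport φ).isOpen_compl.mem_nhdsSet.2 fun z hz hz' =>
        mem_Om.1 (a3 hz') j hz] with z hz
      rw [image_eq_zero_of_notMem_tsupport hz, ofReal_zero]
  have h3 : Φ =ᵐ[volume.restrict (Om Q)] G := (ae_restrict_iff' hm).2 hG'
  have h4 : MemLp (fun z => G z - 1) 2 (volume.restrict (Om Q)) :=
    hΦ.ae_eq (h3.mono fun z hz => by simp only [hz])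
  obtain ⟨h, h5, h6⟩ := prim hQ (hG.sub_const 1) (tendsto_of_l2 hQ.isCompact (hG.sub_const 1) h4)
    fun j χ hχ => by
      have a1 := hχ.locC.int_eq hQ fun _ => 1
      simp only [one_mul, int_db hχ.1] at a1
      rw [integral_congr_ae (g := fun z => Φ z * db χ z - db χ z)
        (h3.mono fun z hz => by simp only [hz, sub_mul, one_mul]),
        integral_sub (hχ.1.test.int_mul hQ hΦ) (hχ.1.test.int_db hQ), h1 χ hχ.locC, a1, sub_zero]
  have h7 : ∀ z ∈ Om Q, HasDerivAt (fun z => z + h z) (G z) z := fun z hz =>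
    ((hasDerivAt_id z).add (h5 z hz)).congr_deriv (add_sub_cancel _ _)
  have h8 : MemLp (fun z => deriv (fun z => z + h z) z - 1) 2 (volume.restrict (Om Q)) :=
    h4.ae_eq (ae_restrict_of_forall_mem hm fun z hz => by simp only [(h7 z hz).deriv])
  have h9 : EL Q (deriv fun z => z + h z) r :=
    el_congr hQ hel (hG'.mono fun z hz hz' => (hz hz').trans (h7 z hz').deriv.symm)
  exact ⟨fun z => z + h z, r, ⟨fun z hz => (h7 z hz).differentiableAt.differentiableWithinAt, h8,
    by simpa only [add_sub_cancel_left] using h6⟩, el_nonneg hQ hel, h9, el_star hQ h8 h9⟩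

end Vale.P116B
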