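import Vale.Agent.P116B.Cutoff

/-!
# P116B Tent1

The extremal test function. `ext_test`: `W1` for `Θ = κ * conj (w - x)`; on the ball `db Θ = 1`. `tent1`: if `r j = 0` use `Star` directly. Otherwise for
small `δ` take `κ` supported in `ball x (r j + δ)` and test `Star` with `(r j + δ)⁻¹ * (χ * Θ (F)) + (u / M) * k` for a unit `u`; the two terms are never both
nonzero, so the sum is bounded by one near `Q j`, and zero near the others: `π r ^ 2 / (r + δ) + ‖X‖ / M ≤ π r`. Let `δ → 0`.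
`match_disc`: the closed disc is connected and lies in `⋃ i, E i`, so in one `E i`; if `i ≠ j` choose `κ` supported off `E j`; then `Star` with `s = 0`
contradicts `ext_test`.
-/

namespace Vale.P116B

open Set Filter Topology MeasureTheory Metric Complex Vale.P116
open scoped ContDiff ComplexConjugate Real ENNReal Gradient

variable {ι : Type} [Fintype ι] {Q U E : ι → Set ℂ} {W : ι → ℂ → ℤ} {c : ι → ℂ} {r ρ s : ι → ℝ}
  {f g h k F G Φ Θ θ φ χ η ξ a b V : ℂ → ℂ} {K A O S Z : Set ℂ} {z p q w : ℂ} {j : ι}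
  {R M t L ε : ℝ}

theorem tent1_sm (x : ℂ) : ContDiff ℝ ∞ fun w : ℂ => conj (w - x) :=
  conjCLE.contDiff.comp (contDiff_id.sub contDiff_const)

theorem tent1_cc {κ : ℂ → ℂ} (x : ℂ) (hκ : Cc κ) : Cc fun w => κ w * conj (w - x) :=
  hκ.mul (tent1_sm x)

theorem tent1_db (x w : ℂ) : db (fun w : ℂ => conj (w - x)) w = 1 := by
  have e : (fun w : ℂ => conj (w - x)) = fun w => conj w - conj x := by
    funext v
    rw [map_sub]
  have d : DifferentiableAt ℝ (fun w : ℂ => conj w) w := conjCLE.differentiableAt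
  rw [e, db_sub d (differentiableAt_const _), db_conj_id, db_const, sub_zero]

theorem tent1_test {x : ℂ} {κ : ℂ → ℂ} (hQ : Fam Q) (hF : Pre Q F) (hχ : Cut Q j χ)
    (hκ : Cc κ) : Test Q fun z => χ z * (κ (F z) * conj (F z - x)) :=
  test_comp (Θ := fun w => κ w * conj (w - x)) hQ hF hχ.locC (tent1_cc x hκ).1
    (tent1_cc x hκ).db.bdd

theorem tent1_split (hQ : Fam Q) (hF : Pre Q F) (hh : Test Q h) (hk : Test Q k) (α β : ℂ) :
    ∫ z in Om Q, deriv F z * db (fun z => α * h z + β * k z) z =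
      α * (∫ z in Om Q, deriv F z * db h z) + β * ∫ z in Om Q, deriv F z * db k z := by
  rw [← integral_const_mul, ← integral_const_mul,
    ← integral_add ((hh.int_mul hQ hF.l2).const_mul α) ((hk.int_mul hQ hF.l2).const_mul β)]
  refine setIntegral_congr_fun hQ.isOpen.measurableSet fun z hz => ?_
  have d1 := hh.diffAt hQ hz
  have d2 := hk.diffAt hQ hz
  show deriv F z * db (fun z => α * h z + β * k z) z = _
  rw [db_add (d1.const_mul α) (d2.const_mul β), db_const_mul α d1, db_const_mul β d2]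
  ring

theorem ext_test {x : ℂ} {κ : ℂ → ℂ} (hW : Wind Q F W) (hr : 0 ≤ r j)
    (hc : ∀ᵐ w, W j w = (ball x (r j)).indicator 1 w) (hχ : Cut Q j χ) (hκ : Cc κ)
    (h1 : ∀ w ∈ ball x (r j), κ w = 1) :
    ∫ z in Om Q, deriv F z * db (fun z => χ z * (κ (F z) * conj (F z - x))) z =
      -((π * r j ^ 2 : ℝ) : ℂ) := by
  have hΘ := tent1_cc x hκ
  have h := hW.w1 j χ _ hχ hΘ.1 hΘ.db.bdd
  have h2 : ∫ w, (W j w : ℂ) * db (fun w => κ w * conj (w - x)) w =
      ∫ w, (ball x (r j)).indicator (fun _ => (1 : ℂ)) w := by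
    refine integral_congr_ae (hc.mono fun w hw => ?_)
    by_cases hm : w ∈ ball x (r j)
    · have e : db (fun w => κ w * conj (w - x)) w = 1 := by
        rw [db_congr (g := fun w => conj (w - x)) ?_, tent1_db]
        filter_upwards [isOpen_ball.mem_nhds hm] with v hv
        rw [h1 v hv, one_mul]
      show (W j w : ℂ) * db (fun w => κ w * conj (w - x)) w = _
      rw [hw, e, indicator_of_mem hm, indicator_of_mem hm]
      simp
    · show (W j w : ℂ) * db (fun w => κ w * conj (w - x)) w = _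
      rw [hw, indicator_of_notMem hm, indicator_of_notMem hm]
      simp
  have h3 : volume.real (ball x (r j)) = π * r j ^ 2 := by
    rw [Measure.real, Complex.volume_ball, ENNReal.toReal_mul, ENNReal.toReal_pow,
      ENNReal.toReal_ofReal hr, ENNReal.coe_toReal, NNReal.coe_real_pi, mul_comm]
  rw [h2, integral_indicator measurableSet_ball, setIntegral_const, h3, real_smul, mul_one] at h
  exact neg_eq_iff_eq_neg.1 h

theorem tent1 {x : ℂ} (hQ : Fam Q) (hS : Sol Q F r) (hW : Wind Q F W)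
    (hc : ∀ᵐ w, W j w = (ball x (r j)).indicator 1 w) (hk : Test Q k)
    (hb : ∃ M : ℝ, ∀ z ∈ Om Q, ‖k z‖ ≤ M)
    (h0 : ∀ i, i ≠ j → ∀ᶠ z in 𝓝ˢ (Q i), z ∈ Om Q → k z = 0)
    (hs : ∃ δ > 0, ∀ z ∈ Om Q, F z ∈ ball x (r j + δ) → k z = 0) :
    ∫ z in Om Q, deriv F z * db k z = 0 := by
  classical
  obtain ⟨M₀, hM₀⟩ := hb
  obtain ⟨δ₀, hδ₀, hs⟩ := hs
  obtain ⟨M, hM1, hM⟩ : ∃ M : ℝ, 0 < M ∧ ∀ z ∈ Om Q, ‖k z‖ ≤ M :=
    ⟨max M₀ 1, lt_max_of_lt_right one_pos, fun z hz => (hM₀ z hz).trans (le_max_left _ _)⟩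
  obtain ⟨χ, hχ, hχ1, -⟩ := hQ.exists_Cut j isOpen_univ (subset_univ _)
  set X := ∫ z in Om Q, deriv F z * db k z with hX
  obtain ⟨u, hu1, hu⟩ := RCLike.exists_norm_eq_mul_self X
  have hr := hS.r0 j
  have key : ∀ δ : ℝ, 0 < δ → δ ≤ δ₀ → ‖X‖ ≤ M * π * δ := by
    intro δ hδ hδ1
    have hp : 0 < r j + δ := by linarith
    obtain ⟨κ, hκ, hκ1, hκs, hκe⟩ := exists_cut (isCompact_closedBall x (r j))
      (isOpen_ball (x := x) (ε := r j + δ)) (closedBall_subset_ball (by linarith))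
    have hT := tent1_test (x := x) hQ hS.pre hχ hκ
    have hI := ext_test hW hr hc hχ hκ fun w hw =>
      hκe.self_of_nhdsSet w (ball_subset_closedBall hw)
    have hN : Near Q (fun z => (((r j + δ)⁻¹ : ℝ) : ℂ) * (χ z * (κ (F z) * conj (F z - x))) +
        (-u * ((M⁻¹ : ℝ) : ℂ)) * k z) (Pi.single j 1) := by
      intro i
      by_cases hi : i = j
      · subst hi
        rw [Pi.single_eq_same]
        refine ⟨zero_le_one, 0, Eventually.of_forall fun z hz => ?_⟩
        rw [sub_zero]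
        beta_reduce
        by_cases hz2 : F z ∈ ball x (r i + δ)
        · rw [hs z hz (ball_subset_ball (by linarith) hz2), mul_zero, add_zero, norm_mul, norm_mul,
            norm_mul, RCLike.norm_conj, norm_real, Real.norm_of_nonneg (inv_nonneg.2 hp.le)]
          have a1 := hχ1.norm_le z
          have a2 := hκ1.norm_le (F z)
          have a3 : ‖F z - x‖ ≤ r i + δ := (mem_ball_iff_norm.1 hz2).le
          have a4 : ‖χ z‖ * (‖κ (F z)‖ * ‖F z - x‖) ≤ 1 * (1 * (r i + δ)) := by gcongr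
          rw [inv_mul_le_iff₀ hp]
          linarith
        · have a0 : κ (F z) = 0 := image_eq_zero_of_notMem_tsupport fun hh => hz2 (hκs hh)
          rw [a0, zero_mul, mul_zero, mul_zero, zero_add, norm_mul, norm_mul, norm_neg, hu1,
            one_mul, norm_real, Real.norm_of_nonneg (inv_nonneg.2 hM1.le), inv_mul_le_iff₀ hM1,
            mul_one]
          exact hM z hz
      · rw [Pi.single_eq_of_ne hi]
        refine ⟨le_rfl, 0, ?_⟩
        filter_upwards [hχ.2.2 i hi, h0 i hi] with z hz1 hz2 hz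
        simp [hz1, hz2 hz]
    have hst := hS.star _ _ ((hT.const_mul hQ _).add hQ (hk.const_mul hQ _)) hN
    have hsum : ∑ i, r i * (Pi.single j (1 : ℝ) : ι → ℝ) i = r j := by
      rw [Finset.sum_eq_single j (fun i _ hi => by rw [Pi.single_eq_of_ne hi, mul_zero])
        (fun hh => (hh (Finset.mem_univ j)).elim), Pi.single_eq_same, mul_one]
    have hval : (((r j + δ)⁻¹ : ℝ) : ℂ) * -((π * r j ^ 2 : ℝ) : ℂ) + (-u * ((M⁻¹ : ℝ) : ℂ)) * X =
        -((((r j + δ)⁻¹ * (π * r j ^ 2) + M⁻¹ * ‖X‖ : ℝ)) : ℂ) := by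
      have hu' : ((‖X‖ : ℝ) : ℂ) = u * X := hu
      rw [ofReal_add, ofReal_mul (r j + δ)⁻¹, ofReal_mul M⁻¹, hu']
      ring
    rw [tent1_split hQ hS.pre hT hk, hI, ← hX, hsum, hval, norm_neg, norm_real,
      Real.norm_of_nonneg (by positivity)] at hst
    have e1 : π * r j - π * δ ≤ (r j + δ)⁻¹ * (π * r j ^ 2) := by
      rw [le_inv_mul_iff₀ hp]
      have := mul_pos Real.pi_pos (mul_pos hδ hδ)
      nlinarith
    have e2 : M⁻¹ * ‖X‖ ≤ π * δ := by linarith
    rw [inv_mul_le_iff₀ hM1] at e2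
    linarith
  have hc0 : 0 < M * π := mul_pos hM1 Real.pi_pos
  refine norm_le_zero_iff.1 (le_of_forall_pos_le_add fun e he => ?_)
  have h1 := key (min δ₀ (e / (M * π))) (lt_min hδ₀ (div_pos he hc0)) (min_le_left _ _)
  have h2 : M * π * min δ₀ (e / (M * π)) ≤ M * π * (e / (M * π)) :=
    mul_le_mul_of_nonneg_left (min_le_right _ _) hc0.le
  rw [mul_div_cancel₀ _ hc0.ne'] at h2
  linarith

theorem match_disc {x : ℂ} (hQ : Fam Q) (hS : Sol Q F r) (hW : Wind Q F W)
    (hc : ∀ᵐ w, W j w = (ball x (r j)).indicator 1 w) (hE : Ends Q F E) (hr : 0 < r j)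
    (hd : Disjoint (closedBall x (r j)) (F '' Om Q)) : closedBall x (r j) ⊆ E j := by
  have hsub : closedBall x (r j) ⊆ E j ∪ ⋃ i ∈ {i | i ≠ j}, E i := by
    intro w hw
    have h1 : w ∉ (⋃ i, E i)ᶜ := hE.img ▸ disjoint_left.1 hd hw
    obtain ⟨i, hi⟩ := mem_iUnion.1 (not_notMem.1 h1)
    by_cases hij : i = j
    · exact Or.inl (hij ▸ hi)
    · exact Or.inr (mem_biUnion (show i ∈ {i | i ≠ j} from hij) hi)
  have hdj : ∀ w ∈ ⋃ i ∈ {i | i ≠ j}, E i, w ∉ E j := by
    intro w hw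
    obtain ⟨i, hi, hw⟩ := mem_iUnion₂.1 hw
    exact disjoint_left.1 (hE.disj hi) hw
  rcases isPreconnected_iff_subset_of_disjoint_closed.1 (convex_closedBall x (r j)).isPreconnected
    _ _ (hE.cpt j).isClosed ((toFinite _).isClosed_biUnion fun i _ => (hE.cpt i).isClosed) hsub
    (eq_empty_of_forall_notMem fun w hw => hdj w hw.2.2 hw.2.1) with h | h
  · exact h
  exfalso
  obtain ⟨κ, hκ, -, hκs, hκe⟩ := exists_cut (isCompact_closedBall x (r j))
    (hE.cpt j).isClosed.isOpen_compl fun w hw => hdj w (h hw)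
  obtain ⟨χ, hχ, -, -⟩ := hQ.exists_Cut j isOpen_univ (subset_univ _)
  have hI := ext_test hW hr.le hc hχ hκ fun w hw =>
    hκe.self_of_nhdsSet w (ball_subset_closedBall hw)
  have hn : (tsupport κ)ᶜ ∈ 𝓝ˢ (E j) :=
    (isClosed_tsupport κ).isOpen_compl.mem_nhdsSet.2 (subset_compl_comm.1 hκs)
  have hev : ∀ᶠ z in 𝓝ˢ (Q j), z ∈ Om Q → F z ∈ (tsupport κ)ᶜ :=
    eventually_inf_principal.1 (hE.lim j hn)
  have hN : Near Q (fun z => χ z * (κ (F z) * conj (F z - x))) fun _ => 0 := by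
    intro i
    refine ⟨le_rfl, 0, ?_⟩
    by_cases hi : i = j
    · subst hi
      filter_upwards [hev] with z hz1 hz
      simp [image_eq_zero_of_notMem_tsupport (hz1 hz)]
    · filter_upwards [hχ.2.2 i hi] with z hz1 _
      simp [hz1]
  have hst := hS.star _ _ (tent1_test hQ hS.pre hχ hκ) hN
  have hpos : 0 < π * r j ^ 2 := by positivity
  rw [hI, norm_neg, norm_real, Real.norm_of_nonneg hpos.le] at hst
  simp only [mul_zero, Finset.sum_const_zero] at hst
  linarith

end Vale.P116B
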